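import Mathlib

set_option autoImplicit false

namespace Crest.Agent.H0069

abbrev F2 := ZMod 2

/-- cochains: functions on ordered tuples -/
abbrev Co (X : Type*) := List X → F2

theorem f2_add_self (a : F2) : a + a = 0 := CharTwo.add_self_eq_zero a

theorem f2_eq_of_add {a b : F2} (h : a + b = 0) : a = b := by
  have := f2_add_self b
  linear_combination h - this

theorem f2_two : (2 : F2) = 0 := rfl

section
variable {X Y Z : Type*}

def dl : List X → Co X → F2
  | [], _ => 0
  | x :: l, γ => γ l + dl l (fun m => γ (x :: m))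

def pl (f g : X → Y) : List X → Co Y → F2
  | [], _ => 0
  | x :: l, γ => γ (f x :: g x :: l.map g) + pl f g l (fun m => γ (f x :: m))

theorem dl_add (l : List X) : ∀ α β : Co X, dl l (α + β) = dl l α + dl l β := by
  induction l with
  | nil => intro α β; simp [dl]
  | cons x l ih =>
    intro α β
    have := ih (fun m => α (x :: m)) (fun m => β (x :: m))
    simp only [dl, Pi.add_apply]
    rw [show (fun m => α (x :: m) + β (x :: m)) = (fun m => α (x :: m)) + (fun m => β (x :: m))
      from rfl, this]
    ring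

theorem pl_add (f g : X → Y) (l : List X) :
    ∀ α β : Co Y, pl f g l (α + β) = pl f g l α + pl f g l β := by
  induction l with
  | nil => intro α β; simp [pl]
  | cons x l ih =>
    intro α β
    have := ih (fun m => α (f x :: m)) (fun m => β (f x :: m))
    simp only [pl, Pi.add_apply]
    rw [show (fun m => α (f x :: m) + β (f x :: m)) =
      (fun m => α (f x :: m)) + (fun m => β (f x :: m)) from rfl, this]
    ring

theorem dl_eq_zero (l : List X) : ∀ γ : Co X,
    (∀ m : List X, m.length + 1 = l.length → (∀ b ∈ m, b ∈ l) → γ m = 0) → dl l γ = 0 := by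
  induction l with
  | nil => intro γ _; rfl
  | cons x l ih =>
    intro γ h
    simp only [dl]
    rw [h l rfl (fun b hb => List.mem_cons_of_mem _ hb), ih, add_zero]
    intro m hm hb
    apply h
    · simp [hm]
    · intro b hb'
      rcases List.mem_cons.1 hb' with rfl | hb'
      · exact List.mem_cons_self
      · exact List.mem_cons_of_mem _ (hb b hb')

theorem pl_eq_zero (f g : X → Y) (l : List X) : ∀ γ : Co Y,
    (∀ m : List Y, m.length = l.length + 1 → (∀ b ∈ m, ∃ a ∈ l, b = f a ∨ b = g a) → γ m = 0) →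
      pl f g l γ = 0 := by
  induction l with
  | nil => intro γ _; rfl
  | cons x l ih =>
    intro γ h
    simp only [pl]
    rw [h _ (by simp), ih, add_zero]
    · intro m hm hb
      apply h
      · simp [hm]
      · intro b hb'
        rcases List.mem_cons.1 hb' with rfl | hb'
        · exact ⟨x, List.mem_cons_self, Or.inl rfl⟩
        · obtain ⟨a, ha, h2⟩ := hb b hb'
          exact ⟨a, List.mem_cons_of_mem _ ha, h2⟩
    · intro b hb
      rcases List.mem_cons.1 hb with rfl | hb
      · exact ⟨x, List.mem_cons_self, Or.inl rfl⟩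
      rcases List.mem_cons.1 hb with rfl | hb
      · exact ⟨x, List.mem_cons_self, Or.inr rfl⟩
      obtain ⟨a, ha, rfl⟩ := List.mem_map.1 hb
      exact ⟨a, List.mem_cons_of_mem _ ha, Or.inr rfl⟩

/-- coboundary -/
def cob : Co X →+ Co X :=
  AddMonoidHom.mk' (fun γ l => dl l γ) (fun α β => funext fun l => dl_add l α β)

/-- prism operator -/
def pr (f g : X → Y) : Co Y →+ Co X :=
  AddMonoidHom.mk' (fun γ l => pl f g l γ) (fun α β => funext fun l => pl_add f g l α β)

/-- pull-back -/
def pb (f : X → Y) : Co Y →+ Co X :=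
  AddMonoidHom.mk' (fun γ l => γ (l.map f)) (fun _ _ => rfl)

open Classical in
/-- restriction to a set of tuples -/
noncomputable def rs (p : List X → Prop) : Co X →+ Co X :=
  AddMonoidHom.mk' (fun γ l => if p l then γ l else 0) (fun α β => funext fun l => by
    by_cases h : p l <;> simp [h])

theorem cob_apply (γ : Co X) (l : List X) : cob γ l = dl l γ := rfl
theorem pr_apply (f g : X → Y) (γ : Co Y) (l : List X) : pr f g γ l = pl f g l γ := rfl
theorem pb_apply (f : X → Y) (γ : Co Y) (l : List X) : pb f γ l = γ (l.map f) := rfl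
theorem rs_pos {p : List X → Prop} (γ : Co X) {l : List X} (h : p l) : rs p γ l = γ l := by
  simp [rs, h]
theorem rs_neg {p : List X → Prop} (γ : Co X) {l : List X} (h : ¬ p l) : rs p γ l = 0 := by
  simp [rs, h]
theorem rs_add_rs (p : List X → Prop) (γ : Co X) : rs p γ + rs (fun l => ¬ p l) γ = γ := by
  funext l
  by_cases h : p l
  · simp [rs_pos γ h, rs_neg (p := fun l => ¬ p l) γ (not_not.2 h)]
  · simp [rs_neg γ h, rs_pos (p := fun l => ¬ p l) γ h]

theorem dl_pb (f : X → Y) (l : List X) : ∀ γ : Co Y, dl l (pb f γ) = dl (l.map f) γ := by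
  induction l with
  | nil => intro γ; rfl
  | cons x l ih =>
    intro γ
    simp only [dl, List.map_cons]
    rw [← ih]; rfl

theorem cob_pb (f : X → Y) (γ : Co Y) : cob (pb f γ) = pb f (cob γ) :=
  funext fun l => dl_pb f l γ

theorem dl_cob (l : List X) : ∀ γ : Co X, dl l (cob γ) = 0 := by
  induction l with
  | nil => intro γ; rfl
  | cons x l ih =>
    intro γ
    have h1 : (fun m => cob γ (x :: m)) = γ + cob (fun m => γ (x :: m)) := rfl
    simp only [dl]
    rw [h1, dl_add, ih, cob_apply, add_zero, f2_add_self]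

theorem cob_cob (γ : Co X) : cob (cob γ) = 0 := funext fun l => dl_cob l γ

theorem prism_list (f g : X → Y) (l : List X) : ∀ γ : Co Y,
    pl f g l (cob γ) + dl l (pr f g γ) = γ (l.map f) + γ (l.map g) := by
  induction l with
  | nil => intro γ; simp [pl, dl, f2_add_self]
  | cons x l ih =>
    intro γ
    have h1 : (fun m => cob γ (f x :: m)) = γ + cob (fun m => γ (f x :: m)) := rfl
    have h2 : (fun m => pr f g γ (x :: m)) =
        pb g (fun m => γ (f x :: g x :: m)) + pr f g (fun m => γ (f x :: m)) := rfl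
    have h3 := ih (fun m => γ (f x :: m))
    simp only [pl, dl]
    rw [h1, h2, pl_add, dl_add, dl_pb, cob_apply, pr_apply]
    simp only [dl, List.map_cons]
    have e1 := f2_add_self (pl f g l γ)
    have e2 := f2_add_self (dl (l.map g) (fun m => γ (f x :: g x :: m)))
    have e3 := f2_add_self (γ (f x :: l.map g))
    linear_combination h3 + e1 + e2 + e3

theorem prism (f g : X → Y) (γ : Co Y) :
    pr f g (cob γ) + cob (pr f g γ) = pb f γ + pb g γ :=
  funext fun l => prism_list f g l γ

theorem co_add_self (γ : Co X) : γ + γ = 0 := funext fun l => f2_add_self (γ l)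

/-- chains are additive functionals on cochains -/
abbrev Ch (X : Type*) := Co X →+ F2

def Supp (ζ : Ch X) (P : List X → Prop) : Prop := ∀ γ : Co X, (∀ l, P l → γ l = 0) → ζ γ = 0

theorem Supp.mono {ζ : Ch X} {P Q : List X → Prop} (h : Supp ζ P) (hPQ : ∀ l, P l → Q l) :
    Supp ζ Q := fun γ hγ => h γ fun l hl => hγ l (hPQ l hl)

theorem Supp.and {ζ : Ch X} {P Q : List X → Prop} (hP : Supp ζ P) (hQ : Supp ζ Q) :
    Supp ζ (fun l => P l ∧ Q l) := by
  intro γ hγ
  rw [← rs_add_rs P γ, map_add, hQ (rs P γ), hP, add_zero]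
  · intro l hl
    exact rs_neg (p := fun l => ¬ P l) γ (not_not.2 hl)
  · intro l hl
    by_cases h : P l
    · rw [rs_pos γ h]; exact hγ l ⟨h, hl⟩
    · exact rs_neg γ h

theorem Supp.add {ζ ξ : Ch X} {P Q : List X → Prop} (hP : Supp ζ P) (hQ : Supp ξ Q) :
    Supp (ζ + ξ) (fun l => P l ∨ Q l) := by
  intro γ hγ
  rw [AddMonoidHom.add_apply, hP γ (fun l hl => hγ l (Or.inl hl)),
    hQ γ (fun l hl => hγ l (Or.inr hl)), add_zero]

theorem Supp.congr {ζ : Ch X} {P : List X → Prop} (h : Supp ζ P) {α β : Co X}
    (hab : ∀ l, P l → α l = β l) : ζ α = ζ β := by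
  apply f2_eq_of_add
  rw [← map_add]
  apply h
  intro l hl
  rw [Pi.add_apply, hab l hl, f2_add_self]

theorem Supp.exists {ζ : Ch X} {P : List X → Prop} (h : Supp ζ P) {γ : Co X} (hγ : ζ γ ≠ 0) :
    ∃ l, P l ∧ γ l ≠ 0 := by
  by_contra hc
  push Not at hc
  exact hγ (h γ hc)

theorem Supp.comp {ζ : Ch X} {P : List X → Prop} (h : Supp ζ P) (T : Co Y →+ Co X)
    {Q : List Y → Prop} (hT : ∀ γ : Co Y, (∀ m, Q m → γ m = 0) → ∀ l, P l → T γ l = 0) :
    Supp (ζ.comp T) Q := fun γ hγ => h _ (hT γ hγ)

theorem Supp.res {ζ : Ch X} {P : List X → Prop} (h : Supp ζ P) (p : List X → Prop) :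
    Supp (ζ.comp (rs p)) (fun l => P l ∧ p l) := by
  apply h.comp
  intro γ hγ l hl
  by_cases hp : p l
  · rw [rs_pos γ hp]; exact hγ l ⟨hl, hp⟩
  · exact rs_neg γ hp

theorem Supp.bd {ζ : Ch X} {P : List X → Prop} (h : Supp ζ P) {Q : List X → Prop}
    (hQ : ∀ l, P l → ∀ m : List X, m.length + 1 = l.length → (∀ b ∈ m, b ∈ l) → Q m) :
    Supp (ζ.comp cob) Q := by
  apply h.comp
  intro γ hγ l hl
  exact dl_eq_zero l γ fun m h1 h2 => hγ m (hQ l hl m h1 h2)

theorem Supp.map {ζ : Ch X} {P : List X → Prop} (h : Supp ζ P) (f : X → Y) {Q : List Y → Prop}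
    (hQ : ∀ l, P l → Q (l.map f)) : Supp (ζ.comp (pb f)) Q := by
  apply h.comp
  intro γ hγ l hl
  exact hγ _ (hQ l hl)

theorem supp_zero (P : List X → Prop) : Supp (0 : Ch X) P := fun _ _ => rfl

/-- evaluation at one tuple -/
def ev (l : List X) : Ch X := AddMonoidHom.mk' (fun γ => γ l) (fun _ _ => rfl)

theorem ev_apply (l : List X) (γ : Co X) : ev l γ = γ l := rfl

theorem supp_ev (l : List X) : Supp (ev l) (fun m => m = l) := fun _ hγ => hγ l rfl

theorem comp_rs_add (ζ : Ch X) (p : List X → Prop) :
    ζ.comp (rs p) + ζ.comp (rs fun l => ¬ p l) = ζ := by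
  ext γ
  simp only [AddMonoidHom.add_apply, AddMonoidHom.comp_apply]
  rw [← map_add, rs_add_rs]

/-- telescoping sum of prisms -/
def tele (f : ℕ → X → Y) (J : ℕ) : Co Y →+ Co X := ∑ j ∈ Finset.range J, pr (f j) (f (j + 1))

theorem tele_prism (f : ℕ → X → Y) (J : ℕ) (γ : Co Y) :
    tele f J (cob γ) + cob (tele f J γ) = pb (f 0) γ + pb (f J) γ := by
  induction J with
  | zero => simp [tele, co_add_self]
  | succ J ih =>
    have h := prism (f J) (f (J + 1)) γ
    have e : tele f (J + 1) = tele f J + pr (f J) (f (J + 1)) := by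
      simp [tele, Finset.sum_range_succ]
    rw [e]
    simp only [AddMonoidHom.add_apply, map_add]
    have e2 := co_add_self (pb (f J) γ)
    linear_combination ih + h + e2

theorem tele_eq_zero (f : ℕ → X → Y) (J : ℕ) (γ : Co Y) (l : List X)
    (h : ∀ j < J, ∀ m : List Y, m.length = l.length + 1 →
      (∀ b ∈ m, ∃ a ∈ l, b = f j a ∨ b = f (j + 1) a) → γ m = 0) : tele f J γ l = 0 := by
  simp only [tele, AddMonoidHom.finsetSum_apply, Finset.sum_apply]
  apply Finset.sum_eq_zero
  intro j hj
  exact pl_eq_zero _ _ l γ (h j (Finset.mem_range.1 hj))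

end

section hat
variable {X L : Type*} [DecidableEq L]

/-- link of a function on label sets -/
def lk (F : Finset L → F2) (e : L) : Finset L → F2 :=
  fun S => if e ∈ S then 0 else F (insert e S)

def hat (lab : X → L) : (Finset L → F2) → Co X
  | F, [] => F ∅
  | F, x :: l => hat lab (lk F (lab x)) l

def DD (F : Finset L → F2) : Finset L → F2 := fun S => ∑ e ∈ S, F (S.erase e)

theorem lk_add (F G : Finset L → F2) (e : L) : lk (F + G) e = lk F e + lk G e := by
  funext S; by_cases h : e ∈ S <;> simp [lk, h]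

theorem lk_zero (e : L) : lk (0 : Finset L → F2) e = 0 := by
  funext S; simp [lk]

theorem lk_lk (F : Finset L → F2) (e : L) : lk (lk F e) e = 0 := by
  funext S; by_cases h : e ∈ S <;> simp [lk, h]

theorem hat_add (lab : X → L) (l : List X) : ∀ F G : Finset L → F2,
    hat lab (F + G) l = hat lab F l + hat lab G l := by
  induction l with
  | nil => intro F G; rfl
  | cons x l ih => intro F G; simp only [hat, lk_add, ih]

theorem hat_zero (lab : X → L) (l : List X) : hat lab 0 l = 0 := by
  induction l with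
  | nil => rfl
  | cons x l ih => simp only [hat, lk_zero, ih]

theorem hat_eq (lab : X → L) (l : List X) : ∀ F : Finset L → F2,
    hat lab F l = if (l.map lab).Nodup then F (l.map lab).toFinset else 0 := by
  induction l with
  | nil => intro F; simp [hat]
  | cons x l ih =>
    intro F
    simp only [hat, ih, List.map_cons, List.nodup_cons, List.toFinset_cons, lk, List.mem_toFinset]
    by_cases h1 : (l.map lab).Nodup <;> by_cases h2 : lab x ∈ l.map lab <;> simp only [h1, h2] <;>
      simp

theorem hat_ne_zero {lab : X → L} {l : List X} {F : Finset L → F2} (h : hat lab F l ≠ 0) :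
    (l.map lab).Nodup ∧ F (l.map lab).toFinset ≠ 0 := by
  rw [hat_eq] at h
  by_cases h1 : (l.map lab).Nodup
  · simp only [h1, if_true] at h; exact ⟨h1, h⟩
  · simp [h1] at h

theorem hat_congr {lab : X → L} {l : List X} {F G : Finset L → F2}
    (h : (l.map lab).Nodup → F (l.map lab).toFinset = G (l.map lab).toFinset) :
    hat lab F l = hat lab G l := by
  rw [hat_eq, hat_eq]
  by_cases h1 : (l.map lab).Nodup
  · simp only [h1, if_true]; exact h h1
  · simp [h1]

theorem hat_congr_lab {Y : Type*} {lab : X → L} {lab' : Y → L} {l : List X} {l' : List Y}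
    (F : Finset L → F2) (h : l.map lab = l'.map lab') : hat lab F l = hat lab' F l' := by
  rw [hat_eq, hat_eq, h]

theorem lk_DD (F : Finset L → F2) (e : L) : lk (DD F) e = F + DD (lk F e) := by
  funext S
  by_cases h : e ∈ S
  · simp only [lk, h, if_true, DD, Pi.add_apply]
    rw [Finset.sum_eq_single e]
    · simp [Finset.insert_erase h, f2_add_self]
    · intro b _ hb
      simp [h, hb.symm]
    · intro h'; exact absurd h h'
  · simp only [lk, h, if_false, DD, Pi.add_apply]
    rw [Finset.sum_insert h, Finset.erase_insert h]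
    congr 1
    apply Finset.sum_congr rfl
    intro b hb
    have hne : e ≠ b := fun h' => h (h' ▸ hb)
    have : e ∉ S.erase b := fun h' => h (Finset.mem_of_mem_erase h')
    simp only [this, if_false]
    rw [Finset.erase_insert_of_ne hne]

theorem dl_hat (lab : X → L) (l : List X) : ∀ F : Finset L → F2,
    dl l (hat lab F) = hat lab (DD F) l := by
  induction l with
  | nil => intro F; simp [dl, hat, DD]
  | cons x l ih =>
    intro F
    simp only [dl, hat]
    rw [show (fun m => hat lab (lk F (lab x)) m) = hat lab (lk F (lab x)) from rfl, ih, lk_DD,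
      hat_add]

theorem cob_hat (lab : X → L) (F : Finset L → F2) : cob (hat lab F) = hat lab (DD F) :=
  funext fun l => dl_hat lab l F

/-- indicator of one label set -/
def ind (π : Finset L) : Finset L → F2 := fun S => if S = π then 1 else 0

theorem DD_ind_ne {π S : Finset L} (h : DD (ind π) S ≠ 0) : ∃ e, e ∉ π ∧ S = insert e π := by
  obtain ⟨e, he, h2⟩ := Finset.exists_ne_zero_of_sum_ne_zero h
  have h3 : S.erase e = π := by
    by_contra hc; simp [ind, hc] at h2
  exact ⟨e, h3 ▸ Finset.notMem_erase e S, by rw [← h3, Finset.insert_erase he]⟩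

end hat

end Crest.Agent.H0069
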