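import Crest.Agent.H0069.Cup

set_option autoImplicit false

namespace Crest.Agent.H0069

open Filter Topology

theorem ev_le {δ : ℝ} (hδ : 0 < δ) : ∀ᶠ ε in 𝓝[>] (0 : ℝ), ε ≤ δ :=
  mem_nhdsWithin_of_mem_nhds (Iic_mem_nhds hδ)

theorem ev_pos : ∀ᶠ ε in 𝓝[>] (0 : ℝ), 0 < ε := self_mem_nhdsWithin

theorem leb {X L : Type*} [PseudoMetricSpace X] {K : Set X} (hK : IsCompact K) (G : L → Set X)
    (π : Finset L) (hG : ∀ e ∈ π, IsClosed (G e)) (h : ∀ x ∈ K, ∃ e ∈ π, x ∉ G e) :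
    ∀ᶠ δ in 𝓝[>] (0 : ℝ), ∀ x ∈ K, ∃ e ∈ π, ∀ y, dist x y ≤ δ → y ∉ G e := by
  obtain ⟨δ, hδ, H⟩ := lebesgue_number_lemma_of_metric (c := fun e : π => (G e)ᶜ) hK
    (fun e => (hG e e.2).isOpen_compl) (by
      intro x hx
      obtain ⟨e, he, h2⟩ := h x hx
      exact Set.mem_iUnion.2 ⟨⟨e, he⟩, h2⟩)
  filter_upwards [ev_le (half_pos hδ)] with ε hε x hx
  obtain ⟨e, he⟩ := H x hx
  refine ⟨e, e.2, fun y hy => he ?_⟩
  rw [Metric.mem_ball, dist_comm]; linarith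

section
variable {κ : Type*} [Fintype κ] [DecidableEq κ] {C : Type} [DecidableEq C]

structure ACov (Lc : List C) (G : Bool × C → Set (κ → ℝ)) : Prop where
  nodup : Lc.Nodup
  closed : ∀ e, IsClosed (G e)
  cover : ∀ A ∈ S1 κ, ∃ e, e.2 ∈ Lc ∧ A ∈ G e
  anti : ∀ e A, A ∈ G e → -A ∈ G (nl e)
  disj : ∀ A ∈ S1 κ, ∀ i ∈ Lc, ¬ (A ∈ G (true, i) ∧ A ∈ G (false, i))

structure Lab (Lc : List C) (G : Bool × C → Set (κ → ℝ)) (lab : (κ → ℝ) → Bool × C) : Prop where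
  odd : ∀ x ∈ S1 κ, lab (-x) = nl (lab x)
  col : ∀ x ∈ S1 κ, (lab x).2 ∈ Lc
  mem : ∀ x ∈ S1 κ, x ∈ G (lab x)

omit [DecidableEq κ] in
theorem exists_orient : ∃ o : (κ → ℝ) → Prop, ∀ A ∈ S1 κ, (o A ↔ ¬ o (-A)) := by
  refine ⟨fun A => WellOrderingRel A (-A), fun A hA => ?_⟩
  simp only [neg_neg]
  have hne := S1_ne_neg hA
  constructor
  · intro h h'; exact asymm h h'
  · intro h
    rcases trichotomous_of WellOrderingRel A (-A) with h1 | h1 | h1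
    · exact h1
    · exact absurd h1 hne
    · exact absurd h1 h

omit [DecidableEq κ] [DecidableEq C] in
theorem exists_lab {Lc : List C} {G : Bool × C → Set (κ → ℝ)} (hG : ACov Lc G)
    (o : (κ → ℝ) → Prop) (ho : ∀ A ∈ S1 κ, (o A ↔ ¬ o (-A))) (l0 : (κ → ℝ) → Bool × C)
    (h0 : ∀ A ∈ S1 κ, (l0 A).2 ∈ Lc ∧ A ∈ G (l0 A)) :
    ∃ lab, Lab Lc G lab ∧ ∀ A, o A → lab A = l0 A := by
  classical
  refine ⟨fun A => if o A then l0 A else nl (l0 (-A)), ⟨?_, ?_, ?_⟩, fun A hA => if_pos hA⟩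
  · intro x hx
    by_cases h : o x
    · simp [h, (ho x hx).1 h]
    · have : o (-x) := by by_contra h'; exact h ((ho x hx).2 h')
      simp [h, this, nl_nl]
  · intro x hx
    by_cases h : o x
    · simpa [h] using (h0 x hx).1
    · simpa [h, nl] using (h0 _ (S1_neg hx)).1
  · intro x hx
    by_cases h : o x
    · simpa [h] using (h0 x hx).2
    · simpa [h] using hG.anti _ _ (h0 _ (S1_neg hx)).2

omit [DecidableEq κ] [DecidableEq C] in
theorem exists_lab0 {Lc : List C} {G : Bool × C → Set (κ → ℝ)} (hG : ACov Lc G) [Nonempty C] :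
    ∃ l0 : (κ → ℝ) → Bool × C, ∀ A ∈ S1 κ, (l0 A).2 ∈ Lc ∧ A ∈ G (l0 A) := by
  choose! l0 h using hG.cover
  exact ⟨l0, h⟩

omit [DecidableEq κ] [DecidableEq C] in
theorem exists_lab' {Lc : List C} {G : Bool × C → Set (κ → ℝ)} (hG : ACov Lc G) [Nonempty C] :
    ∃ lab, Lab Lc G lab := by
  obtain ⟨o, ho⟩ := exists_orient (κ := κ)
  obtain ⟨l0, h0⟩ := exists_lab0 hG
  obtain ⟨lab, h, -⟩ := exists_lab hG o ho l0 h0
  exact ⟨lab, h⟩

omit [DecidableEq κ] in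
theorem ev_nc {Lc : List C} {G : Bool × C → Set (κ → ℝ)} (hG : ACov Lc G)
    {lab : (κ → ℝ) → Bool × C} (hl : Lab Lc G lab) :
    ∀ᶠ ε in 𝓝[>] (0 : ℝ), ∀ x ∈ S1 κ, ∀ y ∈ S1 κ, dist x y ≤ ε → lab y ≠ nl (lab x) := by
  have h : ∀ i ∈ Lc.toFinset, ∀ᶠ δ in 𝓝[>] (0 : ℝ), ∀ x ∈ S1 κ,
      ∃ e ∈ ({(true, i), (false, i)} : Finset (Bool × C)), ∀ y, dist x y ≤ δ → y ∉ G e := by
    intro i hi
    apply leb S1_compact G _ (fun e _ => hG.closed e)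
    intro x hx
    have := hG.disj x hx i (List.mem_toFinset.1 hi)
    by_cases h1 : x ∈ G (true, i)
    · exact ⟨(false, i), by simp, fun h => this ⟨h1, h⟩⟩
    · exact ⟨(true, i), by simp, h1⟩
  filter_upwards [(Finset.eventually_all _).2 h, ev_pos] with ε hε hε0 x hx y hy hd hxy
  obtain ⟨e, he, H⟩ := hε _ (List.mem_toFinset.2 (hl.col x hx)) x hx
  have h1 := H x (by simpa using hε0.le)
  have h2 := H y hd
  have m1 := hl.mem x hx
  have m2 := hl.mem y hy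
  rw [hxy] at m2
  generalize lab x = u at *
  obtain ⟨b, i⟩ := u
  simp only [Finset.mem_insert, Finset.mem_singleton] at he
  cases b <;> rcases he with rfl | rfl <;> simp_all [nl]

theorem kf_par [Nonempty κ] {Lc : List C} {G : Bool × C → Set (κ → ℝ)} (hG : ACov Lc G)
    (hlen : Lc.length = Fintype.card κ) {lab : (κ → ℝ) → Bool × C} (hl : Lab Lc G lab)
    (t : C → Bool) : ∀ᶠ ε in 𝓝[>] (0 : ℝ), ∃ Z : Ch (κ → ℝ),
      Supp Z (fun l => l.length = Fintype.card κ ∧ (∀ a ∈ l, a ∈ S1 κ) ∧ small ε l) ∧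
      (∀ γ, Z (cob γ) = 0) ∧ Z (hat lab (ind (patt Lc t))) = 1 := by
  filter_upwards [ev_nc hG hl, ev_pos] with ε hε hε0
  obtain ⟨Z, h1, h2, h3⟩ := kf_chain (κ := κ) ε hε0
  refine ⟨Z, h1, h2, ?_⟩
  rw [← h3 C Lc t lab hG.nodup hl.odd hl.col hε]
  apply h1.congr
  rintro l ⟨k1, k2, k3⟩
  apply hat_congr
  intro hnd
  symm
  apply altF_eq_ind Lc hG.nodup _ (nc_of_small hε k2 k3)
  · intro e he
    obtain ⟨a, ha, rfl⟩ := List.mem_map.1 (List.mem_toFinset.1 he)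
    exact hl.col a (k2 a ha)
  · rw [List.toFinset_card_of_nodup hnd, List.length_map, k1, hlen]

theorem kf_ex [Nonempty κ] {Lc : List C} {G : Bool × C → Set (κ → ℝ)} (hG : ACov Lc G)
    {lab : (κ → ℝ) → Bool × C} (hl : Lab Lc G lab) :
    ∀ᶠ ε in 𝓝[>] (0 : ℝ), ∃ l : List (κ → ℝ), l.length = Fintype.card κ ∧
      (∀ a ∈ l, a ∈ S1 κ) ∧ small ε l ∧ (l.map fun a => (lab a).2).Nodup := by
  filter_upwards [ev_nc hG hl, ev_pos] with ε hε hε0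
  obtain ⟨Z, h1, h2, h3⟩ := kf_chain (κ := κ) ε hε0
  have := h3 C Lc (fun _ => true) lab hG.nodup hl.odd hl.col hε
  obtain ⟨l, ⟨k1, k2, k3⟩, k4⟩ := h1.exists (by rw [this]; exact one_ne_zero)
  refine ⟨l, k1, k2, k3, ?_⟩
  have hnd := (hat_ne_zero k4).1
  have hNC := nc_of_small hε k2 k3
  rw [show (l.map fun a => (lab a).2) = (l.map lab).map Prod.snd by simp]
  apply hnd.map_on
  rintro ⟨b, i⟩ h1 ⟨b', j⟩ h2 h
  simp only at h
  subst h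
  by_contra hne
  have : b' = !b := by cases b <;> cases b' <;> simp_all
  exact hNC.not (List.mem_toFinset.2 h1) (List.mem_toFinset.2 (this ▸ h2))

theorem hat_ind_ne {X L : Type*} [DecidableEq L] {lab : X → L} {π : Finset L} {l : List X}
    (h : hat lab (ind π) l ≠ 0) : (∀ e ∈ π, ∃ a ∈ l, lab a = e) ∧ ∀ a ∈ l, lab a ∈ π := by
  have h2 : (l.map lab).toFinset = π := by
    have := (hat_ne_zero h).2
    by_contra h; simp [ind, h] at this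
  subst h2
  exact ⟨fun e he => List.mem_map.1 (List.mem_toFinset.1 he),
    fun a ha => List.mem_toFinset.2 (List.mem_map_of_mem ha)⟩

theorem kf_pat [Nonempty κ] [Nonempty C] {Lc : List C} {G : Bool × C → Set (κ → ℝ)}
    (hG : ACov Lc G) (hlen : Lc.length = Fintype.card κ) (t : C → Bool) :
    ∃ A ∈ S1 κ, ∀ i ∈ Lc, A ∈ G (t i, i) := by
  by_contra hc
  push Not at hc
  obtain ⟨lab, hl⟩ := exists_lab' hG
  have h1 := leb S1_compact G (patt Lc t) (fun e _ => hG.closed e) (by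
    intro x hx
    obtain ⟨i, hi, h⟩ := hc x hx
    exact ⟨(t i, i), mem_patt.2 ⟨hi, rfl⟩, h⟩)
  obtain ⟨ε, h1, Z, z1, -, z3⟩ := (h1.and (kf_par hG hlen hl t)).exists
  obtain ⟨l, ⟨k1, k2, k3⟩, k4⟩ := z1.exists (by rw [z3]; exact one_ne_zero)
  obtain ⟨a0, ha0⟩ : ∃ a, a ∈ l := List.exists_mem_of_length_pos (k1 ▸ Fintype.card_pos)
  obtain ⟨e, he, H⟩ := h1 a0 (k2 a0 ha0)
  obtain ⟨a, ha, rfl⟩ := (hat_ind_ne k4).1 e he
  exact H a (k3 _ ha0 _ ha) (hl.mem a (k2 a ha))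

variable {ι : Type*} [Fintype ι] [DecidableEq ι]

def Kb (L : List ι) (r : ℝ) (z : ι → ℝ) : Prop := ∀ k ∈ L, |z k| ≤ r

omit [DecidableEq ι] in
theorem Kb.of_dist {L : List ι} {r δ r' : ℝ} {z z' : ι → ℝ} (h : Kb L r z) (hd : dist z z' ≤ δ)
    (hr : r + δ ≤ r') : Kb L r' z' := by
  intro k hk
  have h1 := (dist_le_pi_dist z z' k).trans hd
  have h2 := h k hk
  rw [Real.dist_eq, abs_le] at *
  constructor <;> linarith

omit [DecidableEq ι] in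
theorem chart [Nonempty κ] [Nonempty C] {Lc : List C} {G : Bool × C → Set (κ → ℝ)}
    (hG : ACov Lc G) (hlen : Lc.length = Fintype.card κ) (t : C → Bool) (z0 : ι → ℝ)
    (L : List ι) (Γ : (κ → ℝ) → (ι → ℝ) → Prop) (lb : (ι → ℝ) → Bool × C)
    (hin : ∀ A ∈ S1 κ, ∀ z, Γ A z → ∀ k, k ∉ L → z k = z0 k)
    (hU : ∀ A ∈ S1 κ, ∀ z z', Γ A z → Γ A z' → Kb L 3 z → z' = z)
    (hC : ∀ δ > (0 : ℝ), ∀ᶠ ε in 𝓝[>] (0 : ℝ), ∀ A ∈ S1 κ, ∀ z, Γ A z → Kb L 3 z →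
      ∀ A' ∈ S1 κ, dist A A' ≤ ε → ∃ z', Γ A' z' ∧ dist z z' ≤ δ)
    (hadm : ∀ A ∈ S1 κ, ∀ z, Γ A z → Kb L 3 z → (lb z).2 ∈ Lc ∧ A ∈ G (lb z))
    (hanti : ∀ A ∈ S1 κ, ∀ z z', Γ A z → Kb L 3 z → Γ (-A) z' → Kb L 3 z' → False)
    (hpat : ∀ A ∈ S1 κ, (∀ i ∈ Lc, A ∈ G (t i, i)) → ∃ z, Γ A z ∧ Kb L 1 z)
    (δ : ℝ) (hδ : 0 < δ) :
    ∃ ζ : Ch (ι → ℝ),
      Supp ζ (fun l => l.length = Fintype.card κ ∧ small δ l ∧ ∀ a ∈ l, Reg z0 L δ 3 a) ∧
      Supp (ζ.comp cob) (fun l => ∀ a ∈ l, Far L 2 a) ∧ ζ (hat lb (ind (patt Lc t))) = 1 := by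
  classical
  set Ω : (κ → ℝ) → Prop := fun A => ∃ z, Γ A z ∧ Kb L 3 z with hΩ
  obtain ⟨ρ, hρ⟩ : ∃ ρ : (κ → ℝ) → (ι → ℝ), ∀ A, Ω A → Γ A (ρ A) ∧ Kb L 3 (ρ A) := by
    choose! ρ h using fun A (h : Ω A) => h
    exact ⟨ρ, h⟩
  obtain ⟨o, ho⟩ := exists_orient (κ := κ)
  obtain ⟨l0, h0⟩ := exists_lab0 hG
  obtain ⟨lab, hl, hlab⟩ := exists_lab hG (fun A => Ω A ∨ (¬ Ω (-A) ∧ o A)) (by
      intro A hA
      have h1 : ¬ (Ω A ∧ Ω (-A)) := fun ⟨⟨z, a, b⟩, ⟨z', c, d⟩⟩ => hanti A hA z z' a b c d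
      have h2 := ho A hA
      simp only [neg_neg]
      generalize Ω A = a at *
      generalize Ω (-A) = b at *
      generalize o A = c at *
      generalize o (-A) = d at *
      by_cases ha : a <;> by_cases hb : b <;> by_cases hc : c <;> simp_all)
    (fun A => if Ω A then lb (ρ A) else l0 A) (by
      intro A hA
      by_cases h : Ω A
      · simp only [h, if_true]; exact hadm A hA _ (hρ A h).1 (hρ A h).2
      · simp only [h, if_false]; exact h0 A hA)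
  have hlab' : ∀ A, Ω A → lab A = lb (ρ A) := fun A h => by
    rw [hlab A (Or.inl h), if_pos h]
  obtain ⟨ε1, hC1, hε1⟩ := ((hC 1 one_pos).and ev_pos).exists
  set Kc : Set (κ → ℝ) := S1 κ ∩ ⋂ A' ∈ {A' | A' ∈ S1 κ ∧ ∀ i ∈ Lc, A' ∈ G (t i, i)},
    {A | ε1 ≤ dist A' A} with hKc
  have hKcc : IsCompact Kc := S1_compact.inter_right
    (isClosed_biInter fun A' _ => isClosed_le continuous_const (by fun_prop))
  have h1 := leb hKcc G (patt Lc t) (fun e _ => hG.closed e) (by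
    intro x hx
    by_contra hc
    push Not at hc
    have := Set.mem_iInter₂.1 hx.2 x ⟨hx.1, fun i hi => hc _ (mem_patt.2 ⟨hi, rfl⟩)⟩
    simp only [Set.mem_ofPred_eq, dist_self] at this
    linarith)
  obtain ⟨ε, ⟨⟨h1, h2⟩, h3⟩, Z, z1, z2, z3⟩ :=
    (((h1.and (hC 1 one_pos)).and (hC δ hδ)).and (kf_par hG hlen hl t)).exists
  set p : List (κ → ℝ) → Prop := fun l => ∃ A ∈ l, Ω A ∧ Kb L 2 (ρ A) with hp
  have s1 : Supp (Z.comp (rs p)) (fun l => (l.length = Fintype.card κ ∧ (∀ a ∈ l, a ∈ S1 κ) ∧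
      small ε l) ∧ ∀ a ∈ l, Ω a) := by
    refine (z1.res p).mono ?_
    rintro l ⟨⟨k1, k2, k3⟩, A, hA, k4, k5⟩
    refine ⟨⟨k1, k2, k3⟩, fun a ha => ?_⟩
    obtain ⟨z', c1, c2⟩ := h2 A (k2 A hA) _ (hρ A k4).1 (hρ A k4).2 a (k2 a ha) (k3 _ hA _ ha)
    exact ⟨z', c1, k5.of_dist c2 (by norm_num)⟩
  refine ⟨(Z.comp (rs p)).comp (pb ρ), ?_, ?_, ?_⟩
  · apply s1.map
    rintro l ⟨⟨k1, k2, k3⟩, k4⟩
    refine ⟨by simpa using k1, ?_, ?_⟩
    · intro a ha b hb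
      obtain ⟨a', ha', rfl⟩ := List.mem_map.1 ha
      obtain ⟨b', hb', rfl⟩ := List.mem_map.1 hb
      obtain ⟨z', c1, c2⟩ := h3 a' (k2 a' ha') _ (hρ a' (k4 a' ha')).1 (hρ a' (k4 a' ha')).2
        b' (k2 b' hb') (k3 _ ha' _ hb')
      rw [← hU b' (k2 b' hb') _ _ (hρ b' (k4 b' hb')).1 c1 (hρ b' (k4 b' hb')).2]
      exact c2
    · intro a ha
      obtain ⟨a', ha', rfl⟩ := List.mem_map.1 ha
      refine ⟨fun k hk => ?_, (hρ a' (k4 a' ha')).2⟩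
      rw [hin a' (k2 a' ha') _ (hρ a' (k4 a' ha')).1 k hk]
      simpa using hδ.le
  · have e : ((Z.comp (rs p)).comp (pb ρ)).comp cob = ((Z.comp (rs p)).comp cob).comp (pb ρ) := by
      ext γ; simp only [AddMonoidHom.comp_apply, cob_pb]
    have e2 : (Z.comp (rs p)).comp cob = (Z.comp (rs fun l => ¬ p l)).comp cob := by
      ext β
      apply f2_eq_of_add
      have := congrArg (fun η : Ch (κ → ℝ) => η (cob β)) (comp_rs_add Z p)
      simp only [AddMonoidHom.add_apply] at this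
      simp only [AddMonoidHom.comp_apply] at this ⊢
      rw [this, z2]
    have t1 : Supp ((Z.comp (rs p)).comp cob) (fun l => ∀ a ∈ l, Ω a) := by
      apply s1.bd
      rintro l ⟨-, k⟩ m _ hb a ha
      exact k a (hb a ha)
    have t2 : Supp ((Z.comp (rs p)).comp cob) (fun l => ¬ p l) := by
      rw [e2]
      apply (z1.res _).bd
      rintro l ⟨-, k⟩ m _ hb ⟨a, ha, k2⟩
      exact k ⟨a, hb a ha, k2⟩
    rw [e]
    apply (t1.and t2).map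
    rintro l ⟨k1, k2⟩ a ha
    obtain ⟨a', ha', rfl⟩ := List.mem_map.1 ha
    by_contra hc
    apply k2
    refine ⟨a', ha', k1 a' ha', fun k hk => ?_⟩
    by_contra hc2
    exact hc ⟨k, hk, (not_le.1 hc2).le⟩
  · rw [AddMonoidHom.comp_apply, s1.congr (β := hat lab (ind (patt Lc t)))]
    · have := congrArg (fun η : Ch (κ → ℝ) => η (hat lab (ind (patt Lc t)))) (comp_rs_add Z p)
      simp only [AddMonoidHom.add_apply] at this
      rw [← z3, ← this, (z1.res fun l => ¬ p l) (hat lab (ind (patt Lc t))), add_zero]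
      rintro l ⟨⟨k1, k2, k3⟩, k4⟩
      by_contra k5
      obtain ⟨a0, ha0⟩ : ∃ a, a ∈ l := List.exists_mem_of_length_pos (k1 ▸ Fintype.card_pos)
      by_cases hK : a0 ∈ Kc
      · obtain ⟨e, he, H⟩ := h1 a0 hK
        obtain ⟨a, ha, rfl⟩ := (hat_ind_ne k5).1 e he
        exact H a (k3 _ ha0 _ ha) (hl.mem a (k2 a ha))
      · simp only [hKc, Set.mem_inter_iff, k2 a0 ha0, true_and, Set.mem_iInter, not_forall,
          Set.mem_ofPred_eq, not_le] at hK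
        obtain ⟨A', ⟨c1, c2⟩, c3⟩ := hK
        obtain ⟨z, c4, c5⟩ := hpat A' c1 c2
        obtain ⟨z', c6, c7⟩ := hC1 A' c1 z c4 (fun k hk => (c5 k hk).trans (by norm_num))
          a0 (k2 a0 ha0) c3.le
        have c8 : Kb L 2 z' := c5.of_dist c7 (by norm_num)
        have c9 : Ω a0 := ⟨z', c6, fun k hk => (c8 k hk).trans (by norm_num)⟩
        apply k4
        refine ⟨a0, ha0, c9, ?_⟩
        rw [← hU a0 (k2 a0 ha0) _ _ (hρ a0 c9).1 c6 (hρ a0 c9).2]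
        exact c8
    · rintro l ⟨-, k⟩
      rw [pb_apply]
      apply hat_congr_lab
      rw [List.map_map]
      exact List.map_congr_left fun a ha => (hlab' a (k a ha)).symm

end

end Crest.Agent.H0069
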