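import Mathlib

set_option autoImplicit false

namespace Crest.Agent.H0069

inductive Tr : Type
  | C (k code : ℕ) : Tr
  | S (m : ℕ) (a b : Tr) : Tr

def dig (code i : ℕ) : ℕ := (code >>> (4 * (i % 10))) % 16

def key (code : ℕ) : List ℕ → ℕ
  | [] => 0
  | i :: l => (1 <<< dig code i) ||| key code l

def sch : ℕ → List (List ℕ) × List (List ℕ)
  | 0 => ([[0,1,2,3]], [[0,1,2]])
  | 1 => ([[0,1,2,3],[4,5,6],[7,8,9]], [])
  | 2 => ([[0,1,2,3]], [[4,5,6],[7,8,9]])
  | 3 => ([[0,1,2,3],[4,5,6]], [[0,4,7,9],[0,4,8,9],[0,5,7,9],[0,5,8,9],[0,6,7,9],[0,6,8,9],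
      [1,4,7,9],[1,4,8,9],[1,5,7,9],[1,5,8,9],[1,6,7,9],[1,6,8,9],
      [2,4,7,9],[2,4,8,9],[2,5,7,9],[2,5,8,9],[2,6,7,9],[2,6,8,9],
      [3,4,7,9],[3,4,8,9],[3,5,7,9],[3,5,8,9],[3,6,7,9],[3,6,8,9]])
  | 4 => ([[0,1,2,3]], [[0,1,2,4],[0,1,2,5],[0,1,2,6],[0,1,2,7],[0,1,2,8],[0,1,2,9]])
  | 5 => ([[0,1,2,3],[4,5,6]], [[4,5,7],[4,5,8],[4,5,9]])
  | _ => ([[6,7,8,9],[0,1,2],[0,2,3],[0,3,4],[0,4,5],[0,1,5],[1,2,4],[2,3,5],[1,3,4],[2,4,5],
      [1,3,5]], [])

def allIn (code X : ℕ) : List (List ℕ) → Bool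
  | [] => true
  | l :: L => X.testBit (key code l) && allIn code X L

def force (x : ℕ) (f : ℕ → Bool) : Bool :=
  match x with
  | 0 => f 0
  | n + 1 => f (n + 1)

theorem force_eq (x : ℕ) (f : ℕ → Bool) : force x f = f x := by cases x <;> rfl

def chk (mx : ℕ) : Tr → ℕ → ℕ → Bool
  | .C k code, P, N => Nat.ble k mx && (key code [0,1,2,3,4,5,6,7,8,9] == 1023) &&
      allIn code P (sch k).1 && allIn code N (sch k).2
  | .S m a b, P, N => force (P ||| 1 <<< m) (fun P' => chk mx a P' N) &&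
      force (N ||| 1 <<< m) (fun N' => chk mx b P N')

def holdsL (W : List ℕ → Prop) (c : List (List ℕ) × List (List ℕ)) : Prop :=
  (∀ l ∈ c.1, W l) → ∃ l ∈ c.2, W l

theorem allIn_spec {code X : ℕ} {L : List (List ℕ)} (h : allIn code X L = true) :
    ∀ l ∈ L, X.testBit (key code l) = true := by
  induction L with
  | nil => simp
  | cons l L ih =>
    simp only [allIn, Bool.and_eq_true] at h
    intro l' hl'
    rcases List.mem_cons.1 hl' with rfl | h'
    · exact h.1
    · exact ih h.2 l' h'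

theorem testBit_or_one {P m j : ℕ} (h : (P ||| 1 <<< m).testBit j = true) :
    P.testBit j = true ∨ j = m := by
  rw [Nat.testBit_or, Bool.or_eq_true, Nat.one_shiftLeft, Nat.testBit_two_pow] at h
  rcases h with h | h
  · exact Or.inl h
  · exact Or.inr (of_decide_eq_true h).symm

theorem chk_sound (V : ℕ → Prop) (mx : ℕ)
    (H : ∀ k ≤ mx, ∀ code, key code [0,1,2,3,4,5,6,7,8,9] = 1023 →
      holdsL (fun l => V (key code l)) (sch k)) (t : Tr) :
    ∀ P N, chk mx t P N = true → (∀ m, P.testBit m = true → V m) →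
      (∀ m, N.testBit m = true → ¬ V m) → False := by
  induction t with
  | C k code =>
    intro P N h hP hN
    simp only [chk, Bool.and_eq_true, beq_iff_eq, Nat.ble_eq] at h
    obtain ⟨⟨⟨h1, h2⟩, h3⟩, h4⟩ := h
    obtain ⟨l, hl, hV⟩ := H k h1 code h2 fun l hl => hP _ (allIn_spec h3 l hl)
    exact hN _ (allIn_spec h4 l hl) hV
  | S m a b iha ihb =>
    intro P N h hP hN
    simp only [chk, Bool.and_eq_true, force_eq] at h
    by_cases hm : V m
    · refine iha _ _ h.1 (fun j hj => ?_) hN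
      rcases testBit_or_one hj with h' | rfl
      · exact hP j h'
      · exact hm
    · refine ihb _ _ h.2 hP (fun j hj => ?_)
      rcases testBit_or_one hj with h' | rfl
      · exact hN j h'
      · exact hm

theorem testBit_key (code : ℕ) (l : List ℕ) (j : ℕ) :
    (key code l).testBit j = true ↔ ∃ i ∈ l, dig code i = j := by
  induction l with
  | nil => simp [key]
  | cons i l ih =>
    simp only [key, Nat.testBit_or, Bool.or_eq_true, Nat.one_shiftLeft, Nat.testBit_two_pow, ih,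
      decide_eq_true_eq, List.mem_cons, exists_eq_or_imp]

end Crest.Agent.H0069
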