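import Crest.Agent.H0069.Form

set_option autoImplicit false

namespace Crest.Agent.H0069

open Filter Topology Matrix

section
variable {n : ℕ} {C : Type} [DecidableEq C]

structure Cov (η : ℝ) (D : Finset C) (F : C → Set (Fin n → ℝ)) : Prop where
  pos : 0 < η
  closed : ∀ i, IsClosed (F i)
  unit : ∀ i, F i ⊆ U n
  neg : ∀ i x, x ∈ F i → -x ∈ F i
  cover : ∀ x ∈ U n, ∃ i ∈ D, x ∈ F i
  sep : ∀ i, ∀ x ∈ F i, ∀ y ∈ F i, η ≤ |x ⬝ᵥ y|

def Face (F : C → Set (Fin n → ℝ)) (σ : Finset C) : Prop := ∃ y ∈ U n, ∀ i ∈ σ, y ∈ F i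

variable {η : ℝ} {D : Finset C} {F : C → Set (Fin n → ℝ)}

omit [DecidableEq C] in
theorem Face.mono {σ τ : Finset C} (h : Face F σ) (hτ : τ ⊆ σ) : Face F τ :=
  let ⟨y, h1, h2⟩ := h; ⟨y, h1, fun i hi => h2 i (hτ hi)⟩

omit [DecidableEq C] in
theorem Cov.compact (h : Cov η D F) (i : C) : IsCompact (F i) :=
  U_compact.of_isClosed_subset (h.closed i) (h.unit i)

omit [DecidableEq C] in
theorem Cov.ne (h : Cov η D F) {i : C} {x y : Fin n → ℝ} (hx : x ∈ F i) (hy : y ∈ F i) :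
    x ⬝ᵥ y ≠ 0 := by
  intro h0
  have := h.sep i x hx y hy
  rw [h0, abs_zero] at this
  linarith [h.pos]

omit [DecidableEq C] in
theorem Cov.k0 (h : Cov η D F) {u : Fin n → ℝ} (hu : ∀ i ∈ D, ∃ x ∈ F i, u ⬝ᵥ x = 0) : u = 0 := by
  by_contra hc
  obtain ⟨i, hi, h1⟩ := h.cover _ (nrm_mem hc)
  obtain ⟨x, hx, h2⟩ := hu i hi
  exact h.ne h1 hx (by rw [nrm_dot, h2, mul_zero])

omit [DecidableEq C] in
theorem Cov.comap (h : Cov η D F) {m : ℕ} (j : (Fin m → ℝ) →ₗ[ℝ] (Fin n → ℝ))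
    (hj : ∀ u v, j u ⬝ᵥ j v = u ⬝ᵥ v) (D' : Finset C)
    (hD : ∀ w ∈ U m, ∃ i ∈ D', j w ∈ F i) : Cov η D' (fun i => j ⁻¹' F i) where
  pos := h.pos
  closed i := (h.closed i).preimage j.continuous_of_finiteDimensional
  unit i x hx := by
    have : j x ⬝ᵥ j x = 1 := h.unit i hx
    rw [hj] at this; exact this
  neg i x hx := by
    show j (-x) ∈ F i
    rw [map_neg]; exact h.neg i _ hx
  cover := hD
  sep i x hx y hy := by rw [← hj]; exact h.sep i _ hx _ hy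

omit [DecidableEq C] in
theorem Face.of_comap {m : ℕ} (j : (Fin m → ℝ) →ₗ[ℝ] (Fin n → ℝ))
    (hj : ∀ u v, j u ⬝ᵥ j v = u ⬝ᵥ v) {σ : Finset C} (h : Face (fun i => j ⁻¹' F i) σ) :
    Face F σ := by
  obtain ⟨y, h1, h2⟩ := h
  exact ⟨j y, by show j y ⬝ᵥ j y = 1; rw [hj]; exact h1, h2⟩

def sg (b : Bool) : ℝ := if b then 1 else -1

def Gs (F : C → Set (Fin n → ℝ)) (e : Bool × C) : Set (Sym2 (Fin n) → ℝ) :=
  {A | ∃ x ∈ F e.2, ∀ u ∈ U n, |qf A u| ≤ sg e.1 * qf A x}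

theorem orth {A : Sym2 (Fin (n + 1)) → ℝ} (hA : A ∈ S1 _) {x y : Fin (n + 1) → ℝ}
    (hx : x ∈ U (n + 1)) (hy : y ∈ U (n + 1))
    (h1 : ∀ u ∈ U (n + 1), |qf A u| ≤ sg true * qf A x)
    (h2 : ∀ u ∈ U (n + 1), |qf A u| ≤ sg false * qf A y) :
    x ⬝ᵥ y = 0 ∧ qf A y = -qf A x ∧ 0 < qf A x := by
  simp only [sg, if_true, one_mul, Bool.false_eq_true, if_false, neg_mul] at h1 h2
  have hN := (c0_pos n).trans_le (c0_le hA h1)
  have e : qf A y = -qf A x := by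
    have a := abs_le.1 (h1 y hy)
    have b := abs_le.1 (h2 x hx)
    linarith [a.1, b.2]
  have k1 := eig_max hx (fun u hu => (le_abs_self _).trans (h1 u hu)) y
  have k2 := eig_min hy (fun u hu => by linarith [(abs_le.1 (h2 u hu)).1]) x
  rw [bf_comm, k1, e, dotProduct_comm y x] at k2
  refine ⟨?_, e, hN⟩
  have : qf A x * (x ⬝ᵥ y) = 0 := by linarith
  exact (mul_eq_zero.1 this).resolve_left hN.ne'

omit [DecidableEq C] in
theorem Cov.acov {F : C → Set (Fin (n + 1) → ℝ)} (h : Cov η D F) : ACov D.toList (Gs F) where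
  nodup := D.nodup_toList
  closed e := by
    apply isClosed_ex (h.compact e.2) (P := fun A x => ∀ u ∈ U (n + 1), |qf A u| ≤ sg e.1 * qf A x)
    apply isClosed_all (P := fun (p : (Sym2 (Fin (n + 1)) → ℝ) × (Fin (n + 1) → ℝ)) u =>
      |qf p.1 u| ≤ sg e.1 * qf p.1 p.2)
    intro u _
    exact isClosed_le (by fun_prop) (by fun_prop)
  cover A _ := by
    obtain ⟨x, hx, hm⟩ := U_compact.exists_isMaxOn (U_nonempty (n := n))
      (f := fun u => |qf A u|) (by fun_prop)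
    obtain ⟨i, hi, hxi⟩ := h.cover x hx
    rcases le_total 0 (qf A x) with h0 | h0
    · refine ⟨(true, i), Finset.mem_toList.2 hi, x, hxi, fun u hu => ?_⟩
      have : |qf A u| ≤ |qf A x| := hm hu
      rw [abs_of_nonneg h0] at this; simpa [sg] using this
    · refine ⟨(false, i), Finset.mem_toList.2 hi, x, hxi, fun u hu => ?_⟩
      have : |qf A u| ≤ |qf A x| := hm hu
      rw [abs_of_nonpos h0] at this; simpa [sg] using this
  anti := by
    rintro ⟨b, i⟩ A ⟨x, hx, H⟩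
    refine ⟨x, hx, fun u hu => ?_⟩
    have := H u hu
    rw [qf_neg, qf_neg, abs_neg]
    cases b <;> simpa [sg, nl] using this
  disj := by
    rintro A hA i _ ⟨⟨x, hx, h1⟩, ⟨y, hy, h2⟩⟩
    exact h.ne hx hy (orth hA (h.unit _ hx) (h.unit _ hy) h1 h2).1

theorem Cov.kfsym [Nonempty C] {F : C → Set (Fin (n + 1) → ℝ)} (h : Cov η D F)
    (hc : D.card = Fintype.card (Sym2 (Fin (n + 1)))) (t : C → Bool) :
    ∃ x : C → Fin (n + 1) → ℝ, (∀ i ∈ D, x i ∈ F i) ∧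
      ∀ i ∈ D, ∀ j ∈ D, t i = true → t j = false → x i ⬝ᵥ x j = 0 := by
  obtain ⟨A, hA, H⟩ := kf_pat h.acov (by rw [Finset.length_toList, hc]) t
  have : ∀ i ∈ D, ∃ x ∈ F i, ∀ u ∈ U (n + 1), |qf A u| ≤ sg (t i) * qf A x :=
    fun i hi => H i (Finset.mem_toList.2 hi)
  choose! x h1 h2 using this
  refine ⟨x, h1, fun i hi j hj ti tj => ?_⟩
  exact (orth hA (h.unit _ (h1 i hi)) (h.unit _ (h1 j hj)) (ti ▸ h2 i hi) (tj ▸ h2 j hj)).1

omit [DecidableEq C] in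
theorem Cov.small_face (h : Cov η D F) {X : Type*} [PseudoMetricSpace X] {K : Set X}
    (hK : IsCompact K) (hKc : IsClosed K) {φ : X → Fin n → ℝ} (hφ : ContinuousOn φ K)
    (hU : ∀ x ∈ K, φ x ∈ U n) :
    ∀ᶠ ε in 𝓝[>] (0 : ℝ), ∀ σ ⊆ D, ∀ x ∈ K,
      (∀ i ∈ σ, ∃ y ∈ K, dist x y ≤ ε ∧ φ y ∈ F i) → Face F σ := by
  have : ∀ σ ∈ D.powerset, ∀ᶠ ε in 𝓝[>] (0 : ℝ), ∀ x ∈ K,
      (∀ i ∈ σ, ∃ y ∈ K, dist x y ≤ ε ∧ φ y ∈ F i) → Face F σ := by
    intro σ _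
    by_cases hσ : Face F σ
    · exact Eventually.of_forall fun _ _ _ _ => hσ
    · have := leb hK (fun i => K ∩ φ ⁻¹' F i) σ
        (fun i _ => hφ.preimage_isClosed_of_isClosed hKc (h.closed i)) (by
          intro x hx
          by_contra hc
          push Not at hc
          exact hσ ⟨φ x, hU x hx, fun i hi => (hc i hi).2⟩)
      filter_upwards [this] with ε hε x hx H
      obtain ⟨i, hi, h1⟩ := hε x hx
      obtain ⟨y, hy, h2, h3⟩ := H i hi
      exact absurd ⟨hy, h3⟩ (h1 y h2)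
  filter_upwards [(Finset.eventually_all _).2 this] with ε hε σ hσ
  exact hε σ (Finset.mem_powerset.2 hσ)

theorem S1_ne_zero {κ : Type*} [Fintype κ] {x : κ → ℝ} (h : x ∈ S1 κ) : x ≠ 0 := by
  rintro rfl
  exact S1_ne_neg h (by simp)

/-- Lyusternik–Shnirelman type statement -/
theorem Cov.ls {F : C → Set (Fin (n + 1) → ℝ)} (h : Cov η D F) {C' : Type} [DecidableEq C']
    [Fintype C'] [Nonempty C'] (P : C → C') (y : C' → Fin (n + 1) → ℝ)
    (hy : ∀ i ∈ D, y (P i) ∈ F i) :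
    ∃ σ ⊆ D, σ.card = n + 1 ∧ Face F σ ∧ Set.InjOn P σ := by
  have hS : IsClosed (S1 (Fin (n + 1))) := S1_compact.isClosed
  have hn : ContinuousOn nrm (S1 (Fin (n + 1))) := nrm_contOn.mono fun x hx => S1_ne_zero hx
  set G : Bool × C' → Set (Fin (n + 1) → ℝ) := fun e =>
    ⋃ i ∈ D.filter (fun i => P i = e.2), (S1 _ ∩ nrm ⁻¹' F i) ∩ {v | 0 ≤ sg e.1 * (v ⬝ᵥ y e.2)}
    with hG
  have memG : ∀ e v, v ∈ G e ↔ ∃ i ∈ D, P i = e.2 ∧ v ∈ S1 _ ∧ nrm v ∈ F i ∧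
      0 ≤ sg e.1 * (v ⬝ᵥ y e.2) := by
    intro e v
    simp only [hG, Set.mem_iUnion, Finset.mem_filter, Set.mem_inter_iff, Set.mem_preimage,
      Set.mem_ofPred_eq, exists_prop, and_assoc]
  have hA : ACov (Finset.univ : Finset C').toList G := by
    refine ⟨Finset.nodup_toList _, ?_, ?_, ?_, ?_⟩
    · intro e
      apply isClosed_biUnion_finset
      intro i _
      exact (hn.preimage_isClosed_of_isClosed hS (h.closed i)).inter
        (isClosed_le continuous_const (by fun_prop))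
    · intro A hA
      obtain ⟨i, hi, h1⟩ := h.cover _ (nrm_mem (S1_ne_zero hA))
      rcases le_total 0 (A ⬝ᵥ y (P i)) with h0 | h0
      · exact ⟨(true, P i), by simp, (memG _ _).2 ⟨i, hi, rfl, hA, h1, by simpa [sg] using h0⟩⟩
      · exact ⟨(false, P i), by simp, (memG _ _).2 ⟨i, hi, rfl, hA, h1, by simpa [sg] using h0⟩⟩
    · rintro ⟨b, j⟩ A hA
      obtain ⟨i, hi, h1, h2, h3, h4⟩ := (memG _ _).1 hA
      refine (memG _ _).2 ⟨i, hi, h1, S1_neg h2, by rw [nrm_neg]; exact h.neg _ _ h3, ?_⟩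
      cases b <;> simpa [sg, nl] using h4
    · rintro A hA j _ ⟨h1, h2⟩
      obtain ⟨i, hi, k1, -, k3, k4⟩ := (memG _ _).1 h1
      obtain ⟨-, -, -, -, -, k5⟩ := (memG _ _).1 h2
      simp only [sg, if_true, one_mul, Bool.false_eq_true, if_false, neg_mul] at k1 k4 k5
      have : A ⬝ᵥ y j = 0 := by linarith
      exact h.ne k3 (hy i hi) (by rw [nrm_dot, k1, this, mul_zero])
  obtain ⟨lab, hl⟩ := exists_lab' hA
  obtain ⟨ε, ⟨l, k1, k2, k3, k4⟩, k5⟩ := ((kf_ex hA hl).and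
    (h.small_face S1_compact hS hn fun x hx => nrm_mem (S1_ne_zero hx))).exists
  have hch : ∀ a ∈ l, ∃ i ∈ D, P i = (lab a).2 ∧ nrm a ∈ F i := by
    intro a ha
    obtain ⟨i, hi, h1, -, h3, -⟩ := (memG _ _).1 (hl.mem a (k2 a ha))
    exact ⟨i, hi, h1, h3⟩
  obtain ⟨i0, hi0, -⟩ := h.cover _ (single_mem_U 0)
  have : Nonempty C := ⟨i0⟩
  choose! c c1 c2 c3 using hch
  have e : (l.map c).map P = l.map fun a => (lab a).2 := by
    rw [List.map_map]; exact List.map_congr_left c2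
  rw [← e] at k4
  have hsub : (l.map c).toFinset ⊆ D := by
    intro i hi
    obtain ⟨a, ha, rfl⟩ := List.mem_map.1 (List.mem_toFinset.1 hi)
    exact c1 a ha
  refine ⟨(l.map c).toFinset, hsub, ?_, ?_, ?_⟩
  · rw [List.toFinset_card_of_nodup k4.of_map, List.length_map, k1, Fintype.card_fin]
  · obtain ⟨a0, ha0⟩ : ∃ a, a ∈ l := List.exists_mem_of_length_pos (by simp [k1])
    apply k5 _ hsub a0 (k2 a0 ha0)
    intro i hi
    obtain ⟨a, ha, rfl⟩ := List.mem_map.1 (List.mem_toFinset.1 hi)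
    exact ⟨a, k2 a ha, k3 _ ha0 _ ha, c3 a ha⟩
  · intro i hi j hj hij
    exact List.inj_on_of_nodup_map k4 (List.mem_toFinset.1 hi) (List.mem_toFinset.1 hj) hij

theorem Cov.pair [Nonempty C] {F : C → Set (Fin (n + 1) → ℝ)} (h : Cov η D F)
    (hc : D.card = Fintype.card (Sym2 (Fin (n + 1)))) {a b : C} (ha : a ∈ D) (hb : b ∈ D) :
    Face F {a, b} := by
  obtain ⟨x, h1, h2⟩ := h.kfsym hc (fun i => decide (i = a ∨ i = b))
  have ua : x a ⬝ᵥ x a = 1 := h.unit _ (h1 a ha)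
  have ub : x b ⬝ᵥ x b = 1 := h.unit _ (h1 b hb)
  by_cases hab : x a = -x b
  · refine ⟨x b, ub, fun i hi => ?_⟩
    simp only [Finset.mem_insert, Finset.mem_singleton] at hi
    rcases hi with rfl | rfl
    · simpa [hab] using h.neg _ _ (h1 i ha)
    · exact h1 i hb
  set v : ℝ → Fin (n + 1) → ℝ := fun s => (1 - s) • x a + s • x b with hv
  have v0 : ∀ s ∈ Set.Icc (0 : ℝ) 1, v s ≠ 0 := by
    intro s hs h0
    have e1 := congrArg (· ⬝ᵥ x a) h0
    have e2 := congrArg (· ⬝ᵥ x b) h0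
    simp only [hv, add_dotProduct, smul_dotProduct, smul_eq_mul, ua, ub, zero_dotProduct,
      dotProduct_comm (x b) (x a)] at e1 e2
    have e3 : s = 1 / 2 := by
      have : (1 - s) * (1 - s) = s * s := by linear_combination (1 - s) * e1 - s * e2
      linarith
    apply hab
    funext k
    have := congrFun h0 k
    simp only [hv, e3, Pi.add_apply, Pi.smul_apply, smul_eq_mul, Pi.zero_apply] at this
    simp only [Pi.neg_apply]; linarith
  have hcont : ContinuousOn (fun s => nrm (v s)) (Set.Icc (0 : ℝ) 1) :=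
    nrm_contOn.comp (by fun_prop) v0
  have := isPreconnected_closed_iff.1 (isPreconnected_Icc.image _ hcont) (F a) (F b) (h.closed a)
    (h.closed b) (by
      rintro _ ⟨s, hs, rfl⟩
      obtain ⟨i, hi, h3⟩ := h.cover _ (nrm_mem (v0 s hs))
      by_cases hi' : i = a ∨ i = b
      · rcases hi' with rfl | rfl
        · exact Or.inl h3
        · exact Or.inr h3
      · exfalso
        apply h.ne h3 (h1 i hi)
        have k1 := h2 a ha i hi (by simp) (by simpa using hi')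
        have k2 := h2 b hb i hi (by simp) (by simpa using hi')
        rw [nrm_dot]
        simp [hv, k1, k2])
    ⟨x a, ⟨0, by simp, by simp [hv, nrm_of_mem ua]⟩, h1 a ha⟩
    ⟨x b, ⟨1, by simp, by simp [hv, nrm_of_mem ub]⟩, h1 b hb⟩
  obtain ⟨y, -, k1, k2⟩ := this
  refine ⟨y, h.unit _ k1, fun i hi => ?_⟩
  simp only [Finset.mem_insert, Finset.mem_singleton] at hi
  rcases hi with rfl | rfl <;> assumption

omit [DecidableEq C] in
theorem Cov.two {F : C → Set (Fin (n + 1) → ℝ)} (h : Cov η D F) {T : Finset C}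
    (hT : ¬ Face F T) (x : C → Fin (n + 1) → ℝ) (hx : ∀ i ∈ T, x i ∈ F i) :
    ∃ u v : Fin (n + 1) → ℝ, u ≠ 0 ∧ v ≠ 0 ∧ u ⬝ᵥ v = 0 ∧
      ∀ w, (∀ i ∈ T, x i ⬝ᵥ w = 0) → u ⬝ᵥ w = 0 ∧ v ⬝ᵥ w = 0 := by
  obtain ⟨i0, hi0⟩ : T.Nonempty := by
    rw [Finset.nonempty_iff_ne_empty]
    rintro rfl
    exact hT ⟨_, single_mem_U 0, by simp⟩
  have u0 : x i0 ⬝ᵥ x i0 = 1 := h.unit _ (hx i0 hi0)
  obtain ⟨i, hi, h1⟩ : ∃ i ∈ T, x i0 ∉ F i := by
    by_contra hc
    push Not at hc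
    exact hT ⟨_, u0, hc⟩
  have u1 : x i ⬝ᵥ x i = 1 := h.unit _ (hx i hi)
  refine ⟨x i0, x i - (x i ⬝ᵥ x i0) • x i0, ?_, ?_, ?_, ?_⟩
  · rintro h0; simp [h0] at u0
  · intro h0
    rw [sub_eq_zero] at h0
    set t := x i ⬝ᵥ x i0
    have : t * t = 1 := by
      rw [h0] at u1
      simpa [u0] using u1
    apply h1
    rcases mul_self_eq_one_iff.1 this with h | h'
    · rw [h, one_smul] at h0; rw [← h0]; exact hx i hi
    · have := h.neg _ _ (hx i hi)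
      rw [h0, h'] at this; simpa using this
  · simp [u0, dotProduct_comm]
  · intro w hw
    simp [hw i0 hi0, hw i hi]

theorem Cov.c3b [Nonempty C] {F : C → Set (Fin 3 → ℝ)} (h : Cov η D F) (hc : D.card = 6)
    {T : Finset C} (hT : T ⊆ D) : Face F T ∨ Face F (D \ T) := by
  by_contra hc'
  push Not at hc'
  obtain ⟨x, h1, h2⟩ := h.kfsym (n := 2) (by rw [hc, Sym2.card]; rfl) (fun i => decide (i ∈ T))
  obtain ⟨u, v, k1, k2, k3, k4⟩ := h.two hc'.1 x (fun i hi => h1 i (hT hi))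
  obtain ⟨u', v', k5, k6, k7, k8⟩ := h.two hc'.2 x (fun i hi => h1 i (Finset.mem_sdiff.1 hi).1)
  have k9 : ∀ j ∈ D \ T, x j ⬝ᵥ u = 0 ∧ x j ⬝ᵥ v = 0 := by
    intro j hj
    obtain ⟨a, b⟩ := Finset.mem_sdiff.1 hj
    rw [dotProduct_comm _ u, dotProduct_comm _ v]
    exact k4 _ fun i hi => h2 i (hT hi) j a (by simpa using hi) (by simpa using b)
  obtain ⟨a1, a2⟩ := k8 u fun j hj => (k9 j hj).1
  obtain ⟨a3, a4⟩ := k8 v fun j hj => (k9 j hj).2
  have := orth_card ![u, v, u', v'] (by intro i; fin_cases i <;> simpa) (by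
    intro i j hij
    fin_cases i <;> fin_cases j <;> simp_all [dotProduct_comm])
  omega

end

end Crest.Agent.H0069
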