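import Crest.Agent.H0069.Uniq

set_option autoImplicit false

namespace Crest.Agent.H0069

section cup
variable {X L : Type*} [DecidableEq L]

def cup (lab : X → L) : (Finset L → F2) → Co X → Co X
  | _, _, [] => 0
  | F, β, x :: m => lk F (lab x) ∅ * β (x :: m) + cup lab (lk F (lab x)) β m

theorem cup_zero (lab : X → L) (β : Co X) (l : List X) : cup lab 0 β l = 0 := by
  induction l with
  | nil => rfl
  | cons x l ih => simp [cup, lk_zero, ih]

theorem cup_add (lab : X → L) (β β' : Co X) (l : List X) :
    ∀ F, cup lab F (β + β') l = cup lab F β l + cup lab F β' l := by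
  induction l with
  | nil => intro F; simp [cup]
  | cons x l ih => intro F; simp only [cup, ih, Pi.add_apply]; ring

def cupH (lab : X → L) (F : Finset L → F2) : Co X →+ Co X :=
  AddMonoidHom.mk' (fun β => cup lab F β) (fun β β' => funext fun l => cup_add lab β β' l F)

theorem pl_smul {Y : Type*} (f g : X → Y) (c : F2) (l : List X) :
    ∀ γ : Co Y, pl f g l (fun m => c * γ m) = c * pl f g l γ := by
  induction l with
  | nil => intro γ; simp [pl]
  | cons x l ih => intro γ; simp only [pl]; rw [ih (fun m => γ (f x :: m))]; ring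

theorem pl_cup (lab : X → L) (f g : X → X) (hf : ∀ x, lab (f x) = lab x)
    (hg : ∀ x, lab (g x) = lab x) (β : Co X) (l : List X) :
    ∀ F, pl f g l (cup lab F β) = cup lab F (pr f g β) l := by
  induction l with
  | nil => intro F; rfl
  | cons x l ih =>
    intro F
    have e : (fun m => cup lab F β (f x :: m)) =
        (fun m => lk F (lab x) ∅ * β (f x :: m)) + cup lab (lk F (lab x)) β := by
      funext m; simp only [cup, hf, Pi.add_apply]
    simp only [pl]
    rw [e, pl_add, pl_smul f g _ l (fun m => β (f x :: m)), ih]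
    simp only [cup, hf, hg, lk_lk, cup_zero, pr_apply, pl, Pi.zero_apply]
    ring

theorem cup_eval (lab : X → L) (β : Co X) (l : List X) (hl : l ≠ []) :
    ∀ F : Finset L → F2, (∀ S, F S ≠ 0 → S.card = l.length) →
      (hat lab F l ≠ 0 → ∀ a ∈ l, β [a] = 1) → cup lab F β l = hat lab F l := by
  induction l with
  | nil => exact absurd rfl hl
  | cons x l ih =>
    intro F hF hβ
    cases l with
    | nil =>
      simp only [cup, hat, add_zero] at hβ ⊢
      by_cases h : lk F (lab x) ∅ = 0
      · simp [h]
      · rw [hβ h x List.mem_cons_self, mul_one]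
    | cons y m =>
      have h0 : lk F (lab x) ∅ = 0 := by
        by_contra hc
        have := hF {lab x} (by simpa [lk] using hc)
        simp at this
      rw [cup, h0, zero_mul, zero_add, ih (by simp)]
      · rfl
      · intro S hS
        have h1 : lab x ∉ S := fun h => hS (by simp [lk, h])
        have := hF (insert (lab x) S) (by simpa [lk, h1] using hS)
        rw [Finset.card_insert_of_notMem h1] at this
        simpa using this
      · intro h a ha
        exact hβ h a (List.mem_cons_of_mem _ ha)

end cup

section prod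
variable {X C : Type*} [DecidableEq C]

def prodF (F G : Finset (Bool × C) → F2) : Finset (Bool × C) → F2 :=
  fun S => F (S.filter fun e => e.1 = true) * G (S.filter fun e => e.1 = false)

theorem lk_prodF_true (F G : Finset (Bool × C) → F2) {e : Bool × C} (he : e.1 = true) :
    lk (prodF F G) e = prodF (lk F e) G := by
  funext S
  by_cases h : e ∈ S <;> simp [lk, prodF, h, he, Finset.filter_insert]

theorem lk_prodF_false (F G : Finset (Bool × C) → F2) {e : Bool × C} (he : e.1 = false) :
    lk (prodF F G) e = prodF F (lk G e) := by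
  funext S
  by_cases h : e ∈ S <;> simp [lk, prodF, h, he, Finset.filter_insert]

theorem hat_prodF_false (lm : X → Bool × C) (hm : ∀ x, (lm x).1 = false)
    (F : Finset (Bool × C) → F2) (l : List X) :
    ∀ G, hat lm (prodF F G) l = F ∅ * hat lm G l := by
  induction l with
  | nil => intro G; simp [hat, prodF]
  | cons x l ih => intro G; simp only [hat, lk_prodF_false F G (hm x), ih]

theorem pl_prodF (lab lp lm : X → Bool × C) (hp : ∀ x, (lp x).1 = true)
    (hm : ∀ x, (lm x).1 = false) (f g : X → X) (G : Finset (Bool × C) → F2) (l : List X)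
    (hf : ∀ x ∈ l, lab (f x) = lp x) (hg : ∀ x ∈ l, lab (g x) = lm x) :
    ∀ F, pl f g l (hat lab (prodF F G)) = cup lp F (hat lm G) l := by
  induction l with
  | nil => intro F; rfl
  | cons x l ih =>
    intro F
    have ih := ih (fun y hy => hf y (List.mem_cons_of_mem _ hy))
      (fun y hy => hg y (List.mem_cons_of_mem _ hy))
    have e1 : ∀ m, hat lab (prodF F G) (f x :: m) = hat lab (prodF (lk F (lp x)) G) m := by
      intro m; rw [hat, hf x List.mem_cons_self, lk_prodF_true F G (hp x)]
    simp only [pl, e1, cup]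
    rw [show (fun m => hat lab (prodF (lk F (lp x)) G) m) = hat lab (prodF (lk F (lp x)) G)
      from rfl, ih, ← hat_prodF_false lm hm]
    congr 1
    apply hat_congr_lab
    rw [← List.map_cons, List.map_map]
    exact List.map_congr_left hg

theorem ind_eq_prodF (π : Finset (Bool × C)) :
    ind π = prodF (ind (π.filter fun e => e.1 = true)) (ind (π.filter fun e => e.1 = false)) := by
  funext S
  by_cases h : S = π
  · simp [ind, prodF, h]
  · simp only [ind, prodF, h, if_false]
    by_cases h1 : S.filter (fun e => e.1 = true) = π.filter fun e => e.1 = true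
    · by_cases h2 : S.filter (fun e => e.1 = false) = π.filter fun e => e.1 = false
      · exfalso; apply h
        ext e
        have a1 := congrArg (e ∈ ·) h1
        have a2 := congrArg (e ∈ ·) h2
        simp only [Finset.mem_filter, eq_iff_iff] at a1 a2
        cases he : e.1 <;> simp_all
      · simp [h2]
    · simp [h1]

end prod

section cube
variable {ι : Type*} [Fintype ι] [DecidableEq ι]

omit [Fintype ι] in
theorem cubeOp_cup {L' : Type*} [DecidableEq L'] (lab : (ι → ℝ) → L') (h : ℝ) (J : ℕ)
    (F : Finset L' → F2) (L : List ι) (hL : ∀ i ∈ L, ∀ t a, lab (sh i t a) = lab a) :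
    ∀ β, cubeOp h J L (cup lab F β) = cup lab F (cubeOp h J L β) := by
  induction L with
  | nil => intro β; rfl
  | cons i L ih =>
    intro β
    have hi := hL i List.mem_cons_self
    have key : ∀ σ, TT h J σ i (cup lab F β) = cupH lab F (TT h J σ i β) := by
      intro σ
      simp only [TT, tele, AddMonoidHom.finsetSum_apply, map_sum]
      apply Finset.sum_congr rfl
      intro j _
      funext l
      exact pl_cup lab _ _ (hi _) (hi _) β l F
    have e : PP h J i (cup lab F β) = cup lab F (PP h J i β) := by
      simp only [PP, AddMonoidHom.add_apply, key, ← map_add]; rfl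
    simp only [cubeOp, AddMonoidHom.comp_apply, e]
    exact ih (fun j hj => hL j (List.mem_cons_of_mem _ hj)) _

omit [Fintype ι] in
theorem PP_join {C : Type*} [DecidableEq C] (s : ι) (lp lm : (ι → ℝ) → Bool × C)
    (hp : ∀ x, (lp x).1 = true) (hm : ∀ x, (lm x).1 = false)
    (hp' : ∀ t a, lp (sh s t a) = lp a) (hm' : ∀ t a, lm (sh s t a) = lm a)
    (lab : (ι → ℝ) → Bool × C) (hlab : ∀ z, lab z = if 0 ≤ z s then lp z else lm z)
    {h : ℝ} (hh : 0 < h) {J : ℕ} (hJ : 0 < J) (π : Finset (Bool × C))
    (hπ1 : ∃ e ∈ π, e.1 = true) (hπ2 : ∃ e ∈ π, e.1 = false)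
    (l : List (ι → ℝ)) (hl : ∀ a ∈ l, a s = 0) :
    PP h J s (hat lab (ind π)) l = cup lp (ind (π.filter fun e => e.1 = true))
      (hat lm (ind (π.filter fun e => e.1 = false))) l := by
  have vanish : ∀ (b : Bool) (m : List (ι → ℝ)), (∀ a ∈ m, (lab a).1 = b) →
      hat lab (ind π) m = 0 := by
    intro b m hb
    by_contra hc
    have h2 : (m.map lab).toFinset = π := by
      have := (hat_ne_zero hc).2
      by_contra h; simp [ind, h] at this
    have h3 : ∀ e ∈ π, e.1 = b := by
      intro e he
      rw [← h2] at he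
      obtain ⟨a, ha, rfl⟩ := List.mem_map.1 (List.mem_toFinset.1 he)
      exact hb a ha
    obtain ⟨e1, k1, k2⟩ := hπ1
    obtain ⟨e2, k3, k4⟩ := hπ2
    have := h3 e1 k1
    have := h3 e2 k3
    simp_all
  have e1 : TT h J 1 s (hat lab (ind π)) l = 0 := by
    apply tele_eq_zero
    intro j _ m _ hb
    apply vanish true
    intro b hb1
    have : 0 ≤ b s := by
      obtain ⟨a, ha, rfl | rfl⟩ := hb b hb1 <;> rw [sh_self, hl a ha] <;> positivity
    rw [hlab, if_pos this, hp]
  obtain ⟨J, rfl⟩ : ∃ J', J = J' + 1 := ⟨J - 1, by omega⟩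
  have e2 : TT h (J + 1) (-1) s (hat lab (ind π)) l =
      pl (sh s (-1 * (((0 : ℕ) : ℝ) * h))) (sh s (-1 * (((0 + 1 : ℕ) : ℝ) * h))) l
        (hat lab (ind π)) := by
    simp only [TT, tele, AddMonoidHom.finsetSum_apply, Finset.sum_apply]
    rw [Finset.sum_range_succ', Finset.sum_eq_zero, zero_add]
    · rfl
    · intro j _
      apply pl_eq_zero
      intro m _ hb
      apply vanish false
      intro b hb1
      have : ¬ 0 ≤ b s := by
        have hj : (0 : ℝ) ≤ j := Nat.cast_nonneg j
        obtain ⟨a, ha, rfl | rfl⟩ := hb b hb1 <;> rw [sh_self, hl a ha] <;> push_cast <;> nlinarith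
      rw [hlab, if_neg this, hm]
  show TT h (J + 1) 1 s _ l + TT h (J + 1) (-1) s _ l = _
  rw [e1, e2, zero_add, ind_eq_prodF π]
  rw [← ind_eq_prodF π]
  conv_lhs => rw [ind_eq_prodF π]
  apply pl_prodF lab lp lm hp hm
  · intro x hx
    rw [hlab, if_pos, hp']
    rw [sh_self, hl x hx]; simp
  · intro x hx
    rw [hlab, if_neg, hm']
    rw [sh_self, hl x hx]; simp [hh]

end cube

end Crest.Agent.H0069
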