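import Crest.Agent.H0069.Main
import Crest.Agent.H0069.Cert

set_option autoImplicit false

namespace Crest.Agent.H0069

open Matrix

section
variable {η : ℝ}

def FL (F : Fin 10 → Set (Fin 4 → ℝ)) (l : List ℕ) : Prop :=
  ∃ y ∈ U 4, ∀ i ∈ l, y ∈ F (Fin.ofNat 10 i)

def VV (F : Fin 10 → Set (Fin 4 → ℝ)) (m : ℕ) : Prop :=
  ∃ y ∈ U 4, ∀ j, m.testBit j = true → y ∈ F (Fin.ofNat 10 j)

theorem FL_iff (F : Fin 10 → Set (Fin 4 → ℝ)) (l : List ℕ) :
    FL F l ↔ Face F (l.map (Fin.ofNat 10)).toFinset := by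
  simp [FL, Face]

theorem card10 : (Finset.univ : Finset (Fin 10)).card = Fintype.card (Sym2 (Fin 4)) := by
  rw [Sym2.card]; rfl

theorem base1 {F : Fin 10 → Set (Fin 4 → ℝ)} (h : Cov η Finset.univ F)
    (h1 : Face F {0, 1, 2, 3}) (h2 : Face F {4, 5, 6}) (h3 : Face F {7, 8, 9}) : False := by
  obtain ⟨y1, -, a1⟩ := h1
  obtain ⟨y2, -, a2⟩ := h2
  obtain ⟨y3, -, a3⟩ := h3
  obtain ⟨σ, -, k1, -, k2⟩ := h.ls (n := 3) (C' := Fin 3) ![0, 0, 0, 0, 1, 1, 1, 2, 2, 2]
    ![y1, y2, y3] (by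
      intro i _
      fin_cases i <;> first | exact a1 _ (by decide) | exact a2 _ (by decide) | exact a3 _ (by decide))
  have := Finset.card_le_card_of_injOn (t := Finset.univ) _ (fun _ _ => by simp) k2
  rw [k1] at this
  simp at this

theorem plane {F : Fin 10 → Set (Fin 4 → ℝ)} (h : Cov η Finset.univ F)
    (h1 : Face F {0, 1, 2, 3}) : ∃ F' : Fin 10 → Set (Fin 3 → ℝ),
      Cov η {4, 5, 6, 7, 8, 9} F' ∧ ∀ σ, Face F' σ → Face F σ := by
  obtain ⟨y, k1, k2, k3⟩ := h1.pos h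
  refine ⟨_, h.comap (embL y) (emb_dot k1 k2) _ (fun w hw => ?_), fun σ hσ =>
    hσ.of_comap _ (emb_dot k1 k2)⟩
  obtain ⟨i, -, hi⟩ := h.cover (emb y w) (by
    show _ ⬝ᵥ _ = 1
    rw [emb_dot k1 k2]; exact hw)
  refine ⟨i, ?_, hi⟩
  by_contra hc
  exact h.ne hi (k3 i (by clear hi; revert i; decide)) (dot_emb k1 k2 w)

theorem base (k : ℕ) (hk : k ≤ 5) {F : Fin 10 → Set (Fin 4 → ℝ)} (h : Cov η Finset.univ F) :
    holdsL (FL F) (sch k) := by
  intro H
  have H0 : ∀ l ∈ (sch k).1, Face F (l.map (Fin.ofNat 10)).toFinset :=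
    fun l hl => (FL_iff F l).1 (H l hl)
  interval_cases k
  · exact ⟨[0, 1, 2], by decide, (FL_iff _ _).2 ((H0 [0, 1, 2, 3] (by decide)).mono (by decide))⟩
  · exact (base1 h ((H0 [0, 1, 2, 3] (by decide)).mono (by decide))
      ((H0 [4, 5, 6] (by decide)).mono (by decide))
      ((H0 [7, 8, 9] (by decide)).mono (by decide))).elim
  · obtain ⟨F', h', hF⟩ := plane h ((H0 [0, 1, 2, 3] (by decide)).mono (by decide))
    rcases h'.c3b (by decide) (T := {4, 5, 6}) (by decide) with h1 | h1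
    · exact ⟨[4, 5, 6], by decide, (FL_iff _ _).2 ((hF _ h1).mono (by decide))⟩
    · exact ⟨[7, 8, 9], by decide, (FL_iff _ _).2 ((hF _ h1).mono (by decide))⟩
  · obtain ⟨y1, -, a1⟩ := H0 [0, 1, 2, 3] (by decide)
    obtain ⟨y2, -, a2⟩ := H0 [4, 5, 6] (by decide)
    obtain ⟨y3, -, a3⟩ := h.pair (n := 3) card10 (a := 7) (b := 8) (by simp) (by simp)
    obtain ⟨y4, -, a4⟩ := h.pair (n := 3) card10 (a := 9) (b := 9) (by simp) (by simp)
    obtain ⟨σ, -, k1, ⟨y, y1, y2⟩, k2⟩ := h.ls (n := 3) (C' := Fin 4)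
      ![0, 0, 0, 0, 1, 1, 1, 2, 2, 3] ![y1, y2, y3, y4] (by
        intro i _
        fin_cases i <;> first | exact a1 _ (by decide) | exact a2 _ (by decide) |
          exact a3 _ (by decide) | exact a4 _ (by decide))
    have hs := Finset.surjOn_of_injOn_of_card_le (t := Finset.univ) _ (fun _ _ => by simp) k2
      (by simp [k1])
    obtain ⟨a, ha, ha'⟩ := hs (Finset.mem_coe.2 (Finset.mem_univ 0))
    obtain ⟨b, hb, hb'⟩ := hs (Finset.mem_coe.2 (Finset.mem_univ 1))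
    obtain ⟨c, hc, hc'⟩ := hs (Finset.mem_coe.2 (Finset.mem_univ 2))
    obtain ⟨d, hd, hd'⟩ := hs (Finset.mem_coe.2 (Finset.mem_univ 3))
    have key : ∀ a : Fin 10, (![0, 0, 0, 0, 1, 1, 1, 2, 2, 3] : Fin 10 → Fin 4) a = 0 →
        ∀ b : Fin 10, (![0, 0, 0, 0, 1, 1, 1, 2, 2, 3] : Fin 10 → Fin 4) b = 1 →
        ∀ c : Fin 10, (![0, 0, 0, 0, 1, 1, 1, 2, 2, 3] : Fin 10 → Fin 4) c = 2 →
        ∀ d : Fin 10, (![0, 0, 0, 0, 1, 1, 1, 2, 2, 3] : Fin 10 → Fin 4) d = 3 →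
        [a.val, b.val, c.val, d.val] ∈ (sch 3).2 := by decide +kernel
    refine ⟨_, key a ha' b hb' c hc' d hd', y, y1, ?_⟩
    intro i hi
    simp only [List.mem_cons, List.not_mem_nil, or_false] at hi
    rcases hi with rfl | rfl | rfl | rfl <;> rw [Fin.ofNat_val_eq_self] <;> apply y2 <;> assumption
  · obtain ⟨q, -, k1, k2, k3⟩ := weakP (n := 2) (by norm_num) h card10 {0, 1, 2} 3 (by decide)
      (by decide) (by simp) ((H0 [0, 1, 2, 3] (by decide)).mono (by decide))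
    refine ⟨[0, 1, 2, q.val], by clear k3; revert q; decide, (FL_iff _ _).2 (k3.mono ?_)⟩
    clear k3; revert q; decide
  · have hQ : Face F {0, 1, 2, 3} := (H0 [0, 1, 2, 3] (by decide)).mono (by decide)
    have hT : Face F {4, 5, 6} := (H0 [4, 5, 6] (by decide)).mono (by decide)
    obtain ⟨F', h', hF⟩ := plane h hQ
    rcases h'.c3b (by decide) (T := {4, 5, 6}) (by decide) with h1 | h1
    · obtain ⟨q, k0, k1, k2, k3⟩ := weakP (n := 1) le_rfl h' (by rw [Sym2.card]; rfl) {4, 5} 6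
        (by decide) (by decide) (by decide) (h1.mono (by decide))
      refine ⟨[4, 5, q.val], by clear k3; revert q; decide,
        (FL_iff _ _).2 ((hF _ k3).mono ?_)⟩
      clear k3; revert q; decide
    · exact (base1 h hQ hT ((hF _ h1).mono (by decide))).elim

theorem Cov.perm {F : Fin 10 → Set (Fin 4 → ℝ)} (h : Cov η Finset.univ F) (σ : Fin 10 → Fin 10)
    (hσ : Function.Surjective σ) : Cov η Finset.univ (fun i => F (σ i)) where
  pos := h.pos
  closed _ := h.closed _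
  unit _ := h.unit _
  neg _ := h.neg _
  cover x hx := by
    obtain ⟨i, -, hi⟩ := h.cover x hx
    obtain ⟨j, rfl⟩ := hσ i
    exact ⟨j, Finset.mem_univ _, hi⟩
  sep _ := h.sep _

theorem transport (k : ℕ)
    (hk : ∀ F : Fin 10 → Set (Fin 4 → ℝ), Cov η Finset.univ F → holdsL (FL F) (sch k))
    {F : Fin 10 → Set (Fin 4 → ℝ)} (h : Cov η Finset.univ F) (code : ℕ)
    (hc : key code [0,1,2,3,4,5,6,7,8,9] = 1023) : holdsL (fun l => VV F (key code l)) (sch k) := by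
  have e : ∀ i, dig code (Fin.ofNat 10 i).val = dig code i := by
    intro i; simp [dig]
  have := hk _ (h.perm (fun i => Fin.ofNat 10 (dig code i.val)) (by
    intro j
    have : (key code [0,1,2,3,4,5,6,7,8,9]).testBit j.val = true := by
      rw [hc]; revert j; decide
    obtain ⟨i, -, hi⟩ := (testBit_key _ _ _).1 this
    exact ⟨Fin.ofNat 10 i, by simp only [e, hi, Fin.ofNat_val_eq_self]⟩))
  have e2 : (fun l => VV F (key code l)) = FL (fun i => F (Fin.ofNat 10 (dig code i.val))) := by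
    funext l
    simp only [VV, FL, testBit_key, e]
    simp
  rw [e2]; exact this

theorem VV_key (F : Fin 10 → Set (Fin 4 → ℝ)) (l : List ℕ) (hl : ∀ i ∈ l, i < 10) (h : FL F l) :
    VV F (key 0x9876543210 l) := by
  obtain ⟨y, h1, h2⟩ := h
  refine ⟨y, h1, fun j hj => ?_⟩
  obtain ⟨i, hi, rfl⟩ := (testBit_key _ _ _).1 hj
  have : ∀ i < 10, dig 0x9876543210 i = i := by decide
  rw [this i (hl i hi)]; exact h2 i hi

theorem base6 {F : Fin 10 → Set (Fin 4 → ℝ)} (h : Cov η Finset.univ F) :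
    holdsL (FL F) (sch 6) := by
  intro H
  exfalso
  refine chk_sound (VV F) 5 (fun k hk code hc => transport k (fun F hF => base k hk hF) h code hc)
    tA _ _ chk_tA ?_ (by simp)
  intro m hm
  have key' : ∀ l ∈ (sch 6).1, VV F (key 0x9876543210 l) := fun l hl =>
    VV_key F l (by revert l; decide) (H l hl)
  rcases testBit_or_one hm with hm | rfl; swap; · exact key' [1,3,5] (by decide)
  rcases testBit_or_one hm with hm | rfl; swap; · exact key' [2,4,5] (by decide)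
  rcases testBit_or_one hm with hm | rfl; swap; · exact key' [1,3,4] (by decide)
  rcases testBit_or_one hm with hm | rfl; swap; · exact key' [2,3,5] (by decide)
  rcases testBit_or_one hm with hm | rfl; swap; · exact key' [1,2,4] (by decide)
  rcases testBit_or_one hm with hm | rfl; swap; · exact key' [0,1,5] (by decide)
  rcases testBit_or_one hm with hm | rfl; swap; · exact key' [0,4,5] (by decide)
  rcases testBit_or_one hm with hm | rfl; swap; · exact key' [0,3,4] (by decide)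
  rcases testBit_or_one hm with hm | rfl; swap; · exact key' [0,2,3] (by decide)
  rcases testBit_or_one hm with hm | rfl; swap; · exact key' [0,1,2] (by decide)
  rcases testBit_or_one hm with hm | rfl; swap; · exact key' [6,7,8,9] (by decide)
  simp at hm

theorem no_tet {F : Fin 10 → Set (Fin 4 → ℝ)} (h : Cov η Finset.univ F)
    (H : FL F [6, 7, 8, 9]) : False := by
  refine chk_sound (VV F) 6 (fun k hk code hc => transport k (fun F hF => ?_) h code hc)
    tB _ _ chk_tB ?_ (by simp)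
  · rcases Nat.lt_or_eq_of_le hk with hk | rfl
    · exact base k (by omega) hF
    · exact base6 hF
  · intro m hm
    rcases testBit_or_one hm with hm | rfl
    · simp at hm
    · exact VV_key F _ (by decide) H

theorem no_cov {F : Fin 10 → Set (Fin 4 → ℝ)} (h : Cov η Finset.univ F) : False := by
  have h1 : ∀ i, ∃ y, y ∈ F i := fun i => by
    obtain ⟨y, -, a⟩ := h.pair (n := 3) card10 (a := i) (b := i) (by simp) (by simp)
    exact ⟨y, a i (by simp)⟩
  choose y hy using h1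
  obtain ⟨σ, -, k1, ⟨z, z1, z2⟩, -⟩ := h.ls (n := 3) id y (fun i _ => hy i)
  obtain ⟨s, hs⟩ := Equiv.Perm.exists_extending_pair (f := (![6, 7, 8, 9] : Fin 4 → Fin 10))
    (g := σ.orderEmbOfFin k1) (by decide) (σ.orderEmbOfFin k1).injective
  apply no_tet (h.perm s s.surjective)
  refine ⟨z, z1, fun i hi => z2 _ ?_⟩
  simp only [List.mem_cons, List.not_mem_nil, or_false] at hi
  rcases hi with rfl | rfl | rfl | rfl
  · exact (hs 0).symm ▸ σ.orderEmbOfFin_mem k1 0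
  · exact (hs 1).symm ▸ σ.orderEmbOfFin_mem k1 1
  · exact (hs 2).symm ▸ σ.orderEmbOfFin_mem k1 2
  · exact (hs 3).symm ▸ σ.orderEmbOfFin_mem k1 3

noncomputable def ver (x : Fin 4 → ℝ) : EuclideanSpace ℝ (Fin 9) :=
  !₂[√2 * (x 0 * x 1), √2 * (x 0 * x 2), √2 * (x 0 * x 3), √2 * (x 1 * x 2), √2 * (x 1 * x 3),
    √2 * (x 2 * x 3), (x 0 ^ 2 + x 1 ^ 2 - x 2 ^ 2 - x 3 ^ 2) / 2,
    (x 0 ^ 2 - x 1 ^ 2 + x 2 ^ 2 - x 3 ^ 2) / 2, (x 0 ^ 2 - x 1 ^ 2 - x 2 ^ 2 + x 3 ^ 2) / 2]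

theorem ver_neg (x : Fin 4 → ℝ) : ver (-x) = ver x := by simp [ver]

theorem ver_dist {x y : Fin 4 → ℝ} (hx : x ∈ U 4) (hy : y ∈ U 4) :
    dist (ver x) (ver y) ^ 2 = 2 - 2 * (x ⬝ᵥ y) ^ 2 := by
  have hx' : x ⬝ᵥ x = 1 := hx
  have hy' : y ⬝ᵥ y = 1 := hy
  have h2 : √2 ^ 2 = 2 := Real.sq_sqrt (by norm_num)
  simp only [dotProduct, Fin.sum_univ_four] at hx' hy' ⊢
  rw [EuclideanSpace.dist_sq_eq]
  simp only [ver, Fin.sum_univ_succ, Real.dist_eq, sq_abs]
  simp only [Matrix.cons_val_zero, Matrix.cons_val_succ, Finset.univ_eq_empty, Finset.sum_empty,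
    ← mul_sub, mul_pow, h2]
  linear_combination (3 / 4 * (x 0 * x 0 + x 1 * x 1 + x 2 * x 2 + x 3 * x 3 + 1) +
      1 / 2 * (y 0 * y 0 + y 1 * y 1 + y 2 * y 2 + y 3 * y 3)) * hx' +
    (3 / 4 * (y 0 * y 0 + y 1 * y 1 + y 2 * y 2 + y 3 * y 3 + 1) + 1 / 2) * hy'

end

end Crest.Agent.H0069
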