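import Crest.Agent.H0069.Chart

set_option autoImplicit false

namespace Crest.Agent.H0069

open Filter Topology Matrix

theorem isClosed_ex {X Y : Type*} [TopologicalSpace X] [TopologicalSpace Y] {K : Set Y}
    (hK : IsCompact K) {P : X → Y → Prop} (hP : IsClosed {p : X × Y | P p.1 p.2}) :
    IsClosed {x | ∃ y ∈ K, P x y} := by
  have := isCompact_iff_compactSpace.1 hK
  have h1 : IsClosed {p : X × K | P p.1 p.2} :=
    hP.preimage (f := fun p : X × K => (p.1, (p.2 : Y))) (by fun_prop)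
  convert isClosedMap_fst_of_compactSpace _ h1 using 1
  ext x
  simp

theorem isClosed_all {X Y : Type*} [TopologicalSpace X] {K : Set Y}
    {P : X → Y → Prop} (hP : ∀ y ∈ K, IsClosed {x | P x y}) : IsClosed {x | ∀ y ∈ K, P x y} := by
  convert isClosed_biInter hP using 1
  ext x; simp

theorem tube {X : Type*} [TopologicalSpace X] {K O : Set X} (hK : IsCompact K) (hO : IsOpen O)
    {d : X → ℝ} (hd : Continuous d) (h : ∀ k ∈ K, d k ≤ 0 → k ∈ O) :
    ∀ᶠ ε in 𝓝[>] (0 : ℝ), ∀ k ∈ K, d k ≤ ε → k ∈ O := by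
  obtain ⟨a, ha, H⟩ := (hK.diff hO).exists_forall_le' hd.continuousOn (a := 0) (by
    intro b hb
    by_contra hc
    exact hb.2 (h b hb.1 (not_lt.1 hc)))
  filter_upwards [ev_le (half_pos ha)] with ε hε k hk hd
  by_contra hc
  have := H k ⟨hk, hc⟩
  linarith

section
variable {n : ℕ}

def U (n : ℕ) : Set (Fin n → ℝ) := {x | x ⬝ᵥ x = 1}

theorem dot_self_nonneg (x : Fin n → ℝ) : 0 ≤ x ⬝ᵥ x :=
  Finset.sum_nonneg fun i _ => mul_self_nonneg (x i)

theorem dot_self_pos {x : Fin n → ℝ} (hx : x ≠ 0) : 0 < x ⬝ᵥ x :=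
  lt_of_le_of_ne (dot_self_nonneg x) fun h => hx (dotProduct_self_eq_zero.1 h.symm)

theorem U_abs_le {x : Fin n → ℝ} (hx : x ∈ U n) (i : Fin n) : |x i| ≤ 1 := by
  have h : x i * x i ≤ x ⬝ᵥ x :=
    Finset.single_le_sum (f := fun i => x i * x i) (fun i _ => mul_self_nonneg (x i))
      (Finset.mem_univ i)
  have h2 : x ⬝ᵥ x = 1 := hx
  rw [abs_le]; constructor <;> nlinarith

theorem U_closed : IsClosed (U n) := isClosed_eq (by fun_prop) continuous_const

theorem U_compact : IsCompact (U n) := by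
  apply Metric.isCompact_of_isClosed_isBounded U_closed
  rw [isBounded_iff_forall_norm_le]
  exact ⟨1, fun x hx => (pi_norm_le_iff_of_nonneg zero_le_one).2 fun i => U_abs_le hx i⟩

theorem U_neg {x : Fin n → ℝ} (hx : x ∈ U n) : -x ∈ U n := by simpa [U] using hx

theorem single_mem_U (i : Fin n) : (Pi.single i 1 : Fin n → ℝ) ∈ U n := by simp [U]

theorem U_nonempty : (U (n + 1)).Nonempty := ⟨_, single_mem_U 0⟩

noncomputable def nrm (v : Fin n → ℝ) : Fin n → ℝ := (√(v ⬝ᵥ v))⁻¹ • v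

theorem nrm_mem {v : Fin n → ℝ} (hv : v ≠ 0) : nrm v ∈ U n := by
  have h := dot_self_pos hv
  have h2 := Real.sqrt_pos.2 h
  have h3 := Real.mul_self_sqrt h.le
  simp only [U, nrm, Set.mem_ofPred_eq, smul_dotProduct, dotProduct_smul, smul_eq_mul]
  field_simp
  nlinarith

theorem nrm_of_mem {v : Fin n → ℝ} (hv : v ∈ U n) : nrm v = v := by
  have : v ⬝ᵥ v = 1 := hv
  simp [nrm, this]

theorem nrm_neg (v : Fin n → ℝ) : nrm (-v) = -nrm v := by simp [nrm]

theorem nrm_dot (v w : Fin n → ℝ) : nrm v ⬝ᵥ w = (√(v ⬝ᵥ v))⁻¹ * (v ⬝ᵥ w) := by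
  simp [nrm]

theorem nrm_spec {v : Fin n → ℝ} (hv : v ≠ 0) : v = √(v ⬝ᵥ v) • nrm v := by
  have h2 := Real.sqrt_pos.2 (dot_self_pos hv)
  rw [nrm, smul_smul, mul_inv_cancel₀ h2.ne', one_smul]

theorem nrm_contOn : ContinuousOn (nrm : (Fin n → ℝ) → _) {v | v ≠ 0} := by
  refine ContinuousOn.smul (f := fun v : Fin n → ℝ => (√(v ⬝ᵥ v))⁻¹) ?_ continuousOn_id
  apply ContinuousOn.inv₀ (by fun_prop)
  intro v hv
  exact (Real.sqrt_pos.2 (dot_self_pos hv)).ne'

def mat (A : Sym2 (Fin n) → ℝ) : Matrix (Fin n) (Fin n) ℝ := Matrix.of fun i j => A s(i, j)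

def bf (A : Sym2 (Fin n) → ℝ) (u v : Fin n → ℝ) : ℝ := u ⬝ᵥ (mat A *ᵥ v)

def qf (A : Sym2 (Fin n) → ℝ) (u : Fin n → ℝ) : ℝ := bf A u u

def dg : Sym2 (Fin n) → ℝ := fun e => if e.IsDiag then 1 else 0

theorem bf_eq (A : Sym2 (Fin n) → ℝ) (u v : Fin n → ℝ) :
    bf A u v = ∑ i, ∑ j, u i * A s(i, j) * v j := by
  simp [bf, mat, dotProduct, mulVec, Finset.mul_sum, mul_assoc]

theorem bf_comm (A : Sym2 (Fin n) → ℝ) (u v : Fin n → ℝ) : bf A u v = bf A v u := by
  rw [bf_eq, bf_eq, Finset.sum_comm]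
  refine Finset.sum_congr rfl fun i _ => Finset.sum_congr rfl fun j _ => ?_
  rw [Sym2.eq_swap]; ring

theorem bf_add_left (A : Sym2 (Fin n) → ℝ) (u u' v : Fin n → ℝ) :
    bf A (u + u') v = bf A u v + bf A u' v := by simp [bf]
theorem bf_add_right (A : Sym2 (Fin n) → ℝ) (u v v' : Fin n → ℝ) :
    bf A u (v + v') = bf A u v + bf A u v' := by simp [bf, mulVec_add]
theorem bf_smul_left (A : Sym2 (Fin n) → ℝ) (c : ℝ) (u v : Fin n → ℝ) :
    bf A (c • u) v = c * bf A u v := by simp [bf]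
theorem bf_smul_right (A : Sym2 (Fin n) → ℝ) (c : ℝ) (u v : Fin n → ℝ) :
    bf A u (c • v) = c * bf A u v := by simp [bf, mulVec_smul]

theorem bf_lin (A B : Sym2 (Fin n) → ℝ) (a b : ℝ) (u v : Fin n → ℝ) :
    bf (a • A + b • B) u v = a * bf A u v + b * bf B u v := by
  simp only [bf_eq, Finset.mul_sum, ← Finset.sum_add_distrib, Pi.add_apply, Pi.smul_apply,
    smul_eq_mul]
  refine Finset.sum_congr rfl fun i _ => Finset.sum_congr rfl fun j _ => ?_
  ring

theorem bf_neg (A : Sym2 (Fin n) → ℝ) (u v : Fin n → ℝ) : bf (-A) u v = -bf A u v := by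
  simp [bf_eq]

theorem bf_dg (u v : Fin n → ℝ) : bf dg u v = u ⬝ᵥ v := by
  simp [bf_eq, dg, dotProduct]

theorem bf_single (A : Sym2 (Fin n) → ℝ) (i j : Fin n) :
    bf A (Pi.single i 1) (Pi.single j 1) = A s(i, j) := by
  simp [bf, mat]

theorem qf_neg (A : Sym2 (Fin n) → ℝ) (u : Fin n → ℝ) : qf (-A) u = -qf A u := bf_neg A u u

theorem qf_smul (A : Sym2 (Fin n) → ℝ) (c : ℝ) (u : Fin n → ℝ) :
    qf A (c • u) = c * c * qf A u := by
  simp only [qf, bf_smul_left, bf_smul_right]; ring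

theorem qf_neg' (A : Sym2 (Fin n) → ℝ) (u : Fin n → ℝ) : qf A (-u) = qf A u := by
  rw [← neg_one_smul ℝ u, qf_smul]; ring

theorem qf_add (A : Sym2 (Fin n) → ℝ) (u v : Fin n → ℝ) :
    qf A (u + v) = qf A u + 2 * bf A u v + qf A v := by
  simp only [qf, bf_add_left, bf_add_right, bf_comm A v u]; ring

theorem qf_lin (A B : Sym2 (Fin n) → ℝ) (a b : ℝ) (u : Fin n → ℝ) :
    qf (a • A + b • B) u = a * qf A u + b * qf B u := bf_lin A B a b u u

theorem qf_dg (u : Fin n → ℝ) : qf dg u = u ⬝ᵥ u := bf_dg u u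

@[fun_prop]
theorem continuous_bf {X : Type*} [TopologicalSpace X] {A : X → Sym2 (Fin n) → ℝ}
    {u v : X → Fin n → ℝ} (hA : Continuous A) (hu : Continuous u) (hv : Continuous v) :
    Continuous fun x => bf (A x) (u x) (v x) := by
  simp only [bf_eq]; fun_prop

@[fun_prop]
theorem continuous_qf {X : Type*} [TopologicalSpace X] {A : X → Sym2 (Fin n) → ℝ}
    {u : X → Fin n → ℝ} (hA : Continuous A) (hu : Continuous u) :
    Continuous fun x => qf (A x) (u x) := continuous_bf hA hu hu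

theorem qf_ge {A : Sym2 (Fin n) → ℝ} {m : ℝ} (h : ∀ u ∈ U n, m ≤ qf A u) (u : Fin n → ℝ) :
    m * (u ⬝ᵥ u) ≤ qf A u := by
  by_cases hu : u = 0
  · subst hu; simp [qf, bf]
  · have h1 := h _ (nrm_mem hu)
    have h2 := Real.mul_self_sqrt (dot_self_nonneg u)
    conv_rhs => rw [nrm_spec hu, qf_smul, h2]
    nlinarith [dot_self_nonneg u]

theorem qf_le {A : Sym2 (Fin n) → ℝ} {m : ℝ} (h : ∀ u ∈ U n, qf A u ≤ m) (u : Fin n → ℝ) :
    qf A u ≤ m * (u ⬝ᵥ u) := by
  have := qf_ge (A := -A) (m := -m) (fun u hu => by rw [qf_neg]; linarith [h u hu]) u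
  rw [qf_neg] at this; linarith

theorem eig_min {A : Sym2 (Fin n) → ℝ} {w : Fin n → ℝ} (hw : w ∈ U n)
    (h : ∀ u ∈ U n, qf A w ≤ qf A u) (v : Fin n → ℝ) : bf A v w = qf A w * (v ⬝ᵥ w) := by
  have hw' : w ⬝ᵥ w = 1 := hw
  have := discrim_le_zero (a := qf A v - qf A w * (v ⬝ᵥ v))
    (b := 2 * (bf A v w - qf A w * (v ⬝ᵥ w))) (c := 0) (by
      intro t
      have := qf_ge h (w + t • v)
      rw [qf_add, qf_smul, bf_smul_right, bf_comm A w v] at this
      simp only [add_dotProduct, dotProduct_add, smul_dotProduct, dotProduct_smul, smul_eq_mul,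
        hw', dotProduct_comm w v] at this
      nlinarith)
  rw [discrim] at this
  nlinarith [sq_nonneg (bf A v w - qf A w * (v ⬝ᵥ w))]

theorem eig_max {A : Sym2 (Fin n) → ℝ} {w : Fin n → ℝ} (hw : w ∈ U n)
    (h : ∀ u ∈ U n, qf A u ≤ qf A w) (v : Fin n → ℝ) : bf A v w = qf A w * (v ⬝ᵥ w) := by
  have := eig_min (A := -A) hw (fun u hu => by rw [qf_neg, qf_neg]; linarith [h u hu]) v
  rw [bf_neg, qf_neg] at this; linarith

theorem entry_le {A : Sym2 (Fin n) → ℝ} {N : ℝ} (h : ∀ u ∈ U n, |qf A u| ≤ N)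
    (e : Sym2 (Fin n)) : |A e| ≤ N := by
  induction e using Sym2.ind with
  | _ i j =>
    have h1 := qf_ge (A := A) (m := -N) (fun u hu => (abs_le.1 (h u hu)).1)
    have h2 := qf_le (A := A) (m := N) (fun u hu => (abs_le.1 (h u hu)).2)
    set a : Fin n → ℝ := Pi.single i 1
    set b : Fin n → ℝ := Pi.single j 1
    have ha : a ⬝ᵥ a = 1 := single_mem_U i
    have hb : b ⬝ᵥ b = 1 := single_mem_U j
    have k1 := h1 (a + b)
    have k2 := h2 (a + b)
    have k3 := h1 (a + (-1 : ℝ) • b)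
    have k4 := h2 (a + (-1 : ℝ) • b)
    simp only [qf_add, qf_smul, bf_smul_right, add_dotProduct, dotProduct_add, smul_dotProduct,
      dotProduct_smul, smul_eq_mul, ha, hb, dotProduct_comm b a] at k1 k2 k3 k4
    rw [← bf_single A i j, abs_le]
    constructor <;> nlinarith

theorem qf_abs_le {A : Sym2 (Fin n) → ℝ} {r : ℝ} (h : ∀ e, |A e| ≤ r) {u : Fin n → ℝ}
    (hu : u ∈ U n) : |qf A u| ≤ n * n * r := by
  rw [qf, bf_eq]
  refine (Finset.abs_sum_le_sum_abs _ _).trans ?_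
  have : ∀ i : Fin n, |∑ j, u i * A s(i, j) * u j| ≤ n * r := by
    intro i
    refine (Finset.abs_sum_le_sum_abs _ _).trans ?_
    have : ∀ j : Fin n, |u i * A s(i, j) * u j| ≤ r := by
      intro j
      rw [abs_mul, abs_mul]
      have h1 := U_abs_le hu i
      have h2 := U_abs_le hu j
      have h3 := h s(i, j)
      have h4 := abs_nonneg (A s(i, j))
      have h5 : |u i| * |A s(i, j)| ≤ r := (mul_le_of_le_one_left h4 h1).trans h3
      exact (mul_le_of_le_one_right (by positivity) h2).trans h5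
    refine (Finset.sum_le_sum fun j _ => this j).trans ?_
    simp
  refine (Finset.sum_le_sum fun i _ => this i).trans ?_
  simp [mul_assoc]

/-- lower bound for the operator norm on the `ℓ¹` sphere -/
noncomputable def c0 (n : ℕ) : ℝ := (Fintype.card (Sym2 (Fin (n + 1))) : ℝ)⁻¹

theorem c0_pos (n : ℕ) : 0 < c0 n := inv_pos.2 (by exact_mod_cast Fintype.card_pos)

theorem c0_le {A : Sym2 (Fin (n + 1)) → ℝ} (hA : A ∈ S1 _) {N : ℝ}
    (h : ∀ u ∈ U (n + 1), |qf A u| ≤ N) : c0 n ≤ N := by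
  have h1 : ∑ e, |A e| = 1 := hA
  have h2 : ∑ e, |A e| ≤ ∑ _e : Sym2 (Fin (n + 1)), N := Finset.sum_le_sum fun e _ => entry_le h e
  rw [h1, Finset.sum_const, Finset.card_univ, nsmul_eq_mul] at h2
  rw [c0, inv_le_iff_one_le_mul₀' (by exact_mod_cast Fintype.card_pos)]
  exact h2

noncomputable def mq (B : Sym2 (Fin n) → ℝ) : ℝ := sInf (qf B '' U n)

@[fun_prop]
theorem continuous_mq {X : Type*} [TopologicalSpace X] {A : X → Sym2 (Fin n) → ℝ}
    (hA : Continuous A) : Continuous fun x => mq (A x) := by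
  have : Continuous (mq : (Sym2 (Fin n) → ℝ) → ℝ) :=
    U_compact.continuous_sInf (f := qf) (continuous_qf continuous_fst continuous_snd)
  exact this.comp hA

theorem exists_min (B : Sym2 (Fin (n + 1)) → ℝ) :
    ∃ w ∈ U (n + 1), mq B = qf B w ∧ ∀ u ∈ U (n + 1), qf B w ≤ qf B u :=
  U_compact.exists_sInf_image_eq_and_le U_nonempty (by fun_prop)

noncomputable def wmin (B : Sym2 (Fin (n + 1)) → ℝ) : Fin (n + 1) → ℝ := (exists_min B).choose

theorem wmin_mem (B : Sym2 (Fin (n + 1)) → ℝ) : wmin B ∈ U (n + 1) := (exists_min B).choose_spec.1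

theorem wmin_le (B : Sym2 (Fin (n + 1)) → ℝ) : ∀ u ∈ U (n + 1), qf B (wmin B) ≤ qf B u :=
  (exists_min B).choose_spec.2.2

theorem mq_eq {B : Sym2 (Fin (n + 1)) → ℝ} {w : Fin (n + 1) → ℝ} (hw : w ∈ U (n + 1))
    (h : ∀ u ∈ U (n + 1), qf B w ≤ qf B u) : mq B = qf B w := by
  obtain ⟨w', h1, h2, h3⟩ := exists_min B
  rw [h2]; exact le_antisymm (h3 w hw) (h w' h1)

theorem exists_max (B : Sym2 (Fin (n + 1)) → ℝ) :
    ∃ w ∈ U (n + 1), ∀ u ∈ U (n + 1), qf B u ≤ qf B w := by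
  refine ⟨wmin (-B), wmin_mem _, fun u hu => ?_⟩
  have := wmin_le (-B) u hu
  rw [qf_neg, qf_neg] at this; linarith

/-- isometric embedding onto the orthogonal complement of `x` -/
noncomputable def emb (x : Fin (n + 1) → ℝ) (w : Fin n → ℝ) : Fin (n + 1) → ℝ :=
  Fin.cons (Fin.tail x ⬝ᵥ w) (((Fin.tail x ⬝ᵥ w) / (1 + x 0)) • Fin.tail x - w)

theorem dot_succ (u v : Fin (n + 1) → ℝ) : u ⬝ᵥ v = u 0 * v 0 + Fin.tail u ⬝ᵥ Fin.tail v := by
  simp [dotProduct, Fin.sum_univ_succ, Fin.tail]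

theorem tail_dot {x : Fin (n + 1) → ℝ} (hx : x ∈ U (n + 1)) :
    Fin.tail x ⬝ᵥ Fin.tail x = (1 - x 0) * (1 + x 0) := by
  have : x ⬝ᵥ x = 1 := hx
  rw [dot_succ] at this; linarith

theorem emb_dot {x : Fin (n + 1) → ℝ} (hx : x ∈ U (n + 1)) (h0 : 0 < 1 + x 0) (w w' : Fin n → ℝ) :
    emb x w ⬝ᵥ emb x w' = w ⬝ᵥ w' := by
  rw [dot_succ]
  simp only [emb, Fin.cons_zero, Fin.tail_cons, sub_dotProduct, dotProduct_sub, smul_dotProduct,
    dotProduct_smul, smul_eq_mul, tail_dot hx, dotProduct_comm w (Fin.tail x)]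
  field_simp
  ring

theorem dot_emb {x : Fin (n + 1) → ℝ} (hx : x ∈ U (n + 1)) (h0 : 0 < 1 + x 0) (w : Fin n → ℝ) :
    emb x w ⬝ᵥ x = 0 := by
  rw [dot_succ]
  simp only [emb, Fin.cons_zero, Fin.tail_cons, sub_dotProduct, smul_dotProduct,
    smul_eq_mul, tail_dot hx, dotProduct_comm w (Fin.tail x)]
  field_simp
  ring

theorem emb_surj {x : Fin (n + 1) → ℝ} (hx : x ∈ U (n + 1)) (h0 : 0 < 1 + x 0)
    (u : Fin (n + 1) → ℝ) (hu : u ⬝ᵥ x = 0) : ∃ w, emb x w = u := by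
  refine ⟨(u 0 / (1 + x 0)) • Fin.tail x - Fin.tail u, ?_⟩
  rw [dot_succ] at hu
  have : Fin.tail x ⬝ᵥ ((u 0 / (1 + x 0)) • Fin.tail x - Fin.tail u) = u 0 := by
    simp only [dotProduct_sub, dotProduct_smul, smul_eq_mul, tail_dot hx,
      dotProduct_comm (Fin.tail x) (Fin.tail u)]
    field_simp
    linarith
  rw [emb, this, sub_sub_cancel, Fin.cons_self_tail]

theorem emb_decomp {x : Fin (n + 1) → ℝ} (hx : x ∈ U (n + 1)) (h0 : 0 < 1 + x 0)
    (u : Fin (n + 1) → ℝ) : ∃ w, u = (u ⬝ᵥ x) • x + emb x w := by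
  have hx' : x ⬝ᵥ x = 1 := hx
  obtain ⟨w, hw⟩ := emb_surj hx h0 (u - (u ⬝ᵥ x) • x) (by simp [hx'])
  exact ⟨w, by rw [hw]; simp⟩

theorem emb_add (x : Fin (n + 1) → ℝ) (w w' : Fin n → ℝ) :
    emb x (w + w') = emb x w + emb x w' := by
  funext k
  refine Fin.cases ?_ (fun k => ?_) k
  · simp [emb]
  · simp [emb]; ring

theorem emb_smul (x : Fin (n + 1) → ℝ) (c : ℝ) (w : Fin n → ℝ) :
    emb x (c • w) = c • emb x w := by
  funext k
  refine Fin.cases ?_ (fun k => ?_) k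
  · simp [emb]
  · simp [emb]; ring

noncomputable def embL (x : Fin (n + 1) → ℝ) : (Fin n → ℝ) →ₗ[ℝ] (Fin (n + 1) → ℝ) where
  toFun := emb x
  map_add' := emb_add x
  map_smul' := emb_smul x

theorem emb_neg (x : Fin (n + 1) → ℝ) (w : Fin n → ℝ) : emb x (-w) = -emb x w :=
  (embL x).map_neg w

theorem continuous_emb {X : Type*} [TopologicalSpace X] {x : X → Fin (n + 1) → ℝ}
    {w : X → Fin n → ℝ} (hx : Continuous x) (hw : Continuous w) (h0 : ∀ a, 0 < 1 + x a 0) :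
    Continuous fun a => emb (x a) (w a) := by
  have ht : Continuous fun a => Fin.tail (x a) :=
    continuous_pi fun k => (continuous_apply _).comp hx
  apply continuous_pi
  intro k
  refine Fin.cases ?_ (fun k => ?_) k
  · simp only [emb, Fin.cons_zero]; fun_prop
  · simp only [emb, Fin.cons_succ, Pi.sub_apply, Pi.smul_apply, smul_eq_mul]
    have := fun a => (h0 a).ne'
    fun_prop (disch := assumption)

/-- restriction of a form to the orthogonal complement of `x` -/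
noncomputable def Bm (A : Sym2 (Fin (n + 1)) → ℝ) (x : Fin (n + 1) → ℝ) : Sym2 (Fin n) → ℝ :=
  Sym2.lift ⟨fun i j => bf A (emb x (Pi.single i 1)) (emb x (Pi.single j 1)),
    fun _ _ => bf_comm _ _ _⟩

theorem bf_Bm (A : Sym2 (Fin (n + 1)) → ℝ) (x : Fin (n + 1) → ℝ) (w w' : Fin n → ℝ) :
    bf (Bm A x) w w' = bf A (emb x w) (emb x w') := by
  have e : ∀ w : Fin n → ℝ, emb x w = ∑ i, w i • emb x (Pi.single i 1) := by
    intro w
    have := LinearMap.pi_apply_eq_sum_univ (embL x) w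
    refine this.trans (Finset.sum_congr rfl fun i _ => ?_)
    have : (fun j => if i = j then (1 : ℝ) else 0) = Pi.single i 1 := by
      funext j; simp [Pi.single_apply, eq_comm]
    rw [this]; rfl
  rw [bf_eq, e w, e w', Finset.sum_comm]
  simp only [bf, Bm, Sym2.lift_mk, sum_dotProduct, mulVec_sum, dotProduct_sum, smul_dotProduct,
    mulVec_smul, dotProduct_smul, smul_eq_mul, Finset.mul_sum]
  refine Finset.sum_congr rfl fun i _ => Finset.sum_congr rfl fun j _ => ?_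
  ring

theorem qf_Bm (A : Sym2 (Fin (n + 1)) → ℝ) (x : Fin (n + 1) → ℝ) (w : Fin n → ℝ) :
    qf (Bm A x) w = qf A (emb x w) := bf_Bm A x w w

theorem continuous_Bm {X : Type*} [TopologicalSpace X] {A : X → Sym2 (Fin (n + 1)) → ℝ}
    {x : X → Fin (n + 1) → ℝ} (hA : Continuous A) (hx : Continuous x)
    (h0 : ∀ a, 0 < 1 + x a 0) : Continuous fun a => Bm (A a) (x a) := by
  apply continuous_pi
  intro e
  induction e using Sym2.ind with
  | _ i j =>
    exact continuous_bf hA (continuous_emb hx continuous_const h0)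
      (continuous_emb hx continuous_const h0)

theorem orth_card {m : ℕ} (v : Fin m → Fin n → ℝ) (h0 : ∀ i, v i ≠ 0)
    (h : ∀ i j, i ≠ j → v i ⬝ᵥ v j = 0) : m ≤ n := by
  have : LinearIndependent ℝ v := by
    rw [Fintype.linearIndependent_iff]
    intro g hg i
    have h1 := congrArg (· ⬝ᵥ v i) hg
    simp only [sum_dotProduct, smul_dotProduct, smul_eq_mul, zero_dotProduct] at h1
    rw [Finset.sum_eq_single i (fun j _ hj => by rw [h j i hj, mul_zero]) (by simp)] at h1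
    exact (mul_eq_zero.1 h1).resolve_right (dot_self_pos (h0 i)).ne'
  simpa using this.fintype_card_le_finrank

end

end Crest.Agent.H0069
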