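import Crest.Agent.H0069.Chain

set_option autoImplicit false

namespace Crest.Agent.H0069

section alt
variable {C : Type*} [DecidableEq C]

def nl (e : Bool × C) : Bool × C := (!e.1, e.2)

omit [DecidableEq C] in
theorem nl_nl (e : Bool × C) : nl (nl e) = e := by simp [nl]

omit [DecidableEq C] in
theorem nl_inj : Function.Injective (nl : Bool × C → Bool × C) :=
  Function.LeftInverse.injective nl_nl

def altF : List C → (C → Bool) → Finset (Bool × C) → F2
  | [], _, _ => 1
  | i :: L, t, S => if (t i, i) ∈ S then altF L t S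
      else if (!t i, i) ∈ S then 0 else altF L (fun j => !t j) S

def NC (S : Finset (Bool × C)) : Prop := ∀ i, ¬ ((true, i) ∈ S ∧ (false, i) ∈ S)

omit [DecidableEq C] in
theorem NC.not {S : Finset (Bool × C)} (h : NC S) {b : Bool} {i : C} (hb : (b, i) ∈ S) :
    (!b, i) ∉ S := by
  intro h2
  cases b
  · exact h i ⟨h2, hb⟩
  · exact h i ⟨hb, h2⟩

theorem altF_erase (L : List C) (S : Finset (Bool × C)) (e : Bool × C) (he : e.2 ∉ L) :
    ∀ t, altF L t (S.erase e) = altF L t S := by
  induction L with
  | nil => intro t; rfl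
  | cons i L ih =>
    intro t
    have h1 : e.2 ≠ i := fun h => he (h ▸ List.mem_cons_self)
    have h2 : e.2 ∉ L := fun h => he (List.mem_cons_of_mem _ h)
    have h3 : ∀ b : Bool, (b, i) ∈ S.erase e ↔ (b, i) ∈ S := by
      intro b
      rw [Finset.mem_erase]
      exact ⟨fun h => h.2, fun h => ⟨fun h' => h1 (by rw [← h']), h⟩⟩
    simp only [altF, h3, ih h2]

theorem altF_image (L : List C) (S : Finset (Bool × C)) :
    ∀ t, altF L t (S.image nl) = altF L (fun j => !t j) S := by
  have h3 : ∀ (b : Bool) (i : C), (b, i) ∈ S.image nl ↔ (!b, i) ∈ S := by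
    intro b i
    rw [Finset.mem_image]
    constructor
    · rintro ⟨e, he, h⟩
      have : e = nl (b, i) := by rw [← h, nl_nl]
      rw [this] at he; exact he
    · intro h; exact ⟨_, h, by simp [nl]⟩
  induction L with
  | nil => intro t; rfl
  | cons i L ih =>
    intro t
    simp only [altF, h3, ih, Bool.not_not]

theorem altF_empty (L : List C) : ∀ t, altF L t ∅ = 1 := by
  induction L with
  | nil => intro t; rfl
  | cons i L ih => intro t; simp [altF, ih]

theorem altF_sum (L : List C) (hL : L.Nodup) (S : Finset (Bool × C)) (hS : NC S) :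
    ∀ t, ∑ e ∈ S.filter (fun e => e.2 ∈ L), altF L t (S.erase e) =
      altF L t S + altF L (fun j => !t j) S := by
  induction L with
  | nil => intro t; simp [altF, f2_add_self]
  | cons i L ih =>
    intro t
    obtain ⟨hi, hL'⟩ := List.nodup_cons.1 hL
    have ih := ih hL'
    have hmem : ∀ e ∈ S.filter (fun e => e.2 ∈ L), ∀ b : Bool,
        ((b, i) ∈ S.erase e ↔ (b, i) ∈ S) := by
      intro e he b
      rw [Finset.mem_erase]
      refine ⟨fun h => h.2, fun h => ⟨fun h' => hi ?_, h⟩⟩
      have := (Finset.mem_filter.1 he).2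
      rw [← h'] at this; exact this
    have hsplit : ∀ b : Bool, (b, i) ∈ S →
        S.filter (fun e => e.2 ∈ i :: L) = insert (b, i) (S.filter (fun e => e.2 ∈ L)) := by
      intro b hb
      ext e
      simp only [Finset.mem_filter, List.mem_cons, Finset.mem_insert]
      constructor
      · rintro ⟨he, h | h⟩
        · left
          obtain ⟨b', j⟩ := e
          simp only at h
          subst h
          by_contra hc
          have : b' = !b := by
            cases b <;> cases b' <;> simp_all
          exact hS.not hb (this ▸ he)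
        · exact Or.inr ⟨he, h⟩
      · rintro (rfl | ⟨he, h⟩)
        · exact ⟨hb, Or.inl rfl⟩
        · exact ⟨he, Or.inr h⟩
    have hnot : ∀ b : Bool, (b, i) ∉ S.filter (fun e => e.2 ∈ L) := by
      intro b h; exact hi (Finset.mem_filter.1 h).2
    by_cases h1 : (t i, i) ∈ S
    · have h2 : (!t i, i) ∉ S := hS.not h1
      rw [hsplit _ h1, Finset.sum_insert (hnot _)]
      have e1 : altF (i :: L) t (S.erase (t i, i)) = altF L (fun j => !t j) S := by
        have : (!t i, i) ∉ S.erase (t i, i) := fun h => h2 (Finset.mem_of_mem_erase h)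
        simp only [altF, Finset.notMem_erase, if_false, this]
        exact altF_erase L S _ hi _
      have e2 : ∑ e ∈ S.filter (fun e => e.2 ∈ L), altF (i :: L) t (S.erase e) =
          ∑ e ∈ S.filter (fun e => e.2 ∈ L), altF L t (S.erase e) := by
        apply Finset.sum_congr rfl
        intro e he
        simp only [altF, hmem e he, h1, if_true]
      rw [e1, e2, ih]
      simp only [altF, h1, h2, if_true, if_false, Bool.not_not]
      linear_combination f2_add_self (altF L (fun j => !t j) S)
    · by_cases h2 : (!t i, i) ∈ S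
      · rw [hsplit _ h2, Finset.sum_insert (hnot _)]
        have e1 : altF (i :: L) t (S.erase (!t i, i)) = altF L (fun j => !t j) S := by
          have : (t i, i) ∉ S.erase (!t i, i) := fun h => h1 (Finset.mem_of_mem_erase h)
          simp only [altF, Finset.notMem_erase, if_false, this]
          exact altF_erase L S _ hi _
        have e2 : ∑ e ∈ S.filter (fun e => e.2 ∈ L), altF (i :: L) t (S.erase e) = 0 := by
          apply Finset.sum_eq_zero
          intro e he
          simp only [altF, hmem e he, h1, h2, if_true, if_false]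
        rw [e1, e2]
        simp only [altF, h1, h2, if_true, if_false]
        ring
      · have e0 : S.filter (fun e => e.2 ∈ i :: L) = S.filter (fun e => e.2 ∈ L) := by
          ext e
          simp only [Finset.mem_filter, List.mem_cons]
          constructor
          · rintro ⟨he, h | h⟩
            · exfalso
              obtain ⟨b', j⟩ := e
              simp only at h
              subst h
              cases hb : t j <;> cases b' <;> simp_all
            · exact ⟨he, h⟩
          · rintro ⟨he, h⟩; exact ⟨he, Or.inr h⟩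
        have e2 : ∑ e ∈ S.filter (fun e => e.2 ∈ L), altF (i :: L) t (S.erase e) =
            ∑ e ∈ S.filter (fun e => e.2 ∈ L), altF L (fun j => !t j) (S.erase e) := by
          apply Finset.sum_congr rfl
          intro e he
          simp only [altF, hmem e he, h1, h2, if_false]
        rw [e0, e2, ih]
        simp only [altF, h1, h2, if_false, Bool.not_not]

theorem DD_altF (L : List C) (hL : L.Nodup) (S : Finset (Bool × C)) (hS : NC S)
    (hSL : ∀ e ∈ S, e.2 ∈ L) (t : C → Bool) :
    DD (altF L t) S = altF L t S + altF L (fun j => !t j) S := by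
  rw [← altF_sum L hL S hS t, Finset.filter_true_of_mem hSL]; rfl

def patt (L : List C) (t : C → Bool) : Finset (Bool × C) := (L.map fun i => (t i, i)).toFinset

theorem mem_patt {L : List C} {t : C → Bool} {e : Bool × C} :
    e ∈ patt L t ↔ e.2 ∈ L ∧ e.1 = t e.2 := by
  simp only [patt, List.mem_toFinset, List.mem_map]
  constructor
  · rintro ⟨i, hi, rfl⟩; exact ⟨hi, rfl⟩
  · rintro ⟨h1, h2⟩; exact ⟨e.2, h1, by rw [← h2]⟩

theorem altF_full (L : List C) (S : Finset (Bool × C))
    (hfull : ∀ i ∈ L, (true, i) ∈ S ∨ (false, i) ∈ S) (t : C → Bool) :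
    altF L t S = if ∀ i ∈ L, (t i, i) ∈ S then 1 else 0 := by
  induction L with
  | nil => simp [altF]
  | cons i L ih =>
    have ih := ih (fun j hj => hfull j (List.mem_cons_of_mem _ hj))
    by_cases h1 : (t i, i) ∈ S
    · simp only [altF, h1, if_true, ih, List.forall_mem_cons, true_and]
    · have h2 : (!t i, i) ∈ S := by
        have := hfull i List.mem_cons_self
        cases hb : t i <;> simp_all
      simp [altF, h1, h2]

theorem altF_eq_ind (L : List C) (hL : L.Nodup) (S : Finset (Bool × C)) (hS : NC S)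
    (hSL : ∀ e ∈ S, e.2 ∈ L) (hc : S.card = L.length) (t : C → Bool) :
    altF L t S = ind (patt L t) S := by
  have hinj : Set.InjOn Prod.snd (S : Set (Bool × C)) := by
    rintro ⟨b, i⟩ h1 ⟨b', j⟩ h2 h
    simp only at h
    subst h
    by_contra hne
    have : b' = !b := by cases b <;> cases b' <;> simp_all
    exact hS.not h1 (this ▸ h2)
  have himg : S.image Prod.snd = L.toFinset := by
    apply Finset.eq_of_subset_of_card_le
    · intro i hi
      obtain ⟨e, he, rfl⟩ := Finset.mem_image.1 hi
      exact List.mem_toFinset.2 (hSL e he)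
    · rw [Finset.card_image_of_injOn hinj, List.toFinset_card_of_nodup hL, hc]
  have hfull : ∀ i ∈ L, (true, i) ∈ S ∨ (false, i) ∈ S := by
    intro i hi
    have : i ∈ S.image Prod.snd := himg ▸ List.mem_toFinset.2 hi
    obtain ⟨⟨b, j⟩, he, rfl⟩ := Finset.mem_image.1 this
    cases b
    · exact Or.inr he
    · exact Or.inl he
  rw [altF_full L S hfull t, ind]
  congr 1
  apply propext
  constructor
  · intro h
    ext ⟨b, i⟩
    rw [mem_patt]
    constructor
    · intro he
      refine ⟨hSL _ he, ?_⟩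
      by_contra hne
      have : b = !t i := by cases b <;> cases hb : t i <;> simp_all
      exact hS.not (h i (hSL _ he)) (this ▸ he)
    · rintro ⟨h1, h2⟩
      simp only at h1 h2
      rw [h2]; exact h i h1
  · intro h i hi
    rw [h, mem_patt]; exact ⟨hi, rfl⟩

end alt

def small {X : Type*} [PseudoMetricSpace X] (ε : ℝ) (l : List X) : Prop :=
  ∀ a ∈ l, ∀ b ∈ l, dist a b ≤ ε

theorem small.mono {X : Type*} [PseudoMetricSpace X] {ε ε' : ℝ} {l : List X} (h : small ε l)
    (h' : ε ≤ ε') : small ε' l := fun a ha b hb => (h a ha b hb).trans h'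

theorem small.sub {X : Type*} [PseudoMetricSpace X] {ε : ℝ} {l m : List X} (h : small ε l)
    (h' : ∀ b ∈ m, b ∈ l) : small ε m := fun a ha b hb => h a (h' a ha) b (h' b hb)

section sphere
variable {κ : Type*} [Fintype κ] [DecidableEq κ]

def S1 (κ : Type*) [Fintype κ] : Set (κ → ℝ) := {x | ∑ i, |x i| = 1}

omit [DecidableEq κ] in
theorem S1_neg {x : κ → ℝ} (h : x ∈ S1 κ) : -x ∈ S1 κ := by
  simpa [S1] using h

omit [DecidableEq κ] in
theorem S1_abs_le {x : κ → ℝ} (h : x ∈ S1 κ) (i : κ) : |x i| ≤ 1 := by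
  have : ∑ i, |x i| = 1 := h
  rw [← this]
  exact Finset.single_le_sum (f := fun i => |x i|) (fun _ _ => abs_nonneg _) (Finset.mem_univ i)

omit [DecidableEq κ] in
theorem S1_compact : IsCompact (S1 κ) := by
  apply Metric.isCompact_of_isClosed_isBounded
  · exact isClosed_eq (by fun_prop) continuous_const
  · rw [isBounded_iff_forall_norm_le]
    exact ⟨1, fun x hx => (pi_norm_le_iff_of_nonneg zero_le_one).2 fun i => S1_abs_le hx i⟩

omit [DecidableEq κ] in
theorem S1_ne_neg {x : κ → ℝ} (h : x ∈ S1 κ) : x ≠ -x := by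
  intro hx
  have : ∀ i, x i = 0 := fun i => by
    have := congrFun hx i
    simp only [Pi.neg_apply] at this
    linarith
  have h2 : ∑ i, |x i| = 1 := h
  simp [this] at h2

omit [Fintype κ] [DecidableEq κ] in
theorem pb_neg_neg (γ : Co (κ → ℝ)) : pb Neg.neg (pb Neg.neg γ) = γ := by
  funext l; simp [pb_apply]

theorem sphere_chain (K : List κ) (i0 : κ) (hK : (i0 :: K).Nodup) : ∀ ε > (0 : ℝ),
    ∃ h : Ch (κ → ℝ),
      Supp h (fun l => l.length = K.length + 1 ∧
        (∀ a ∈ l, a ∈ S1 κ ∧ ∀ i, i ∉ i0 :: K → a i = 0) ∧ small ε l) ∧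
      (∀ γ, h (cob γ) + h (pb Neg.neg (cob γ)) = 0) ∧
      ∀ α : Co (κ → ℝ), α [] = 1 →
        (∀ l, (∀ a ∈ l, a ∈ S1 κ) → small ε l → cob α l = α l + α (l.map Neg.neg)) →
        h α + h (pb Neg.neg α) = 1 := by
  induction K with
  | nil =>
    intro ε hε
    have hS : (Pi.single i0 1 : κ → ℝ) ∈ S1 κ := by
      simp only [S1, Set.mem_ofPred_eq]
      rw [Finset.sum_eq_single i0] <;> simp +contextual
    have hsm : small ε [(Pi.single i0 1 : κ → ℝ)] := by
      intro a ha b hb
      rw [List.mem_singleton.1 ha, List.mem_singleton.1 hb, dist_self]; exact hε.le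
    refine ⟨ev [Pi.single i0 1], ?_, ?_, ?_⟩
    · refine (supp_ev _).mono ?_
      rintro l rfl
      refine ⟨rfl, ?_, hsm⟩
      intro a ha
      rw [List.mem_singleton.1 ha]
      refine ⟨hS, fun i hi => ?_⟩
      have : i ≠ i0 := fun h => hi (h ▸ List.mem_cons_self)
      simp [this]
    · intro γ
      simp [ev_apply, pb_apply, cob_apply, dl, f2_add_self]
    · intro α h0 hα
      have := hα [Pi.single i0 1] (fun a ha => by rw [List.mem_singleton.1 ha]; exact hS) hsm
      simp only [ev_apply, pb_apply]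
      rw [← this]
      simp [cob_apply, dl, h0]
  | cons i K ih =>
    intro ε hε
    have hK' : (i0 :: K).Nodup := hK.sublist (by simp)
    have hi : i ∉ i0 :: K := by
      simp only [List.nodup_cons, List.mem_cons, not_or] at hK ⊢
      exact ⟨fun h => hK.1.1 h.symm, hK.2.1⟩
    obtain ⟨h, hs, hc, ha⟩ := ih hK' (ε / 2) (by positivity)
    obtain ⟨J, hJ⟩ := exists_nat_gt (4 / ε)
    have hJ0 : (0 : ℝ) < J := lt_trans (by positivity) hJ
    have hJε : 2 / (J : ℝ) ≤ ε / 2 := by
      rw [div_le_iff₀ hJ0]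
      rw [div_lt_iff₀ hε] at hJ
      nlinarith
    set f : ℕ → (κ → ℝ) → (κ → ℝ) :=
      fun j x => (1 - (j : ℝ) / J) • x + ((j : ℝ) / J) • Pi.single i 1 with hf
    have f0 : f 0 = id := by funext x; simp [hf]
    have fJ : f J = fun _ => Pi.single i 1 := by
      funext x; simp [hf, div_self hJ0.ne']
    set z : Ch (κ → ℝ) := h + h.comp (pb Neg.neg) with hz
    have zneg : ∀ γ, z (pb Neg.neg γ) = z γ := by
      intro γ
      simp only [hz, AddMonoidHom.add_apply, AddMonoidHom.comp_apply, pb_neg_neg]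
      ring
    have zs : Supp z (fun l => l.length = K.length + 1 ∧
        (∀ a ∈ l, a ∈ S1 κ ∧ ∀ i, i ∉ i0 :: K → a i = 0) ∧ small (ε / 2) l) := by
      refine (hs.add (hs.map Neg.neg (Q := fun l => l.length = K.length + 1 ∧
        (∀ a ∈ l, a ∈ S1 κ ∧ ∀ i, i ∉ i0 :: K → a i = 0) ∧ small (ε / 2) l) ?_)).mono ?_
      · rintro l ⟨h1, h2, h3⟩
        refine ⟨by simpa using h1, ?_, ?_⟩
        · intro a ha
          obtain ⟨b, hb, rfl⟩ := List.mem_map.1 ha
          exact ⟨S1_neg (h2 b hb).1, fun i hi => by simp [(h2 b hb).2 i hi]⟩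
        · intro a ha b hb
          obtain ⟨a', ha', rfl⟩ := List.mem_map.1 ha
          obtain ⟨b', hb', rfl⟩ := List.mem_map.1 hb
          rw [dist_neg_neg]; exact h3 _ ha' _ hb'
      · rintro l (h | h) <;> exact h
    have key : ∀ γ, z (tele f J (cob γ)) = z γ := by
      intro γ
      have h1 := congrArg z (tele_prism f J γ)
      rw [map_add, map_add, f0, fJ] at h1
      have h2 : z (cob (tele f J γ)) = 0 := hc _
      have h3 : z (pb (fun _ => (Pi.single i 1 : κ → ℝ)) γ) = 0 := by
        have : pb Neg.neg (pb (fun _ : κ → ℝ => (Pi.single i 1 : κ → ℝ)) γ) =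
            pb (fun _ : κ → ℝ => (Pi.single i 1 : κ → ℝ)) γ := by
          funext l; simp [pb_apply, Function.comp_def]
        simp only [hz, AddMonoidHom.add_apply, AddMonoidHom.comp_apply, this, f2_add_self]
      have h4 : pb id γ = γ := by funext l; simp [pb_apply]
      rw [h2, h3, h4] at h1
      simpa using h1
    have hsupp : Supp (z.comp (tele f J)) (fun l => l.length = (i :: K).length + 1 ∧
        (∀ a ∈ l, a ∈ S1 κ ∧ ∀ k, k ∉ i0 :: i :: K → a k = 0) ∧ small ε l) := by
      apply zs.comp
      rintro γ hγ l ⟨h1, h2, h3⟩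
      apply tele_eq_zero
      intro j hj m hm hb
      have hb' : ∀ b ∈ m, ∃ a ∈ l, ∃ j' : ℕ, (j' = j ∨ j' = j + 1) ∧ b = f j' a := by
        intro b hb1
        obtain ⟨a, ha, h | h⟩ := hb b hb1
        · exact ⟨a, ha, j, Or.inl rfl, h⟩
        · exact ⟨a, ha, j + 1, Or.inr rfl, h⟩
      have ht : ∀ j' : ℕ, (j' = j ∨ j' = j + 1) → 0 ≤ (j' : ℝ) / J ∧ (j' : ℝ) / J ≤ 1 := by
        intro j' hj'
        refine ⟨by positivity, ?_⟩
        rw [div_le_one hJ0]
        exact_mod_cast (by omega : j' ≤ J)
      apply hγ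
      refine ⟨by simp [hm, h1], ?_, ?_⟩
      · intro b hb1
        obtain ⟨a, ha, j', hj', rfl⟩ := hb' b hb1
        obtain ⟨t0, t1⟩ := ht j' hj'
        obtain ⟨aS, a0⟩ := h2 a ha
        constructor
        · have hai := a0 i hi
          have : ∀ k, |f j' a k| = (1 - (j' : ℝ) / J) * |a k| +
              ((j' : ℝ) / J) * (Pi.single i 1 : κ → ℝ) k := by
            intro k
            by_cases hk : k = i
            · subst hk
              simp [hf, hai, abs_of_nonneg t0]
            · simp [hf, hk, abs_mul, abs_of_nonneg (sub_nonneg.2 t1)]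
          have aS' : ∑ k, |a k| = 1 := aS
          simp only [S1, Set.mem_ofPred_eq, this, Finset.sum_add_distrib, ← Finset.mul_sum, aS']
          simp
        · intro k hk
          have hk1 : k ≠ i := fun h => hk (by simp [h])
          have hk2 : k ∉ i0 :: K := fun h => hk (by
            rcases List.mem_cons.1 h with h | h <;> simp [h])
          simp [hf, hk1, a0 k hk2]
      · intro b hb1 b' hb2
        obtain ⟨a, ha, j1, hj1, rfl⟩ := hb' b hb1
        obtain ⟨a', ha', j2, hj2, rfl⟩ := hb' b' hb2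
        obtain ⟨t0, t1⟩ := ht j1 hj1
        have hd := h3 a ha a' ha'
        have htt : |(j1 : ℝ) / J - (j2 : ℝ) / J| ≤ 1 / J := by
          rw [← sub_div, abs_div, abs_of_pos hJ0]
          apply div_le_div_of_nonneg_right _ hJ0.le
          rcases hj1 with rfl | rfl <;> rcases hj2 with rfl | rfl <;> simp
        rw [dist_pi_le_iff hε.le]
        intro k
        have hdk := (dist_le_pi_dist a a' k).trans hd
        rw [Real.dist_eq] at hdk ⊢
        have hak := S1_abs_le (h2 a' ha').1 k
        have hek : |(Pi.single i 1 : κ → ℝ) k| ≤ 1 := by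
          by_cases hk : k = i <;> simp [hk]
        have e : f j1 a k - f j2 a' k = (1 - (j1 : ℝ) / J) * (a k - a' k) +
            ((j1 : ℝ) / J - (j2 : ℝ) / J) * ((Pi.single i 1 : κ → ℝ) k - a' k) := by
          simp only [hf, Pi.add_apply, Pi.smul_apply, smul_eq_mul]; ring
        rw [e]
        refine (abs_add_le _ _).trans ?_
        rw [abs_mul, abs_mul, abs_of_nonneg (sub_nonneg.2 t1)]
        have h5 : |(Pi.single i 1 : κ → ℝ) k - a' k| ≤ 2 := (abs_sub _ _).trans (by linarith)
        have h6 : (1 - (j1 : ℝ) / J) * |a k - a' k| ≤ ε / 2 := by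
          nlinarith [abs_nonneg (a k - a' k)]
        have h7 : |(j1 : ℝ) / J - (j2 : ℝ) / J| * |(Pi.single i 1 : κ → ℝ) k - a' k| ≤
            1 / J * 2 := mul_le_mul htt h5 (abs_nonneg _) (by positivity)
        have h8 : 1 / (J : ℝ) * 2 = 2 / J := by ring
        linarith
    refine ⟨z.comp (tele f J), hsupp, ?_, ?_⟩
    · intro γ
      simp only [AddMonoidHom.comp_apply]
      rw [← cob_pb, key, key, zneg, f2_add_self]
    · intro α h0 hα
      rw [← map_add, hsupp.congr (β := cob α), AddMonoidHom.comp_apply, key]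
      · exact ha α h0 fun l h1 h2 => hα l h1 (h2.mono (by linarith))
      · rintro l ⟨_, h2, h3⟩
        rw [hα l (fun a ha => (h2 a ha).1) h3]; rfl

omit [DecidableEq κ] in
theorem nc_of_small {C : Type*} [DecidableEq C] {ε : ℝ} {lab : (κ → ℝ) → Bool × C}
    (hnc : ∀ x ∈ S1 κ, ∀ y ∈ S1 κ, dist x y ≤ ε → lab y ≠ nl (lab x))
    {l : List (κ → ℝ)} (h1 : ∀ a ∈ l, a ∈ S1 κ) (h2 : small ε l) :
    NC (l.map lab).toFinset := by
  rintro i ⟨ha, hb⟩
  obtain ⟨a, ha, ha'⟩ := List.mem_map.1 (List.mem_toFinset.1 ha)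
  obtain ⟨b, hb, hb'⟩ := List.mem_map.1 (List.mem_toFinset.1 hb)
  exact hnc a (h1 a ha) b (h1 b hb) (h2 a ha b hb) (by rw [ha', hb']; rfl)

/-- Ky Fan's lemma, chain form -/
theorem kf_chain [Nonempty κ] (ε : ℝ) (hε : 0 < ε) :
    ∃ Z : Ch (κ → ℝ),
      Supp Z (fun l => l.length = Fintype.card κ ∧ (∀ a ∈ l, a ∈ S1 κ) ∧ small ε l) ∧
      (∀ γ, Z (cob γ) = 0) ∧
      ∀ (C : Type) [DecidableEq C] (Lc : List C) (t : C → Bool) (lab : (κ → ℝ) → Bool × C),
        Lc.Nodup → (∀ x ∈ S1 κ, lab (-x) = nl (lab x)) → (∀ x ∈ S1 κ, (lab x).2 ∈ Lc) →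
        (∀ x ∈ S1 κ, ∀ y ∈ S1 κ, dist x y ≤ ε → lab y ≠ nl (lab x)) →
        Z (hat lab (altF Lc t)) = 1 := by
  obtain ⟨i0, K, hK⟩ : ∃ i0 K, (Finset.univ : Finset κ).toList = i0 :: K := by
    cases h : (Finset.univ : Finset κ).toList with
    | nil =>
      have := congrArg List.length h
      simp at this
    | cons i0 K => exact ⟨i0, K, rfl⟩
  have hnd : (i0 :: K).Nodup := hK ▸ Finset.nodup_toList _
  have hlen : K.length + 1 = Fintype.card κ := by
    have := congrArg List.length hK
    simpa using this.symm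
  obtain ⟨h, hs, hc, ha⟩ := sphere_chain K i0 hnd ε hε
  refine ⟨h + h.comp (pb Neg.neg), ?_, hc, ?_⟩
  · refine (hs.add (hs.map Neg.neg (Q := fun l => l.length = Fintype.card κ ∧
        (∀ a ∈ l, a ∈ S1 κ) ∧ small ε l) ?_)).mono ?_
    · rintro l ⟨h1, h2, h3⟩
      refine ⟨by simpa [← hlen] using h1, ?_, ?_⟩
      · intro a ha
        obtain ⟨b, hb, rfl⟩ := List.mem_map.1 ha
        exact S1_neg (h2 b hb).1
      · intro a ha b hb
        obtain ⟨a', ha', rfl⟩ := List.mem_map.1 ha
        obtain ⟨b', hb', rfl⟩ := List.mem_map.1 hb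
        rw [dist_neg_neg]; exact h3 _ ha' _ hb'
    · rintro l (⟨h1, h2, h3⟩ | h)
      · exact ⟨hlen ▸ h1, fun a ha => (h2 a ha).1, h3⟩
      · exact h
  · intro C _ Lc t lab hL hodd hcol hnc
    apply ha
    · simp [hat, altF_empty]
    · intro l h1 h2
      have hNC := nc_of_small hnc h1 h2
      have e1 : hat lab (altF Lc t) (l.map Neg.neg) = hat lab (altF Lc fun j => !t j) l := by
        have e : (l.map Neg.neg).map lab = (l.map lab).map nl := by
          rw [List.map_map, List.map_map]
          apply List.map_congr_left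
          intro a ha; exact hodd a (h1 a ha)
        have e' : ((l.map lab).map nl).toFinset = (l.map lab).toFinset.image nl := by
          ext x; simp
        rw [hat_eq, hat_eq, e, ← altF_image, e']
        simp only [List.nodup_map_iff nl_inj]
      rw [cob_hat, e1, ← hat_add]
      apply hat_congr
      intro _
      apply DD_altF Lc hL _ hNC
      intro e he
      obtain ⟨a, ha, rfl⟩ := List.mem_map.1 (List.mem_toFinset.1 he)
      exact hcol a (h1 a ha)

end sphere

end Crest.Agent.H0069
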