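import Crest.Agent.H0069.Par

set_option autoImplicit false

namespace Crest.Agent.H0069

open Filter Topology Matrix

section
variable {n : ℕ} {C : Type} [DecidableEq C] {η : ℝ} {D : Finset C}
  {F : C → Set (Fin (n + 2) → ℝ)}

theorem pp_dist (z z' : II n → ℝ) : dist (pp z) (pp z') ≤ dist z z' :=
  (dist_pi_le_iff dist_nonneg).2 fun k => dist_le_pi_dist z z' (Sum.inl k)

theorem mem_ball7 {ι : Type*} [Fintype ι] {z : ι → ℝ} (h : ∀ k, |z k| ≤ 7) :
    z ∈ Metric.closedBall (0 : ι → ℝ) 7 := by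
  rw [mem_closedBall_zero_iff, pi_norm_le_iff_of_nonneg (by norm_num)]; exact h

theorem pp_sh (e : Sym2 (Fin (n + 1))) (t : ℝ) (a : II n → ℝ) : pp (sh (Sum.inr e) t a) = pp a := by
  funext k; simp [pp, sh]

theorem bb_sh (t : ℝ) (a : II n → ℝ) : bb (sh (Sum.inr s0) t a) = bb a := by
  funext e
  by_cases h : e = s0 <;> simp [bb, sh, h]

theorem weakP0 (hn : 1 ≤ n) (h : Cov η D F) (hc : D.card = Fintype.card (Sym2 (Fin (n + 2))))
    (T : Finset C) (q : C) (hq : q ∉ T) (hT : T.card = n + 1) (hQ : insert q T ⊆ D)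
    (h0 : ∀ i ∈ insert q T, Pi.single 0 1 ∈ F i) :
    ∃ q' ∈ D, q' ∉ T ∧ q' ≠ q ∧ Face F (insert q' T) := by
  by_contra hcon
  push Not at hcon
  have : Nonempty C := ⟨q⟩
  have hη := h.pos
  set Q := insert q T with hQd
  have hQc : Q.card = n + 2 := by rw [hQd, Finset.card_insert_of_notMem hq, hT]
  have hN : (D \ Q).card = Fintype.card (Sym2 (Fin (n + 1))) := by
    rw [Finset.card_sdiff_of_subset hQ, hc, card_succ, hQc]; simp
  obtain ⟨j0, hj0⟩ : (D \ Q).Nonempty := by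
    rw [← Finset.card_pos, hN]; exact Fintype.card_pos
  obtain ⟨t0, ht0⟩ : T.Nonempty := by rw [← Finset.card_pos, hT]; omega
  have hqQ : q ∈ Q := Finset.mem_insert_self _ _
  have ht0Q : t0 ∈ Q := Finset.mem_insert_of_mem ht0
  obtain ⟨col, hcol⟩ : ∃ col : (Fin (n + 2) → ℝ) → C, ∀ x ∈ U (n + 2), col x ∈ D ∧ x ∈ F (col x) := by
    choose! col h1 h2 using h.cover
    exact ⟨col, fun x hx => ⟨h1 x hx, h2 x hx⟩⟩
  obtain ⟨δ, ⟨⟨⟨hA, hB⟩, hS⟩, hδ1⟩, hδ⟩ := (((((lemA (n := n) hη).and (lemB h (D \ Q))).and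
    (h.small_face (isCompact_closedBall (0 : II n → ℝ) 7) Metric.isClosed_closedBall
      (φ := fun z => xp η⁻¹ (pp z)) (by fun_prop) (fun z _ => xp_mem _ _))).and
      (ev_le one_pos)).and ev_pos).exists
  obtain ⟨J, hJ⟩ := exists_nat_gt (12 * (La n).length / δ)
  have hJ0 : (0 : ℝ) < J := lt_of_le_of_lt (by positivity) hJ
  set hh : ℝ := 3 / J with hhd
  have hh0 : 0 < hh := by positivity
  have hJh : J * hh = 3 := by rw [hhd]; field_simp
  have hLa : (La n).length * hh ≤ δ / 4 := by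
    rw [div_lt_iff₀ hδ] at hJ
    rw [hhd, mul_div_assoc', div_le_iff₀ hJ0]; linarith
  have hlen : (La n).length = 1 + (Lb n).length + (Lp n).length := by simp [La]; ring
  have hLb : (Lb n).length * hh ≤ δ / 4 :=
    le_trans (mul_le_mul_of_nonneg_right (by exact_mod_cast (by omega)) hh0.le) hLa
  have hLp : (Lp n).length * hh ≤ δ / 4 :=
    le_trans (mul_le_mul_of_nonneg_right (by exact_mod_cast (by omega)) hh0.le) hLa
  -- basic facts about labels
  have lpF : ∀ z : II n → ℝ, (lp η col z).2 ∈ D ∧ xp η⁻¹ (pp z) ∈ F (lp η col z).2 :=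
    fun z => hcol _ (xp_mem _ _)
  have lmF : ∀ z : II n → ℝ, (lm η col z).2 ∈ D ∧
      emb (xp η⁻¹ (pp z)) (wmin (bb z)) ∈ F (lm η col z).2 :=
    fun z => hcol _ (emb_mem _ _ (wmin_mem _))
  have lbT : ∀ z : II n → ℝ, (lbl η col z).1 = true →
      lbl η col z = lp η col z ∧ 0 ≤ z (Sum.inr s0) := by
    intro z hz
    by_cases h1 : 0 ≤ z (Sum.inr s0)
    · exact ⟨if_pos h1, h1⟩
    · rw [lbl, if_neg h1] at hz; simp [lm] at hz
  have lbF : ∀ z : II n → ℝ, (lbl η col z).1 = false →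
      lbl η col z = lm η col z ∧ z (Sum.inr s0) < 0 := by
    intro z hz
    by_cases h1 : 0 ≤ z (Sum.inr s0)
    · rw [lbl, if_pos h1] at hz; simp [lp] at hz
    · exact ⟨if_neg h1, not_le.1 h1⟩
  have orthA : ∀ z z' : II n → ℝ, (∀ k, |pp z k| ≤ 7) → (∀ k, |pp z' k| ≤ 7) →
      dist (pp z) (pp z') ≤ δ → ∀ w ∈ U (n + 1), ∀ i, emb (xp η⁻¹ (pp z)) w ∈ F i →
      xp η⁻¹ (pp z') ∈ F i → False := by
    intro z z' h1 h2 hd w hw i k1 k2
    exact absurd (h.sep i _ k1 _ k2) (not_le.2 (hA _ (mem_ball7 h1) _ (mem_ball7 h2) hd w hw))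
  have PCof : ∀ z : II n → ℝ, (∀ w ∈ U (n + 1), ∀ i ∈ Q, emb (xp η⁻¹ (pp z)) w ∉ F i) →
      ∀ w ∈ U (n + 1), ∃ j ∈ D \ Q, emb (xp η⁻¹ (pp z)) w ∈ F j := by
    intro z hz w hw
    obtain ⟨k1, k2⟩ := hcol _ (emb_mem η⁻¹ (pp z) hw)
    exact ⟨_, Finset.mem_sdiff.2 ⟨k1, fun hq => hz w hw _ hq k2⟩, k2⟩
  have pbound : ∀ z : II n → ℝ, ∀ i ∈ Q, xp η⁻¹ (pp z) ∈ F i → ∀ k, |z (Sum.inl k)| ≤ 1 := by
    intro z i hi hz k
    have := h.sep i _ hz _ (h0 i hi)
    simp only [dotProduct_single, mul_one] at this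
    exact xp_bound hη this k
  set π := patt D.toList (fun i => decide (i ∈ Q)) with hπ
  set T' := patt T.toList (fun _ => true) with hT'
  set N' := patt (D \ Q).toList (fun _ => false) with hN'
  have memπ : ∀ e : Bool × C, e ∈ π ↔ e.2 ∈ D ∧ e.1 = decide (e.2 ∈ Q) := by
    intro e; rw [hπ, mem_patt, Finset.mem_toList]
  have memT' : ∀ e : Bool × C, e ∈ T' ↔ e.2 ∈ T ∧ e.1 = true := by
    intro e; rw [hT', mem_patt, Finset.mem_toList]
  have memN' : ∀ e : Bool × C, e ∈ N' ↔ e.2 ∈ D \ Q ∧ e.1 = false := by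
    intro e; rw [hN', mem_patt, Finset.mem_toList]
  have hqT' : (true, q) ∉ T' := by simp [memT', hq]
  have fT : π.filter (fun e => e.1 = true) = insert (true, q) T' := by
    ext ⟨b, i⟩
    simp only [Finset.mem_filter, memπ, Finset.mem_insert, memT', Prod.mk.injEq]
    constructor
    · rintro ⟨⟨-, k2⟩, rfl⟩
      have : i ∈ Q := by simpa using k2
      rcases Finset.mem_insert.1 this with h | h <;> simp [h]
    · rintro (⟨rfl, rfl⟩ | ⟨k, rfl⟩)
      · exact ⟨⟨hQ hqQ, by simp [hqQ]⟩, rfl⟩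
      · have := Finset.mem_insert_of_mem (b := q) k
        exact ⟨⟨hQ this, by simp [hQd, k]⟩, rfl⟩
  have fF : π.filter (fun e => e.1 = false) = N' := by
    ext ⟨b, i⟩
    simp only [Finset.mem_filter, memπ, memN', Finset.mem_sdiff]
    constructor
    · rintro ⟨⟨k1, k2⟩, rfl⟩
      exact ⟨⟨k1, by simpa using k2⟩, rfl⟩
    · rintro ⟨⟨k1, k2⟩, rfl⟩
      exact ⟨⟨k1, by simp [k2]⟩, rfl⟩
  -- step 1
  have step1 : cubeOp hh J (La n) (hat (lbl η col) (ind π)) [0] ≠ 0 := by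
    intro hz
    obtain ⟨ζ, z1, z2, z3⟩ := chart h.acov (by rw [Finset.length_toList, hc])
      (fun i => decide (i ∈ Q)) 0 (La n) (Gam η⁻¹) (lbl η col)
      (fun _ _ _ _ k hk => absurd (mem_La k) hk) (Gam.hU (by positivity)) (Gam.hC (by positivity))
      (tot_adm hcol) (Gam.hanti hn) (tot_pat h hQ ⟨q, hqQ⟩ h0) (δ / 4) (by positivity)
    rw [← La_length] at z1
    have := uniq hh0.le J (ε := δ / 4) (r := 2) (ρ := 3) (R := 6) (by positivity) (by linarith)
      (by linarith) (by linarith) (by linarith) 0 (La n) La_nodup (fun _ _ => rfl) ζ _ z1 z2 ?_ ?_ hz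
    · rw [z3] at this; exact one_ne_zero this
    · intro l hl hr
      apply cob_hat_ind
      · intro a _
        rw [Finset.mem_toList, lbl]
        split_ifs
        · exact (lpF a).1
        · exact (lmF a).1
      · have key : ∀ a ∈ l, ∀ b ∈ l, (lbl η col a).1 = true → lbl η col b ≠ nl (lbl η col a) := by
          intro a ha b hb k1 k2
          have k3 : (lbl η col b).1 = false := by rw [k2]; simp [nl, k1]
          have k4 : (lm η col b).2 = (lp η col a).2 := by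
            rw [← (lbT a k1).1, ← (lbF b k3).1, k2]; rfl
          exact orthA b a (fun k => ((hr b hb).2 _ (mem_La _)).trans (by norm_num))
            (fun k => ((hr a ha).2 _ (mem_La _)).trans (by norm_num))
            ((pp_dist _ _).trans ((hl b hb a ha).trans (by linarith))) _ (wmin_mem _) _ (lmF b).2
            (k4 ▸ (lpF a).2)
        intro a ha b hb k2
        cases k1 : (lbl η col a).1
        · exact key b hb a ha (by rw [k2]; simp [nl, k1]) (by rw [k2, nl_nl])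
        · exact key a ha b hb k1 k2
    · intro l hl hr
      by_contra hne
      obtain ⟨k1, -⟩ := hat_ind_ne hne
      have hb7 : ∀ a ∈ l, ∀ k, |a k| ≤ 7 := fun a ha k =>
        ((hr a ha).1.2 _ (mem_La _)).trans (by norm_num)
      have hQl : ∀ i ∈ Q, ∃ a ∈ l, xp η⁻¹ (pp a) ∈ F i ∧ 0 ≤ a (Sum.inr s0) := by
        intro i hi
        obtain ⟨a, ha, k2⟩ := k1 (true, i) ((memπ _).2 ⟨hQ hi, by simp [hi]⟩)
        obtain ⟨k3, k4⟩ := lbT a (by rw [k2])
        have := (lpF a).2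
        rw [← k3, k2] at this
        exact ⟨a, ha, this, k4⟩
      have hNl : ∀ j ∈ D \ Q, ∃ b ∈ l, emb (xp η⁻¹ (pp b)) (wmin (bb b)) ∈ F j ∧
          b (Sum.inr s0) < 0 := by
        intro j hj
        obtain ⟨hj1, hj2⟩ := Finset.mem_sdiff.1 hj
        obtain ⟨a, ha, k2⟩ := k1 (false, j) ((memπ _).2 ⟨hj1, by simp [hj2]⟩)
        obtain ⟨k3, k4⟩ := lbF a (by rw [k2])
        have := (lmF a).2
        rw [← k3, k2] at this
        exact ⟨a, ha, this, k4⟩
      obtain ⟨a, ha, a1, a2⟩ := hQl q hqQ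
      obtain ⟨k, -, hk⟩ := (hr a ha).2
      rcases k with k | e
      · linarith [pbound a q hqQ a1 k]
      · by_cases he : e = s0
        · subst he
          obtain ⟨b, hb, -, b2⟩ := hNl j0 hj0
          have := (dist_le_pi_dist a b (Sum.inr s0)).trans (hl a ha b hb)
          rw [Real.dist_eq, abs_le] at this
          rw [abs_of_nonneg a2] at hk
          linarith
        · obtain ⟨j, hj, H⟩ := hB a (mem_ball7 (hb7 a ha)) ⟨e, he, hk⟩ (PCof a (by
            intro w hw i hi hF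
            obtain ⟨b, hb, b1, -⟩ := hQl i hi
            exact orthA a b (fun k => hb7 a ha _) (fun k => hb7 b hb _)
              ((pp_dist _ _).trans ((hl a ha b hb).trans (by linarith))) w hw i hF b1))
          obtain ⟨b, hb, b1, -⟩ := hNl j hj
          exact H b ((hl a ha b hb).trans (by linarith)) b1
  -- the fibre
  have fibre : ∀ z0 : II n → ℝ, (∀ e, z0 (Sum.inr e) = 0) → (∀ k, |pp z0 k| ≤ 3) →
      (∀ i ∈ Q, ∃ b : II n → ℝ, (∀ k, |pp b k| ≤ 3) ∧ dist z0 b ≤ δ / 4 ∧ xp η⁻¹ (pp b) ∈ F i) →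
      cubeOp hh J (Lb n) (hat (lm η col) (ind N')) [z0] = 1 := by
    intro z0 hz0 hz3 hnear
    have hPC : ∀ z : II n → ℝ, (∀ k, |z (Sum.inl k) - z0 (Sum.inl k)| ≤ δ / 4) →
        ∀ w ∈ U (n + 1), ∀ i ∈ Q, emb (xp η⁻¹ (pp z)) w ∉ F i := by
      intro z hz w hw i hi hF
      obtain ⟨b, b1, b2, b3⟩ := hnear i hi
      have d1 : dist (pp z) (pp z0) ≤ δ / 4 := (dist_pi_le_iff (by positivity)).2 hz
      refine orthA z b (fun k => ?_) (fun k => (b1 k).trans (by norm_num)) ?_ w hw i hF b3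
      · have k1 := abs_le.1 (hz k)
        have k2 := abs_le.1 (hz3 k)
        simp only [pp] at k2 ⊢
        rw [abs_le]; constructor <;> linarith
      · linarith [dist_triangle (pp z) (pp z0) (pp b), pp_dist z0 b]
    have hreg : ∀ z : II n → ℝ, Reg z0 (Lb n) (δ / 4) 6 z →
        (∀ k, |z (Sum.inl k) - z0 (Sum.inl k)| ≤ δ / 4) ∧ ∀ k, |z k| ≤ 7 := by
      intro z hz
      refine ⟨fun k => hz.1 _ (by simp [mem_Lb]), fun k => ?_⟩
      by_cases hk : k ∈ Lb n
      · exact (hz.2 k hk).trans (by norm_num)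
      · have k1 := abs_le.1 (hz.1 k hk)
        have k2 : |z0 k| ≤ 3 := by
          rcases k with k | e
          · exact hz3 k
          · rw [hz0]; simp
        rw [abs_le] at k2 ⊢; constructor <;> linarith
    apply f2_eq_one
    intro hz
    obtain ⟨ζ, z1, z2, z3⟩ := fib_chart h hcol hN z0 hz0
      (hPC z0 fun k => by simp; positivity) (δ / 4) (by positivity)
    have := uniq hh0.le J (ε := δ / 4) (r := 2) (ρ := 3) (R := 6) (by positivity) (by linarith)
      (by linarith) (by linarith) (by linarith) z0 (Lb n) Lb_nodup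
      (fun k hk => by obtain ⟨e, -, rfl⟩ := mem_Lb.1 hk; exact hz0 e) ζ _ z1 z2 ?_ ?_ hz
    · rw [z3] at this; exact one_ne_zero this
    · intro l _ hr
      apply cob_hat_ind
      · intro a ha
        rw [Finset.mem_toList, Finset.mem_sdiff]
        exact ⟨(lmF a).1, fun hi => hPC a (hreg a (hr a ha)).1 _ (wmin_mem _) _ hi (lmF a).2⟩
      · intro a _ b _ hab
        simp [lm, nl] at hab
    · intro l hl hr
      by_contra hne
      obtain ⟨k1, -⟩ := hat_ind_ne hne
      obtain ⟨a, ha, -⟩ := k1 (false, j0) ((memN' _).2 ⟨hj0, rfl⟩)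
      obtain ⟨k, hk, hk2⟩ := (hr a ha).2
      obtain ⟨e, he, rfl⟩ := mem_Lb.1 hk
      obtain ⟨j, hj, H⟩ := hB a (mem_ball7 (hreg a (hr a ha).1).2) ⟨e, he, hk2⟩
        (PCof a (hPC a (hreg a (hr a ha).1).1))
      obtain ⟨b, hb, k2⟩ := k1 (false, j) ((memN' _).2 ⟨hj, rfl⟩)
      have := (lmF b).2
      rw [k2] at this
      exact H b ((hl a ha b hb).trans (by linarith)) this
  have hsm : small 0 [(0 : II n → ℝ)] := by
    intro a ha b hb
    rw [List.mem_singleton.1 ha, List.mem_singleton.1 hb, dist_self]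
  have cong : ∀ (L : List (II n)), L.Nodup → ∀ α β : Co (II n → ℝ),
      (∀ m : List (II n → ℝ), m.length = 1 + L.length → small (L.length * hh) m →
        (∀ b ∈ m, (∀ k, k ∉ L → b k = 0) ∧ ∀ k ∈ L, |b k| ≤ 3) → α m = β m) →
      cubeOp hh J L α [0] = cubeOp hh J L β [0] := by
    intro L hL α β H
    apply f2_eq_of_add
    rw [← Pi.add_apply, ← map_add]
    apply cubeOp_eq_zero hh0.le J L hL hsm
    intro m h1 h2 h3
    rw [Pi.add_apply, H m h1 (by simpa using h2), f2_add_self]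
    intro b hb
    obtain ⟨a, ha, k1, k2⟩ := h3 b hb
    rw [List.mem_singleton.1 ha] at k1 k2
    exact ⟨k1, fun k hk => by simpa [hJh] using k2 k hk⟩
  have hcube : ∀ m : List (II n → ℝ),
      (∀ b ∈ m, (∀ k, k ∉ Lp n → b k = 0) ∧ ∀ k ∈ Lp n, |b k| ≤ 3) → ∀ b ∈ m, ∀ k, |b k| ≤ 3 := by
    intro m hm b hb k
    by_cases hk : k ∈ Lp n
    · exact (hm b hb).2 k hk
    · rw [(hm b hb).1 k hk]; simp
  have step2 : cubeOp hh J (La n) (hat (lbl η col) (ind π)) [0] =
      cubeOp hh J (Lp n) (hat (lp η col) (ind (insert (true, q) T'))) [0] := by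
    have e1 : cubeOp hh J (La n) (hat (lbl η col) (ind π)) [0] =
        cubeOp hh J (Lb n ++ Lp n) (cup (lp η col) (ind (insert (true, q) T'))
          (hat (lm η col) (ind N'))) [0] := by
      apply cong _ (List.nodup_cons.1 La_nodup).2
      intro m _ _ hm
      rw [← fT, ← fF]
      apply PP_join (Sum.inr s0) (lp η col) (lm η col) (fun _ => rfl) (fun _ => rfl)
        (fun t a => by simp only [lp, pp_sh]) (fun t a => by simp only [lm, pp_sh, bb_sh])
        (lbl η col) (fun _ => rfl) hh0 (by exact_mod_cast hJ0) π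
        ⟨(true, q), (memπ _).2 ⟨hQ hqQ, by simp [hqQ]⟩, rfl⟩
        ⟨(false, j0), (memπ _).2 ⟨(Finset.mem_sdiff.1 hj0).1,
          by simp [(Finset.mem_sdiff.1 hj0).2]⟩, rfl⟩
      intro a ha
      exact (hm a ha).1 _ (List.nodup_cons.1 La_nodup).1
    rw [e1, cubeOp_append, cubeOp_cup _ _ _ _ _ (by
      intro i hi t a
      obtain ⟨e, -, rfl⟩ := mem_Lb.1 hi
      simp only [lp, pp_sh])]
    apply cong _ Lp_nodup
    intro m h1 h2 h3
    apply cup_eval
    · rintro rfl; simp at h1; omega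
    · intro S hS
      have : S = insert (true, q) T' := by by_contra hc; simp [ind, hc] at hS
      rw [this, Finset.card_insert_of_notMem hqT', h1, Lp_length, hT', patt,
        List.toFinset_card_of_nodup, List.length_map, Finset.length_toList, hT]
      · ring
      · exact (Finset.nodup_toList _).map fun a b hab => (Prod.mk.inj hab).2
    · intro hne a ha
      obtain ⟨k1, -⟩ := hat_ind_ne hne
      apply fibre a (fun e => (h3 a ha).1 _ (by simp [mem_Lp])) (fun k => hcube m h3 a ha _)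
      intro i hi
      obtain ⟨b, hb, k2⟩ := k1 (true, i) (by
        rcases Finset.mem_insert.1 hi with rfl | hi
        · exact Finset.mem_insert_self _ _
        · exact Finset.mem_insert_of_mem ((memT' _).2 ⟨hi, rfl⟩))
      have := (lpF b).2
      rw [k2] at this
      exact ⟨b, fun k => hcube m h3 b hb _, (h2 a ha b hb).trans hLp, this⟩
  have step3 : cubeOp hh J (Lp n) (cob (hat (lp η col) (ind T'))) [0] = 0 := by
    apply cube_bd hh0.le J (r := 2) (R := 3) (by linarith) (by linarith) 0 _ Lp_nodup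
      (fun _ _ => rfl)
    intro l _ hr
    by_contra hne
    obtain ⟨a, ha, k2⟩ := (hat_ind_ne hne).1 (true, t0) ((memT' _).2 ⟨ht0, rfl⟩)
    have := (lpF a).2
    rw [k2] at this
    obtain ⟨k, hk, hk2⟩ := (hr a ha).2
    obtain ⟨j, rfl⟩ := mem_Lp.1 hk
    linarith [pbound a t0 ht0Q this j]
  apply step1
  rw [step2, ← step3]
  apply cong _ Lp_nodup
  intro m _ h2 h3
  rw [cob_hat]
  apply hat_congr
  intro _
  by_cases hS' : (m.map (lp η col)).toFinset = insert (true, q) T'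
  · rw [hS', DD_ind_insert hqT']; simp [ind]
  · rw [ind, if_neg hS']
    by_contra hne
    obtain ⟨e, he, hS2⟩ := DD_ind_ne (Ne.symm hne)
    have m1 : e ∈ (m.map (lp η col)).toFinset := hS2 ▸ Finset.mem_insert_self _ _
    obtain ⟨a, ha, rfl⟩ := List.mem_map.1 (List.mem_toFinset.1 m1)
    have hnT : (lp η col a).2 ∉ T := fun hc => he ((memT' _).2 ⟨hc, rfl⟩)
    refine hcon _ (lpF a).1 hnT (fun hc => hS' ?_) ?_
    · rw [hS2, ← hc]; rfl
    · have b7 : ∀ b ∈ m, b ∈ Metric.closedBall (0 : II n → ℝ) 7 := fun b hb =>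
        mem_ball7 fun k => (hcube m h3 b hb k).trans (by norm_num)
      apply hS _ (Finset.insert_subset (lpF a).1 ((Finset.subset_insert _ _).trans hQ)) a (b7 a ha)
      intro i hi
      rcases Finset.mem_insert.1 hi with rfl | hi
      · exact ⟨a, b7 a ha, by simpa using hδ.le, (lpF a).2⟩
      · have m2 : (true, i) ∈ (m.map (lp η col)).toFinset :=
          hS2 ▸ Finset.mem_insert_of_mem ((memT' _).2 ⟨hi, rfl⟩)
        obtain ⟨b, hb, k2⟩ := List.mem_map.1 (List.mem_toFinset.1 m2)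
        have := (lpF b).2
        rw [k2] at this
        exact ⟨b, b7 b hb, (h2 a ha b hb).trans (by linarith), this⟩

noncomputable def rot (y : Fin (n + 1) → ℝ) : (Fin (n + 1) → ℝ) →ₗ[ℝ] (Fin (n + 1) → ℝ) where
  toFun u := u 0 • y + emb y (Fin.tail u)
  map_add' u v := by
    rw [show Fin.tail (u + v) = Fin.tail u + Fin.tail v from rfl, emb_add, Pi.add_apply, add_smul]
    abel
  map_smul' c u := by
    rw [show Fin.tail (c • u) = c • Fin.tail u from rfl, emb_smul]
    simp [mul_smul]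

theorem rot_dot {y : Fin (n + 1) → ℝ} (hy : y ∈ U (n + 1)) (h0 : 0 < 1 + y 0)
    (u v : Fin (n + 1) → ℝ) : rot y u ⬝ᵥ rot y v = u ⬝ᵥ v := by
  have : y ⬝ᵥ y = 1 := hy
  show (u 0 • y + emb y (Fin.tail u)) ⬝ᵥ (v 0 • y + emb y (Fin.tail v)) = _
  rw [dot_succ u v]
  simp only [add_dotProduct, dotProduct_add, smul_dotProduct, dotProduct_smul, smul_eq_mul, this,
    dot_emb hy h0, dotProduct_comm y (emb y _), emb_dot hy h0]
  ring

theorem rot_e0 (y : Fin (n + 1) → ℝ) : rot y (Pi.single 0 1) = y := by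
  show (Pi.single 0 1 : Fin (n + 1) → ℝ) 0 • y + emb y (Fin.tail (Pi.single 0 1 : Fin (n + 1) → ℝ)) = y
  have : Fin.tail (Pi.single 0 1 : Fin (n + 1) → ℝ) = 0 := by
    funext k; simp [Fin.tail]
  rw [this, show emb y 0 = 0 from (embL y).map_zero]; simp

omit [DecidableEq C] in
theorem Face.pos {m : ℕ} {F : C → Set (Fin (m + 1) → ℝ)} (h : Cov η D F) {σ : Finset C}
    (hσ : Face F σ) : ∃ y ∈ U (m + 1), 0 < 1 + y 0 ∧ ∀ i ∈ σ, y ∈ F i := by
  obtain ⟨y, h1, h2⟩ := hσ
  rcases le_total 0 (y 0) with h0 | h0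
  · exact ⟨y, h1, by linarith, h2⟩
  · exact ⟨-y, U_neg h1, by simp only [Pi.neg_apply]; linarith, fun i hi => h.neg _ _ (h2 i hi)⟩

theorem weakP (hn : 1 ≤ n) (h : Cov η D F) (hc : D.card = Fintype.card (Sym2 (Fin (n + 2))))
    (T : Finset C) (q : C) (hq : q ∉ T) (hT : T.card = n + 1) (hQ : insert q T ⊆ D)
    (h0 : Face F (insert q T)) :
    ∃ q' ∈ D, q' ∉ T ∧ q' ≠ q ∧ Face F (insert q' T) := by
  obtain ⟨y, h1, h2, h3⟩ := h0.pos h
  have h' := h.comap (rot y) (rot_dot h1 h2) D (fun w hw => h.cover _ (by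
    show _ ⬝ᵥ _ = 1
    rw [rot_dot h1 h2]; exact hw))
  obtain ⟨q', k1, k2, k3, k4⟩ := weakP0 hn h' hc T q hq hT hQ (fun i hi => by
    show rot y _ ∈ F i
    rw [rot_e0]; exact h3 i hi)
  exact ⟨q', k1, k2, k3, k4.of_comap _ (rot_dot h1 h2)⟩

end

end Crest.Agent.H0069
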