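import Crest.Agent.H0069.Tot

set_option autoImplicit false

namespace Crest.Agent.H0069

open Filter Topology Matrix

theorem f2_eq_one {a : F2} (h : a ≠ 0) : a = 1 := by
  revert a; decide

theorem cob_hat_ind {X C : Type*} [DecidableEq C] (Lc : List C) (t : C → Bool)
    (lb : X → Bool × C) (l : List X) (h1 : ∀ a ∈ l, (lb a).2 ∈ Lc)
    (h2 : ∀ a ∈ l, ∀ b ∈ l, lb b ≠ nl (lb a)) : cob (hat lb (ind (patt Lc t))) l = 0 := by
  rw [cob_hat]
  by_contra hc
  obtain ⟨e, he, hS⟩ := DD_ind_ne (hat_ne_zero hc).2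
  have m1 : e ∈ (l.map lb).toFinset := hS ▸ Finset.mem_insert_self _ _
  obtain ⟨a, ha, rfl⟩ := List.mem_map.1 (List.mem_toFinset.1 m1)
  have m2 : nl (lb a) ∈ (l.map lb).toFinset := by
    rw [hS]
    apply Finset.mem_insert_of_mem
    rw [mem_patt] at he ⊢
    refine ⟨h1 a ha, ?_⟩
    have : (lb a).1 ≠ t (lb a).2 := fun h => he ⟨h1 a ha, h⟩
    simp only [nl]
    cases h3 : (lb a).1 <;> cases h4 : t (lb a).2 <;> simp_all
  obtain ⟨b, hb, h3⟩ := List.mem_map.1 (List.mem_toFinset.1 m2)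
  exact h2 a ha b hb h3

theorem DD_ind_insert {L : Type*} [DecidableEq L] {π : Finset L} {e : L} (he : e ∉ π) :
    DD (ind π) (insert e π) = 1 := by
  rw [DD, Finset.sum_insert he, Finset.erase_insert he, Finset.sum_eq_zero]
  · simp [ind]
  · intro b hb
    have : (insert e π).erase b ≠ π := fun h => by
      have : b ∈ (insert e π).erase b := h.symm ▸ hb
      simp at this
    simp [ind, this]

section
variable {n : ℕ} {C : Type} [DecidableEq C] {η : ℝ} {D : Finset C}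
  {F : C → Set (Fin (n + 2) → ℝ)}

noncomputable def lp (η : ℝ) (col : (Fin (n + 2) → ℝ) → C) (z : II n → ℝ) : Bool × C :=
  (true, col (xp η⁻¹ (pp z)))

noncomputable def lm (η : ℝ) (col : (Fin (n + 2) → ℝ) → C) (z : II n → ℝ) : Bool × C :=
  (false, col (emb (xp η⁻¹ (pp z)) (wmin (bb z))))

noncomputable def lbl (η : ℝ) (col : (Fin (n + 2) → ℝ) → C) (z : II n → ℝ) : Bool × C :=
  if 0 ≤ z (Sum.inr s0) then lp η col z else lm η col z

theorem emb_mem (P : ℝ) (p : Fin (n + 1) → ℝ) {w : Fin (n + 1) → ℝ} (hw : w ∈ U (n + 1)) :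
    emb (xp P p) w ∈ U (n + 2) := by
  show _ ⬝ᵥ _ = 1
  rw [emb_dot (xp_mem _ _) (xp_pos' _ _)]; exact hw

omit [DecidableEq C] in
theorem tot_adm {col : (Fin (n + 2) → ℝ) → C} (hcol : ∀ x ∈ U (n + 2), col x ∈ D ∧ x ∈ F (col x)) :
    ∀ A ∈ S1 _, ∀ z : II n → ℝ, Gam η⁻¹ A z → Kb (La n) 3 z →
      (lbl η col z).2 ∈ D.toList ∧ A ∈ Gs F (lbl η col z) := by
  intro A hA z h hK
  have hc := c0_pos (n + 1)
  have hτ := τ0_pos n
  have hg := h.gap hA hK
  set x := xp η⁻¹ (pp z) with hx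
  have hxU : x ∈ U (n + 2) := xp_mem _ _
  have hx0 : 0 < 1 + x 0 := xp_pos' _ _
  have hs : z (Sum.inr s0) = (mq (Bm A x) + qf A x) / τ0 n := by rw [h.2, ss_Φ]
  have hb : bb z = red (τ0 n) (Bm A x) := by rw [h.2, bb_Φ]
  have hmin : ∀ u ∈ U (n + 1), qf (Bm A x) (wmin (bb z)) ≤ qf (Bm A x) u := by
    intro u hu
    rw [qf_red hτ.ne' _ hu, qf_red hτ.ne' _ (wmin_mem _), ← hb]
    nlinarith [wmin_le (bb z) u hu]
  have hmq := mq_eq (wmin_mem _) hmin
  have hlow := qf_ge hmin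
  by_cases h0 : 0 ≤ z (Sum.inr s0)
  · rw [lbl, if_pos h0]
    refine ⟨Finset.mem_toList.2 (hcol x hxU).1, x, (hcol x hxU).2, fun u hu => ?_⟩
    rw [hs, le_div_iff₀ hτ, zero_mul, hmq] at h0
    obtain ⟨t, w, -, e2, e3⟩ := decomp_q hxU hx0 h.1 hu
    have k1 := hlow w
    have k2 := h.1 u hu
    have k3 := dot_self_nonneg w
    have k4 := mul_self_nonneg t
    simp only [lp, sg, if_true, one_mul]
    rw [abs_le]; constructor
    · nlinarith
    · exact k2
  · rw [lbl, if_neg h0]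
    have hv := emb_mem η⁻¹ (pp z) (wmin_mem (bb z))
    refine ⟨Finset.mem_toList.2 (hcol _ hv).1, _, (hcol _ hv).2, fun u hu => ?_⟩
    rw [hs, le_div_iff₀ hτ, zero_mul, hmq, not_le] at h0
    obtain ⟨t, w, -, e2, e3⟩ := decomp_q hxU hx0 h.1 hu
    have k1 := hlow w
    have k2 := h.1 u hu
    have k3 := dot_self_nonneg w
    have k4 := mul_self_nonneg t
    simp only [lm, sg, Bool.false_eq_true, if_false, neg_mul, one_mul]
    rw [← qf_Bm, abs_le]; constructor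
    · nlinarith
    · linarith

theorem eq_of_bf {m : ℕ} {A B : Sym2 (Fin m) → ℝ} (h : ∀ u v, bf A u v = bf B u v) : A = B := by
  funext e
  induction e using Sym2.ind with
  | _ i j => rw [← bf_single A, ← bf_single B, h]

theorem bf_smul_dg {m : ℕ} (c : ℝ) (u v : Fin m → ℝ) : bf (c • dg) u v = c * (u ⬝ᵥ v) := by
  have := bf_lin dg dg c 0 u v
  rw [zero_smul, add_zero, bf_dg] at this; linarith

theorem red_dg (τ c : ℝ) : red τ (c • (dg : Sym2 (Fin (n + 1)) → ℝ)) = 0 := by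
  funext e; simp [red, dg, s0]

theorem tot_pat (h : Cov η D F) {Q : Finset C} (hQ : Q ⊆ D) (hQne : Q.Nonempty)
    (h0 : ∀ q ∈ Q, Pi.single 0 1 ∈ F q) :
    ∀ A ∈ S1 _, (∀ i ∈ D.toList, A ∈ Gs F (decide (i ∈ Q), i)) →
      ∃ z : II n → ℝ, Gam η⁻¹ A z ∧ Kb (La n) 1 z := by
  intro A hA H
  have hη := h.pos
  obtain ⟨q, hq⟩ := hQne
  obtain ⟨x, hxF, hx0, hx⟩ : ∃ x ∈ F q, η ≤ x 0 ∧ ∀ u ∈ U (n + 2), |qf A u| ≤ sg true * qf A x := by
    obtain ⟨x, h1, h2⟩ := H q (Finset.mem_toList.2 (hQ hq))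
    simp only [hq, decide_true] at h1 h2
    have := h.sep q x h1 _ (h0 q hq)
    simp only [dotProduct_single, mul_one] at this
    rcases le_abs.1 this with h3 | h3
    · exact ⟨x, h1, h3, h2⟩
    · exact ⟨-x, h.neg _ _ h1, h3, by simpa [qf_neg'] using h2⟩
  have hxU := h.unit _ hxF
  have hxU' : x ⬝ᵥ x = 1 := hxU
  have hx1 : 0 < 1 + x 0 := by linarith
  have hmax : ∀ u ∈ U (n + 2), qf A u ≤ qf A x := fun u hu => by
    simpa [sg] using (le_abs_self _).trans (hx u hu)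
  have hv : ∀ j ∈ D \ Q, ∃ v ∈ F j, x ⬝ᵥ v = 0 ∧ ∀ u, bf A u v = -qf A x * (u ⬝ᵥ v) := by
    intro j hj
    obtain ⟨hj1, hj2⟩ := Finset.mem_sdiff.1 hj
    obtain ⟨v, h1, h2⟩ := H j (Finset.mem_toList.2 hj1)
    simp only [hj2, decide_false] at h1 h2
    obtain ⟨k1, k2, -⟩ := orth hA hxU (h.unit _ h1) hx h2
    refine ⟨v, h1, k1, fun u => ?_⟩
    rw [← k2]
    apply eig_min (h.unit _ h1)
    intro u hu
    have := (abs_le.1 (h2 u hu)).1
    simpa [sg] using this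
  have k0 : ∀ g : Fin (n + 2) → ℝ, g 0 = 0 → (∀ j ∈ D \ Q, ∀ v ∈ F j, x ⬝ᵥ v = 0 →
      (∀ u, bf A u v = -qf A x * (u ⬝ᵥ v)) → g ⬝ᵥ v = 0) → g = 0 := by
    intro g g0 hg
    apply h.k0
    intro i hi
    by_cases hiQ : i ∈ Q
    · exact ⟨_, h0 i hiQ, by simpa using g0⟩
    · obtain ⟨v, h1, h2, h3⟩ := hv i (Finset.mem_sdiff.2 ⟨hi, hiQ⟩)
      exact ⟨v, h1, hg i (Finset.mem_sdiff.2 ⟨hi, hiQ⟩) v h1 h2 h3⟩
  have hM : ∀ u, u ⬝ᵥ x = 0 → mat A *ᵥ u + qf A x • u = 0 := by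
    intro u hu
    set M := mat A *ᵥ u + qf A x • u with hM
    have hMv : ∀ v, M ⬝ᵥ v = bf A u v + qf A x * (u ⬝ᵥ v) := by
      intro v
      rw [hM, add_dotProduct, smul_dotProduct, dotProduct_comm _ v, bf_comm]; rfl
    have hMx : M ⬝ᵥ x = 0 := by rw [hMv, eig_max hxU hmax, hu]; ring
    have h1 := k0 (x 0 • M - M 0 • x) (by simp [mul_comm]) (by
      intro j _ v _ h2 h3
      rw [sub_dotProduct, smul_dotProduct, smul_dotProduct, hMv, h3, h2]; simp)
    have h2 := congrArg (· ⬝ᵥ x) h1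
    simp only [sub_dotProduct, smul_dotProduct, hMx, hxU', smul_eq_mul, zero_dotProduct] at h2
    exact k0 M (by linarith) (by
      intro j _ v _ _ h3
      rw [hMv, h3]; ring)
  have hB : Bm A x = (-qf A x) • dg := by
    apply eq_of_bf
    intro u v
    have := congrArg (emb x u ⬝ᵥ ·) (hM (emb x v) (dot_emb hxU hx1 v))
    simp only [dotProduct_add, dotProduct_smul, smul_eq_mul, emb_dot hxU hx1,
      dotProduct_zero] at this
    rw [bf_Bm, bf_smul_dg, bf]; linarith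
  have hxp : xp η⁻¹ (pc η⁻¹ x) = x := xp_pc (by positivity) hxU (by linarith)
  refine ⟨Φ η⁻¹ (τ0 n) A (pc η⁻¹ x), ⟨by rw [pp_Φ, hxp]; exact hmax, rfl⟩, ?_⟩
  rintro (k | e) -
  · exact pc_bound hη hxU hx0 k
  · by_cases he : e = s0
    · have hw : wmin (Bm A x) ⬝ᵥ wmin (Bm A x) = 1 := wmin_mem _
      rw [he, ss_Φ, hxp, mq_eq (wmin_mem _) (wmin_le _), qf, ]
      nth_rewrite 1 [hB]
      rw [bf_smul_dg, hw]; simp
    · simp only [Φ, Sum.elim_inr, he, if_false, hxp, hB, red_dg]; simp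

noncomputable def τ1 (n : ℕ) : ℝ := c0 n / (6 * (n + 1) * (n + 1))

theorem τ1_pos (n : ℕ) : 0 < τ1 n := by
  have := c0_pos n
  unfold τ1; positivity

def Gam1 (p : Fin (n + 1) → ℝ) (A : Sym2 (Fin (n + 1)) → ℝ) (z : II n → ℝ) : Prop :=
  A s0 < 0 ∧ z = Sum.elim p (red (τ1 n) A)

theorem Gam1.bb {p : Fin (n + 1) → ℝ} {A : Sym2 (Fin (n + 1)) → ℝ} {z : II n → ℝ}
    (h : Gam1 p A z) : bb z = red (τ1 n) A := by
  funext e
  by_cases he : e = s0 <;> simp [H0069.bb, h.2, he, red_s0]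

theorem Gam1.bound {p : Fin (n + 1) → ℝ} {A : Sym2 (Fin (n + 1)) → ℝ} {z : II n → ℝ}
    (hA : A ∈ S1 _) (h : Gam1 p A z) (hK : Kb (Lb n) 3 z) :
    A s0 ≤ -(c0 n / 2) ∧ ∀ u ∈ U (n + 1), |qf A u - A s0| ≤ c0 n / 2 := by
  have hτ := τ1_pos n
  have hbb : ∀ e, |red (τ1 n) A e| ≤ 3 :=
    h.bb ▸ bb_le (by norm_num) fun e he => hK _ (mem_Lb.2 ⟨e, he, rfl⟩)
  have key : ∀ u ∈ U (n + 1), |qf A u - A s0| ≤ c0 n / 2 := by
    intro u hu
    have e3 := abs_le.1 (qf_abs_le hbb hu)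
    have e5 : c0 n / 2 = τ1 n * ((n + 1) * (n + 1) * 3) := by
      unfold τ1; field_simp; ring
    push_cast at e3
    rw [qf_red hτ.ne' A hu, e5, abs_le]
    constructor <;> nlinarith
  refine ⟨?_, key⟩
  have := c0_le hA (N := -A s0 + c0 n / 2) (fun u hu => by
    have := abs_le.1 (key u hu)
    rw [abs_le]; constructor <;> linarith [h.1])
  linarith

theorem fib_chart [Nonempty C] (h : Cov η D F) {Q : Finset C} {col : (Fin (n + 2) → ℝ) → C}
    (hcol : ∀ x ∈ U (n + 2), col x ∈ D ∧ x ∈ F (col x))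
    (hN : (D \ Q).card = Fintype.card (Sym2 (Fin (n + 1)))) (z0 : II n → ℝ)
    (hz0 : ∀ e, z0 (Sum.inr e) = 0)
    (hPC : ∀ w ∈ U (n + 1), ∀ q ∈ Q, emb (xp η⁻¹ (pp z0)) w ∉ F q) (δ : ℝ) (hδ : 0 < δ) :
    ∃ ζ : Ch (II n → ℝ),
      Supp ζ (fun l => l.length = (Lb n).length + 1 ∧ small δ l ∧ ∀ a ∈ l, Reg z0 (Lb n) δ 3 a) ∧
      Supp (ζ.comp cob) (fun l => ∀ a ∈ l, Far (Lb n) 2 a) ∧
      ζ (hat (lm η col) (ind (patt (D \ Q).toList fun _ => false))) = 1 := by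
  set x := xp η⁻¹ (pp z0) with hx
  have hxU : x ∈ U (n + 2) := xp_mem _ _
  have hx0 : 0 < 1 + x 0 := xp_pos' _ _
  have hτ := τ1_pos n
  have hc := c0_pos n
  have hcolN : ∀ w ∈ U (n + 1), col (emb x w) ∈ D \ Q ∧ emb x w ∈ F (col (emb x w)) := by
    intro w hw
    obtain ⟨k1, k2⟩ := hcol _ (emb_mem η⁻¹ (pp z0) hw)
    exact ⟨Finset.mem_sdiff.2 ⟨k1, fun hq => hPC w hw _ hq k2⟩, k2⟩
  have h' := h.comap (embL x) (emb_dot hxU hx0) (D \ Q) (fun w hw => ⟨_, hcolN w hw⟩)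
  rw [Lb_length]
  apply chart h'.acov (by rw [Finset.length_toList, hN]) _ z0 (Lb n) (Gam1 (pp z0)) _ _ _ _ _ _ _ δ hδ
  · rintro A _ z hz (k | e) hk
    · rw [hz.2]; rfl
    · have : e = s0 := by
        by_contra hc; exact hk (mem_Lb.2 ⟨e, hc, rfl⟩)
      rw [hz.2, this, hz0]; exact red_s0 _ _
  · intro A _ z z' hz hz' _
    rw [hz.2, hz'.2]
  · intro δ hδ
    have hcont : Continuous fun A : Sym2 (Fin (n + 1)) → ℝ =>
        (Sum.elim (pp z0) (red (τ1 n) A) : II n → ℝ) := by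
      apply continuous_pi
      rintro (k | e)
      · exact continuous_const
      · simp only [Sum.elim_inr, red]; fun_prop
    have := tube (S1_compact.prod S1_compact) (O := {k : (Sym2 (Fin (n + 1)) → ℝ) × _ |
      dist (Sum.elim (pp z0) (red (τ1 n) k.1) : II n → ℝ) (Sum.elim (pp z0) (red (τ1 n) k.2)) < δ})
      (isOpen_lt ((hcont.comp continuous_fst).dist (hcont.comp continuous_snd)) continuous_const)
      (d := fun k => dist k.1 k.2) (by fun_prop) (by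
        rintro ⟨A, A'⟩ _ hd
        have : A = A' := dist_le_zero.1 hd
        subst this
        simpa using hδ)
    filter_upwards [this, ev_le (show 0 < c0 n / 4 by positivity)] with ε hε hε2 A hA z hz hK A' hA' hd
    refine ⟨_, ⟨?_, rfl⟩, ?_⟩
    · have k1 := (hz.bound hA hK).1
      have k2 := (dist_le_pi_dist A A' s0).trans hd
      rw [Real.dist_eq, abs_le] at k2
      linarith
    · rw [hz.2]; exact le_of_lt (hε (A, A') ⟨hA, hA'⟩ hd)
  · intro A hA z hz hK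
    obtain ⟨k1, k2⟩ := hz.bound hA hK
    have e : pp z = pp z0 := by rw [hz.2]; rfl
    have hw := wmin_mem (bb z)
    simp only [lm, e]
    refine ⟨Finset.mem_toList.2 (hcolN _ hw).1, wmin (bb z), (hcolN _ hw).2, fun u hu => ?_⟩
    have k3 := abs_le.1 (k2 u hu)
    have k4 := abs_le.1 (k2 _ hw)
    have k5 : qf A (wmin (bb z)) ≤ qf A u := by
      rw [qf_red hτ.ne' _ hu, qf_red hτ.ne' _ hw, ← hz.bb]
      nlinarith [wmin_le (bb z) u hu]
    simp only [sg, Bool.false_eq_true, if_false, neg_mul, one_mul]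
    rw [abs_le]; constructor <;> linarith
  · intro A _ z z' hz _ hz' _
    have := hz'.1
    simp only [Pi.neg_apply] at this
    linarith [hz.1]
  · intro A hA H
    obtain ⟨j0, hj0⟩ : (D \ Q).Nonempty := by
      rw [← Finset.card_pos, hN]; exact Fintype.card_pos
    obtain ⟨w0, a1, a2⟩ := H j0 (Finset.mem_toList.2 hj0)
    simp only [sg, Bool.false_eq_true, if_false, neg_mul, one_mul] at a1 a2
    have hNpos := hc.trans_le (c0_le hA a2)
    have hM : ∀ u, mat A *ᵥ u - qf A w0 • u = 0 := by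
      intro u
      apply h'.k0
      intro j hj
      obtain ⟨w, b1, b2⟩ := H j (Finset.mem_toList.2 hj)
      simp only [sg, Bool.false_eq_true, if_false, neg_mul, one_mul] at b1 b2
      refine ⟨w, b1, ?_⟩
      have e1 := eig_min (h'.unit _ b1) (fun u hu => by linarith [(abs_le.1 (b2 u hu)).1]) u
      have e2 : qf A w = qf A w0 := by
        linarith [(abs_le.1 (b2 _ (h'.unit _ a1))).1, (abs_le.1 (a2 _ (h'.unit _ b1))).1]
      rw [sub_dotProduct, smul_dotProduct, dotProduct_comm _ w, ← bf, bf_comm, e1, e2]; simp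
    have hA' : A = qf A w0 • dg := by
      apply eq_of_bf
      intro u v
      have := congrArg (u ⬝ᵥ ·) (hM v)
      simp only [dotProduct_sub, dotProduct_smul, smul_eq_mul, dotProduct_zero] at this
      rw [bf_smul_dg, bf]; linarith
    refine ⟨_, ⟨?_, rfl⟩, ?_⟩
    · rw [hA']; simp only [Pi.smul_apply, dg, s0, Sym2.mk_isDiag_iff, if_true, smul_eq_mul]; linarith
    · intro k hk
      obtain ⟨e, -, rfl⟩ := mem_Lb.1 hk
      rw [hA', red_dg]; simp

omit [DecidableEq C] in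
theorem lemA (hη : 0 < η) : ∀ᶠ δ in 𝓝[>] (0 : ℝ), ∀ p ∈ Metric.closedBall (0 : Fin (n + 1) → ℝ) 7,
    ∀ p' ∈ Metric.closedBall (0 : Fin (n + 1) → ℝ) 7, dist p p' ≤ δ → ∀ w ∈ U (n + 1),
      |emb (xp η⁻¹ p) w ⬝ᵥ xp η⁻¹ p'| < η := by
  have hcont : Continuous fun k : (Fin (n + 1) → ℝ) × (Fin (n + 1) → ℝ) × (Fin (n + 1) → ℝ) =>
      emb (xp η⁻¹ k.1) k.2.2 := continuous_emb (by fun_prop) (by fun_prop) fun a => xp_pos' _ _
  have := tube ((isCompact_closedBall (0 : Fin (n + 1) → ℝ) 7).prod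
    ((isCompact_closedBall (0 : Fin (n + 1) → ℝ) 7).prod (U_compact (n := n + 1))))
    (O := {k | |emb (xp η⁻¹ k.1) k.2.2 ⬝ᵥ xp η⁻¹ k.2.1| < η})
    (isOpen_lt (by fun_prop) continuous_const) (d := fun k => dist k.1 k.2.1) (by fun_prop) (by
      rintro ⟨p, p', w⟩ _ hd
      have : p = p' := dist_le_zero.1 hd
      subst this
      simp only [Set.mem_ofPred_eq, dot_emb (xp_mem _ _) (xp_pos' _ _), abs_zero, hη])
  filter_upwards [this] with δ hδ p hp p' hp' hd w hw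
  exact hδ (p, p', w) ⟨hp, hp', hw⟩ hd

omit [DecidableEq C] in
theorem lemB (h : Cov η D F) (N : Finset C) : ∀ᶠ δ in 𝓝[>] (0 : ℝ),
    ∀ z ∈ Metric.closedBall (0 : II n → ℝ) 7, (∃ e, e ≠ s0 ∧ 2 ≤ |z (Sum.inr e)|) →
      (∀ w ∈ U (n + 1), ∃ j ∈ N, emb (xp η⁻¹ (pp z)) w ∈ F j) →
      ∃ j ∈ N, ∀ y, dist z y ≤ δ → emb (xp η⁻¹ (pp y)) (wmin (bb y)) ∉ F j := by
  have hcont : Continuous fun k : (II n → ℝ) × (Fin (n + 1) → ℝ) =>
      emb (xp η⁻¹ (pp k.1)) k.2 := continuous_emb (by fun_prop) (by fun_prop) fun a => xp_pos' _ _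
  have hK : IsCompact (Metric.closedBall (0 : II n → ℝ) 7 ∩
      ({z | ∃ e ∈ {e | e ≠ s0}, 2 ≤ |z (Sum.inr e)|} ∩
      {z | ∀ w ∈ U (n + 1), ∃ j ∈ N, emb (xp η⁻¹ (pp z)) w ∈ F j})) := by
    apply (isCompact_closedBall _ _).inter_right
    apply IsClosed.inter
    · have := (Set.toFinite {e : Sym2 (Fin (n + 1)) | e ≠ s0}).isClosed_biUnion
        (f := fun e => {z : II n → ℝ | 2 ≤ |z (Sum.inr e)|})
        (fun e _ => isClosed_le continuous_const (by fun_prop))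
      exact (congrArg IsClosed (by ext z; simp)).mp this
    · apply isClosed_all
      intro w _
      have := isClosed_biUnion_finset (s := N)
        (f := fun j => (fun z : II n → ℝ => emb (xp η⁻¹ (pp z)) w) ⁻¹' F j)
        (fun j _ => (h.closed j).preimage
          (continuous_emb (by fun_prop) (by fun_prop) fun a => xp_pos' _ _))
      exact (congrArg IsClosed (by ext z; simp)).mp this
  have := leb hK (fun j => {z : II n → ℝ | ∃ w ∈ U (n + 1),
      (∀ u ∈ U (n + 1), qf (bb z) w ≤ qf (bb z) u) ∧ emb (xp η⁻¹ (pp z)) w ∈ F j}) N (by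
      intro j _
      apply isClosed_ex U_compact (P := fun (z : II n → ℝ) w =>
        (∀ u ∈ U (n + 1), qf (bb z) w ≤ qf (bb z) u) ∧ emb (xp η⁻¹ (pp z)) w ∈ F j)
      apply IsClosed.inter
      · exact isClosed_all (P := fun (k : (II n → ℝ) × (Fin (n + 1) → ℝ)) u =>
          qf (bb k.1) k.2 ≤ qf (bb k.1) u) fun u _ => isClosed_le (by fun_prop) (by fun_prop)
      · exact (h.closed j).preimage hcont) (by
      rintro z ⟨-, ⟨e, he, he2⟩, hz⟩
      by_contra hc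
      push Not at hc
      set m := mq (bb z)
      obtain ⟨u, hu⟩ : ∃ u, mat (bb z) *ᵥ u - m • u ≠ 0 := by
        by_contra hc2
        push Not at hc2
        have hb : bb z = m • dg := by
          apply eq_of_bf
          intro u v
          have := congrArg (u ⬝ᵥ ·) (hc2 v)
          simp only [dotProduct_sub, dotProduct_smul, smul_eq_mul, dotProduct_zero] at this
          rw [bf_smul_dg, bf]; linarith
        have h1 := congrFun hb s0
        have h2 := congrFun hb e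
        have he' : e ≠ s0 := he
        simp only [bb, if_true, Pi.smul_apply, dg, s0, Sym2.mk_isDiag_iff, smul_eq_mul,
          mul_one] at h1
        simp only [bb, he', if_false, ← h1, zero_smul, Pi.zero_apply] at h2
        rw [h2] at he2; norm_num at he2
      obtain ⟨j, hj, h1⟩ := hz _ (nrm_mem hu)
      obtain ⟨w, hw, h2, h3⟩ := hc j hj
      apply h.ne h1 h3
      have e1 := eig_min hw h2 u
      rw [← mq_eq hw h2, bf_comm, bf] at e1
      have e2 : (mat (bb z) *ᵥ u - m • u) ⬝ᵥ w = 0 := by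
        rw [sub_dotProduct, smul_dotProduct, dotProduct_comm _ w, e1]
        simp [m]
      rw [emb_dot (xp_mem _ _) (xp_pos' _ _), nrm_dot, e2, mul_zero])
  filter_upwards [this] with δ hδ z hz h1 h2
  obtain ⟨j, hj, H⟩ := hδ z ⟨hz, h1, h2⟩
  exact ⟨j, hj, fun y hy hc => H y hy ⟨_, wmin_mem _, wmin_le _, hc⟩⟩

end

end Crest.Agent.H0069
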