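import Crest.Agent.H0069.Cov

set_option autoImplicit false

namespace Crest.Agent.H0069

open Filter Topology Matrix

section
variable {n : ℕ}

noncomputable def xp (P : ℝ) (p : Fin n → ℝ) : Fin (n + 1) → ℝ := nrm (Fin.cons 1 (P • p))

noncomputable def pc (P : ℝ) (x : Fin (n + 1) → ℝ) : Fin n → ℝ := (P * x 0)⁻¹ • Fin.tail x

theorem cons_ne (v : Fin n → ℝ) : (Fin.cons 1 v : Fin (n + 1) → ℝ) ≠ 0 := by
  intro h
  have := congrFun h 0
  simp at this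

theorem xp_mem (P : ℝ) (p : Fin n → ℝ) : xp P p ∈ U (n + 1) := nrm_mem (cons_ne _)

theorem xp_pos (P : ℝ) (p : Fin n → ℝ) : 0 < xp P p 0 := by
  have := Real.sqrt_pos.2 (dot_self_pos (cons_ne (P • p)))
  simp only [xp, nrm, Pi.smul_apply, Fin.cons_zero, smul_eq_mul, mul_one]
  positivity

theorem xp_pos' (P : ℝ) (p : Fin n → ℝ) : 0 < 1 + xp P p 0 := by linarith [xp_pos P p]

@[fun_prop]
theorem continuous_xp {X : Type*} [TopologicalSpace X] (P : ℝ) {p : X → Fin n → ℝ}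
    (hp : Continuous p) : Continuous fun a => xp P (p a) := by
  refine nrm_contOn.comp_continuous (f := fun a => (Fin.cons 1 (P • p a) : Fin (n + 1) → ℝ)) ?_
    (fun a => cons_ne _)
  apply continuous_pi
  intro k
  refine Fin.cases ?_ (fun k => ?_) k
  · simp only [Fin.cons_zero]; fun_prop
  · simp only [Fin.cons_succ]; fun_prop

theorem pc_xp {P : ℝ} (hP : P ≠ 0) (p : Fin n → ℝ) : pc P (xp P p) = p := by
  have := Real.sqrt_pos.2 (dot_self_pos (cons_ne (P • p)))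
  funext k
  simp only [pc, xp, nrm, Pi.smul_apply, Fin.cons_zero, smul_eq_mul, mul_one, Fin.tail,
    Fin.cons_succ]
  field_simp

theorem xp_pc {P : ℝ} (hP : P ≠ 0) {x : Fin (n + 1) → ℝ} (hx : x ∈ U (n + 1)) (h0 : 0 < x 0) :
    xp P (pc P x) = x := by
  have e : (Fin.cons 1 (P • pc P x) : Fin (n + 1) → ℝ) = (x 0)⁻¹ • x := by
    funext k
    refine Fin.cases ?_ (fun k => ?_) k
    · simp [h0.ne']
    · simp only [Fin.cons_succ, pc, Pi.smul_apply, smul_eq_mul, Fin.tail]; field_simp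
  have hx' : x ⬝ᵥ x = 1 := hx
  rw [xp, e, nrm]
  simp only [smul_dotProduct, dotProduct_smul, smul_eq_mul, hx', mul_one]
  rw [Real.sqrt_mul_self (by positivity), inv_inv, smul_smul, mul_inv_cancel₀ h0.ne', one_smul]

theorem pc_bound {η : ℝ} (hη : 0 < η) {x : Fin (n + 1) → ℝ} (hx : x ∈ U (n + 1)) (h0 : η ≤ x 0)
    (k : Fin n) : |pc η⁻¹ x k| ≤ 1 := by
  have h1 := U_abs_le hx k.succ
  have h2 : 0 < x 0 := hη.trans_le h0
  simp only [pc, Pi.smul_apply, smul_eq_mul, Fin.tail, abs_mul]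
  rw [abs_of_pos (by positivity)]
  have : (η⁻¹ * x 0)⁻¹ ≤ 1 := by
    apply inv_le_one_of_one_le₀
    rw [inv_mul_eq_div, one_le_div hη]; exact h0
  exact mul_le_one₀ this (abs_nonneg _) h1

theorem xp_bound {η : ℝ} (hη : 0 < η) {p : Fin n → ℝ} (h0 : η ≤ |xp η⁻¹ p 0|) (k : Fin n) :
    |p k| ≤ 1 := by
  rw [abs_of_pos (xp_pos _ _)] at h0
  have := pc_bound hη (xp_mem _ p) h0 k
  rwa [pc_xp (by positivity)] at this

theorem pc_contOn (P : ℝ) (hP : P ≠ 0) :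
    ContinuousOn (pc P : (Fin (n + 1) → ℝ) → _) {x | 0 < x 0} := by
  refine ContinuousOn.smul (f := fun x : Fin (n + 1) → ℝ => (P * x 0)⁻¹) ?_ ?_
  · apply ContinuousOn.inv₀ (by fun_prop)
    intro x hx; exact mul_ne_zero hP (ne_of_gt hx)
  · exact (continuous_pi fun k => continuous_apply _).continuousOn

theorem decomp_q {A : Sym2 (Fin (n + 1)) → ℝ} {x : Fin (n + 1) → ℝ} (hx : x ∈ U (n + 1))
    (h0 : 0 < 1 + x 0) (hm : ∀ u ∈ U (n + 1), qf A u ≤ qf A x) {u : Fin (n + 1) → ℝ}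
    (hu : u ∈ U (n + 1)) : ∃ t w, u = t • x + emb x w ∧ t * t + w ⬝ᵥ w = 1 ∧
      qf A u = t * t * qf A x + qf (Bm A x) w := by
  obtain ⟨w, hw⟩ := emb_decomp hx h0 u
  generalize u ⬝ᵥ x = t at hw
  have hx' : x ⬝ᵥ x = 1 := hx
  have hu' : u ⬝ᵥ u = 1 := hu
  refine ⟨t, w, hw, ?_, ?_⟩
  · rw [hw] at hu'
    simp only [add_dotProduct, dotProduct_add, smul_dotProduct, dotProduct_smul, smul_eq_mul, hx',
      dot_emb hx h0, dotProduct_comm x (emb x w), emb_dot hx h0] at hu'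
    linarith
  · rw [hw, qf_add, qf_smul, bf_smul_left, bf_comm, eig_max hx hm, dot_emb hx h0, qf_Bm]; ring

abbrev II (n : ℕ) := Fin (n + 1) ⊕ Sym2 (Fin (n + 1))

def s0 : Sym2 (Fin (n + 1)) := s(0, 0)

def pp (z : II n → ℝ) : Fin (n + 1) → ℝ := fun k => z (Sum.inl k)

def bb (z : II n → ℝ) : Sym2 (Fin (n + 1)) → ℝ := fun e => if e = s0 then 0 else z (Sum.inr e)

@[fun_prop]
theorem continuous_pp : Continuous (pp : (II n → ℝ) → _) :=
  continuous_pi fun _ => continuous_apply _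

@[fun_prop]
theorem continuous_bb : Continuous (bb : (II n → ℝ) → _) := by
  apply continuous_pi
  intro e
  by_cases h : e = s0 <;> simp only [bb, h, if_true, if_false] <;> fun_prop

noncomputable def red (τ : ℝ) (B : Sym2 (Fin (n + 1)) → ℝ) : Sym2 (Fin (n + 1)) → ℝ :=
  τ⁻¹ • B + (-(τ⁻¹ * B s0)) • dg

theorem red_s0 (τ : ℝ) (B : Sym2 (Fin (n + 1)) → ℝ) : red τ B s0 = 0 := by
  simp [red, dg, s0]

theorem qf_red {τ : ℝ} (hτ : τ ≠ 0) (B : Sym2 (Fin (n + 1)) → ℝ) {w : Fin (n + 1) → ℝ}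
    (hw : w ∈ U (n + 1)) : qf B w = τ * qf (red τ B) w + B s0 := by
  have : w ⬝ᵥ w = 1 := hw
  rw [red, qf_lin, qf_dg, this]; field_simp; ring

noncomputable def Φ (P τ : ℝ) (A : Sym2 (Fin (n + 2)) → ℝ) (p : Fin (n + 1) → ℝ) : II n → ℝ :=
  Sum.elim p (fun e => if e = s0 then (mq (Bm A (xp P p)) + qf A (xp P p)) / τ
    else red τ (Bm A (xp P p)) e)

theorem pp_Φ (P τ : ℝ) (A : Sym2 (Fin (n + 2)) → ℝ) (p : Fin (n + 1) → ℝ) :
    pp (Φ P τ A p) = p := rfl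

theorem bb_Φ (P τ : ℝ) (A : Sym2 (Fin (n + 2)) → ℝ) (p : Fin (n + 1) → ℝ) :
    bb (Φ P τ A p) = red τ (Bm A (xp P p)) := by
  funext e
  by_cases h : e = s0 <;> simp [bb, Φ, h, red_s0]

theorem ss_Φ (P τ : ℝ) (A : Sym2 (Fin (n + 2)) → ℝ) (p : Fin (n + 1) → ℝ) :
    Φ P τ A p (Sum.inr s0) = (mq (Bm A (xp P p)) + qf A (xp P p)) / τ := by simp [Φ]

theorem continuous_Φ {X : Type*} [TopologicalSpace X] (P τ : ℝ) {A : X → Sym2 (Fin (n + 2)) → ℝ}
    {p : X → Fin (n + 1) → ℝ} (hA : Continuous A) (hp : Continuous p) :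
    Continuous fun a => Φ P τ (A a) (p a) := by
  have hB : Continuous fun a => Bm (A a) (xp P (p a)) :=
    continuous_Bm hA (continuous_xp P hp) (fun a => xp_pos' _ _)
  apply continuous_pi
  rintro (k | e)
  · simp only [Φ, Sum.elim_inl]; fun_prop
  · by_cases h : e = s0 <;> simp only [Φ, Sum.elim_inr, h, if_true, if_false, red] <;> fun_prop

noncomputable def Lp (n : ℕ) : List (II n) := (Finset.univ : Finset (Fin (n + 1))).toList.map Sum.inl
noncomputable def Lb (n : ℕ) : List (II n) := (Finset.univ.erase s0).toList.map Sum.inr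
noncomputable def La (n : ℕ) : List (II n) := Sum.inr s0 :: (Lb n ++ Lp n)

theorem mem_Lp {k : II n} : k ∈ Lp n ↔ ∃ j, k = Sum.inl j := by simp [Lp, eq_comm]
theorem mem_Lb {k : II n} : k ∈ Lb n ↔ ∃ e, e ≠ s0 ∧ k = Sum.inr e := by simp [Lb, eq_comm]
theorem mem_La (k : II n) : k ∈ La n := by
  rcases k with j | e
  · simp [La, mem_Lp]
  · by_cases h : e = s0 <;> simp [La, mem_Lb, h]
theorem Lp_nodup : (Lp n).Nodup := (Finset.nodup_toList _).map Sum.inl_injective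
theorem Lb_nodup : (Lb n).Nodup := (Finset.nodup_toList _).map Sum.inr_injective
theorem La_nodup : (La n).Nodup := by
  rw [La, List.nodup_cons, List.nodup_append]
  refine ⟨by simp [mem_Lb, mem_Lp], Lb_nodup, Lp_nodup, ?_⟩
  intro a ha b hb
  obtain ⟨e, -, rfl⟩ := mem_Lb.1 ha
  obtain ⟨j, rfl⟩ := mem_Lp.1 hb
  simp
theorem Lp_length : (Lp n).length = n + 1 := by simp [Lp]
theorem Lb_length : (Lb n).length + 1 = Fintype.card (Sym2 (Fin (n + 1))) := by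
  have : 0 < Fintype.card (Sym2 (Fin (n + 1))) := Fintype.card_pos
  simp only [Lb, List.length_map, Finset.length_toList, Finset.card_erase_of_mem (Finset.mem_univ _),
    Finset.card_univ]
  omega
theorem card_succ : Fintype.card (Sym2 (Fin (n + 2))) =
    Fintype.card (Sym2 (Fin (n + 1))) + (n + 2) := by
  simp only [Sym2.card, Fintype.card_fin]
  rw [Nat.choose_succ_succ (n + 2) 1]; simp; ring
theorem La_length : (La n).length + 1 = Fintype.card (Sym2 (Fin (n + 2))) := by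
  rw [card_succ, ← Lb_length, La]; simp [Lp_length]; ring

noncomputable def τ0 (n : ℕ) : ℝ := c0 (n + 1) / (4 * (6 * (n + 1) * (n + 1) + 3))

theorem τ0_pos (n : ℕ) : 0 < τ0 n := by
  have := c0_pos (n + 1)
  unfold τ0; positivity

/-- the chart relation on the total space -/
def Gam (P : ℝ) (A : Sym2 (Fin (n + 2)) → ℝ) (z : II n → ℝ) : Prop :=
  (∀ u ∈ U (n + 2), qf A u ≤ qf A (xp P (pp z))) ∧ z = Φ P (τ0 n) A (pp z)

theorem bb_le {z : II n → ℝ} {r : ℝ} (hr : 0 ≤ r) (h : ∀ e, e ≠ s0 → |z (Sum.inr e)| ≤ r) (e) :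
    |bb z e| ≤ r := by
  by_cases he : e = s0 <;> simp [bb, he, hr, h]

theorem Gam.bound {P : ℝ} {A : Sym2 (Fin (n + 2)) → ℝ} {z : II n → ℝ} (h : Gam P A z)
    (hK : Kb (La n) 3 z) (w : Fin (n + 1) → ℝ) :
    |qf (Bm A (xp P (pp z))) w + qf A (xp P (pp z)) * (w ⬝ᵥ w)| ≤ c0 (n + 1) / 4 * (w ⬝ᵥ w) := by
  have hτ := τ0_pos n
  set B := Bm A (xp P (pp z)) with hB
  set μ := qf A (xp P (pp z)) with hμ
  have hb : bb z = red (τ0 n) B := by rw [h.2, bb_Φ]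
  have hs : |(mq B + μ) / τ0 n| ≤ 3 := by
    have := hK _ (mem_La (Sum.inr s0))
    rw [h.2, ss_Φ] at this; exact this
  have hbb : ∀ e, |red (τ0 n) B e| ≤ 3 := hb ▸ bb_le (by norm_num) fun e _ => hK _ (mem_La _)
  have key : ∀ u ∈ U (n + 1), |qf B u + μ| ≤ c0 (n + 1) / 4 := by
    intro u hu
    obtain ⟨w', h1, h2, -⟩ := exists_min B
    have e1 := qf_red hτ.ne' B hu
    have e2 := qf_red hτ.ne' B h1
    have e3 := abs_le.1 (qf_abs_le hbb hu)
    have e4 := abs_le.1 (qf_abs_le hbb h1)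
    rw [abs_div, abs_of_pos hτ, div_le_iff₀ hτ, abs_le] at hs
    have e5 : c0 (n + 1) / 4 = τ0 n * (6 * (n + 1) * (n + 1) + 3) := by
      unfold τ0; field_simp
    push_cast at e3 e4
    rw [e5, abs_le]
    constructor <;> nlinarith
  have k1 := qf_ge (A := B) (m := -μ - c0 (n + 1) / 4)
    (fun u hu => by linarith [(abs_le.1 (key u hu)).1]) w
  have k2 := qf_le (A := B) (m := -μ + c0 (n + 1) / 4)
    (fun u hu => by linarith [(abs_le.1 (key u hu)).2]) w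
  rw [abs_le]; constructor <;> linarith

theorem Gam.gap {P : ℝ} {A : Sym2 (Fin (n + 2)) → ℝ} {z : II n → ℝ} (hA : A ∈ S1 _)
    (h : Gam P A z) (hK : Kb (La n) 3 z) : c0 (n + 1) / 2 ≤ qf A (xp P (pp z)) := by
  have hc := c0_pos (n + 1)
  have hb := h.bound hK
  set x := xp P (pp z) with hx
  have hxU : x ∈ U (n + 2) := xp_mem _ _
  have hx0 : 0 < 1 + x 0 := xp_pos' _ _
  by_contra hlt
  push Not at hlt
  have h1 : -(c0 (n + 1) / 8) ≤ qf A x := by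
    have hw : (Pi.single 0 1 : Fin (n + 1) → ℝ) ⬝ᵥ Pi.single 0 1 = 1 := single_mem_U 0
    have k1 := (abs_le.1 (hb (Pi.single 0 1))).1
    have k2 := h.1 (emb x (Pi.single 0 1)) (by
      show _ ⬝ᵥ _ = 1
      rw [emb_dot hxU hx0, hw])
    rw [hw, qf_Bm] at k1
    linarith
  have := c0_le hA (N := 3 * c0 (n + 1) / 4) (by
    intro u hu
    obtain ⟨t, w, -, e2, e3⟩ := decomp_q hxU hx0 h.1 hu
    have k1 := (abs_le.1 (hb w)).1
    have k2 := h.1 u hu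
    have k3 := dot_self_nonneg w
    have k4 := mul_self_nonneg t
    rw [abs_le]; constructor
    · nlinarith
    · linarith)
  linarith

theorem Gam.uniq {P : ℝ} {A : Sym2 (Fin (n + 2)) → ℝ} {z : II n → ℝ} (hA : A ∈ S1 _)
    (h : Gam P A z) (hK : Kb (La n) 3 z) {u : Fin (n + 2) → ℝ} (hu : u ∈ U (n + 2))
    (hm : qf A (xp P (pp z)) ≤ qf A u) : u = xp P (pp z) ∨ u = -xp P (pp z) := by
  have hc := c0_pos (n + 1)
  have hg := h.gap hA hK
  obtain ⟨t, w, e1, e2, e3⟩ := decomp_q (xp_mem _ _) (xp_pos' _ _) h.1 hu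
  have k1 := (abs_le.1 (h.bound hK w)).2
  have k3 := dot_self_nonneg w
  have hw : w ⬝ᵥ w = 0 := by nlinarith
  have hw' : w = 0 := dotProduct_self_eq_zero.1 hw
  have e0 : emb (xp P (pp z)) w = 0 := by rw [hw']; exact (embL _).map_zero
  rw [hw, add_zero] at e2
  rw [e0, add_zero] at e1
  rcases mul_self_eq_one_iff.1 e2 with h | h <;> simp [e1, h]

theorem Gam.hU {P : ℝ} (hP : P ≠ 0) : ∀ A ∈ S1 _, ∀ z z' : II n → ℝ, Gam P A z → Gam P A z' →
    Kb (La n) 3 z → z' = z := by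
  intro A hA z z' h h' hK
  rcases h.uniq hA hK (xp_mem P (pp z')) (h'.1 _ (xp_mem _ _)) with e | e
  · have : pp z' = pp z := by rw [← pc_xp hP (pp z'), e, pc_xp hP]
    rw [h'.2, this, ← h.2]
  · have := congrFun e 0
    simp only [Pi.neg_apply] at this
    linarith [xp_pos P (pp z), xp_pos P (pp z')]

abbrev XX (n : ℕ) :=
  ((Sym2 (Fin (n + 2)) → ℝ) × (II n → ℝ)) × ((Sym2 (Fin (n + 2)) → ℝ) × (Fin (n + 2) → ℝ))

theorem Gam.hC {P : ℝ} (hP : P ≠ 0) : ∀ δ > (0 : ℝ), ∀ᶠ ε in 𝓝[>] (0 : ℝ), ∀ A ∈ S1 _,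
    ∀ z : II n → ℝ, Gam P A z → Kb (La n) 3 z → ∀ A' ∈ S1 _, dist A A' ≤ ε →
      ∃ z', Gam P A' z' ∧ dist z z' ≤ δ := by
  intro δ hδ
  set K : Set (XX n) := ((S1 _ ×ˢ Metric.closedBall 0 3) ×ˢ (S1 _ ×ˢ U (n + 2))) ∩
    ({k | ∀ u ∈ U (n + 2), qf k.1.1 u ≤ qf k.1.1 (xp P (pp k.1.2))} ∩
      ({k | k.1.2 = Φ P (τ0 n) k.1.1 (pp k.1.2)} ∩ ({k | ∀ u ∈ U (n + 2), qf k.2.1 u ≤ qf k.2.1 k.2.2}
      ∩ {k | 0 ≤ k.2.2 ⬝ᵥ xp P (pp k.1.2)}))) with hK
  have hKc : IsCompact K := by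
    apply IsCompact.inter_right
    · exact (S1_compact.prod (isCompact_closedBall _ _)).prod (S1_compact.prod U_compact)
    · refine IsClosed.inter ?_ (IsClosed.inter ?_ (IsClosed.inter ?_ ?_))
      · exact isClosed_all fun u _ => isClosed_le (by fun_prop) (by fun_prop)
      · exact isClosed_eq (by fun_prop) (continuous_Φ _ _ (by fun_prop) (by fun_prop))
      · exact isClosed_all fun u _ => isClosed_le (by fun_prop) (by fun_prop)
      · exact isClosed_le continuous_const (by fun_prop)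
  set O : Set (XX n) := {k | 0 < k.2.2 0} ∩
    (fun k : XX n => dist k.1.2 (Φ P (τ0 n) k.2.1 (pc P k.2.2))) ⁻¹' Set.Iio δ with hO
  have hOo : IsOpen O := by
    apply ContinuousOn.isOpen_inter_preimage _ (isOpen_lt continuous_const (by fun_prop)) isOpen_Iio
    have h1 : ContinuousOn (fun k : XX n => pc P k.2.2) {k | 0 < k.2.2 0} :=
      (pc_contOn P hP).comp (by fun_prop) fun k hk => hk
    have h2 : Continuous fun q : XX n × (Fin (n + 1) → ℝ) =>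
        dist q.1.1.2 (Φ P (τ0 n) q.1.2.1 q.2) :=
      Continuous.dist (by fun_prop) (continuous_Φ _ _ (by fun_prop) (by fun_prop))
    exact h2.comp_continuousOn (continuousOn_id.prodMk h1)
  have hKb : ∀ z : II n → ℝ, z ∈ Metric.closedBall (0 : II n → ℝ) 3 ↔ Kb (La n) 3 z := by
    intro z
    rw [mem_closedBall_zero_iff, pi_norm_le_iff_of_nonneg (by norm_num)]
    exact ⟨fun h k _ => h k, fun h k => h k (mem_La k)⟩
  have := tube hKc hOo (d := fun k : XX n => dist k.1.1 k.2.1) (by fun_prop) (by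
    rintro ⟨⟨A, z⟩, A', x⟩ ⟨⟨⟨h1, h2⟩, h3, h4⟩, h5, h6, h7, h8⟩ hd
    simp only [Set.mem_ofPred_eq] at h1 h2 h3 h4 h5 h6 h7 h8 hd
    have : A = A' := dist_le_zero.1 hd
    subst this
    have hx : x = xp P (pp z) := by
      rcases Gam.uniq h1 ⟨h5, h6⟩ ((hKb z).1 h2) h4 (h7 _ (xp_mem _ _)) with e | e
      · exact e
      · exfalso
        have : xp P (pp z) ⬝ᵥ xp P (pp z) = 1 := xp_mem _ _
        rw [e, neg_dotProduct, this] at h8; linarith
    refine ⟨?_, ?_⟩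
    · show 0 < x 0
      rw [hx]; exact xp_pos _ _
    · show dist z (Φ P (τ0 n) A (pc P x)) < δ
      rw [hx, pc_xp hP, ← h6, dist_self]; exact hδ)
  filter_upwards [this] with ε hε A hA z hz hK3 A' hA' hd
  obtain ⟨x, hx, hm, hs⟩ : ∃ x ∈ U (n + 2), (∀ u ∈ U (n + 2), qf A' u ≤ qf A' x) ∧
      0 ≤ x ⬝ᵥ xp P (pp z) := by
    obtain ⟨x, hx, hm⟩ := exists_max A'
    rcases le_total 0 (x ⬝ᵥ xp P (pp z)) with h | h
    · exact ⟨x, hx, hm, h⟩
    · exact ⟨-x, U_neg hx, by simpa [qf_neg'] using hm, by simpa using h⟩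
  obtain ⟨k1, k2⟩ := hε ((A, z), A', x) ⟨⟨⟨hA, (hKb z).2 hK3⟩, hA', hx⟩, hz.1, hz.2, hm, hs⟩ hd
  refine ⟨Φ P (τ0 n) A' (pc P x), ⟨?_, rfl⟩, le_of_lt k2⟩
  rw [pp_Φ, xp_pc hP hx k1]; exact hm

theorem Gam.hanti (hn : 1 ≤ n) {P : ℝ} : ∀ A ∈ S1 _, ∀ z z' : II n → ℝ, Gam P A z →
    Kb (La n) 3 z → Gam P (-A) z' → Kb (La n) 3 z' → False := by
  intro A hA z z' h hK h' hK'
  have hc := c0_pos (n + 1)
  have g1 := h.gap hA hK
  have g2 := h'.gap (S1_neg hA) hK'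
  set x := xp P (pp z)
  set x' := xp P (pp z')
  have hxU : x ∈ U (n + 2) := xp_mem _ _
  have hxU' : x' ∈ U (n + 2) := xp_mem _ _
  have hx0 : 0 < 1 + x 0 := xp_pos' _ _
  have hx0' : 0 < 1 + x' 0 := xp_pos' _ _
  obtain ⟨w, hw, hw0⟩ : ∃ w : Fin (n + 1) → ℝ, emb x w ⬝ᵥ x' = 0 ∧ w ≠ 0 := by
    have := LinearMap.ker_ne_bot_of_finrank_lt
      (f := ((dotProductBilin ℝ ℝ).flip x').comp (embL x)) (by simp; omega)
    obtain ⟨w, hw, hw0⟩ := Submodule.exists_mem_ne_zero_of_ne_bot this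
    exact ⟨w, hw, hw0⟩
  obtain ⟨w', hw'⟩ := emb_surj hxU' hx0' _ hw
  have e : w' ⬝ᵥ w' = w ⬝ᵥ w := by rw [← emb_dot hxU' hx0', hw', emb_dot hxU hx0]
  have k1 := (abs_le.1 (h.bound hK w)).2
  have k2 := (abs_le.1 (h'.bound hK' w')).2
  rw [qf_Bm] at k1 k2
  rw [hw', e, qf_neg] at k2
  have k3 := dot_self_pos hw0
  nlinarith

end

end Crest.Agent.H0069
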