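import Crest.Agent.H0069.KF

set_option autoImplicit false

namespace Crest.Agent.H0069

section
variable {ι : Type*} [Fintype ι] [DecidableEq ι]

def sh (i : ι) (t : ℝ) (a : ι → ℝ) : ι → ℝ := a + Pi.single i t

omit [Fintype ι] in
theorem sh_self (i : ι) (t : ℝ) (a : ι → ℝ) : sh i t a i = a i + t := by simp [sh]
omit [Fintype ι] in
theorem sh_ne {i k : ι} (hk : k ≠ i) (t : ℝ) (a : ι → ℝ) : sh i t a k = a k := by simp [sh, hk]

theorem dist_sh (i : ι) (t t' : ℝ) (a b : ι → ℝ) :
    dist (sh i t a) (sh i t' b) ≤ dist a b + |t - t'| := by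
  rw [dist_pi_le_iff (by positivity)]
  intro k
  have := dist_le_pi_dist a b k
  by_cases hk : k = i
  · subst hk
    rw [sh_self, sh_self, Real.dist_eq] at *
    calc |a k + t - (b k + t')| = |(a k - b k) + (t - t')| := by ring_nf
      _ ≤ _ := (abs_add_le _ _).trans (by linarith)
  · rw [sh_ne hk, sh_ne hk]; linarith [abs_nonneg (t - t')]

def TT (h : ℝ) (J : ℕ) (σ : ℝ) (i : ι) : Co (ι → ℝ) →+ Co (ι → ℝ) :=
  tele (fun j a => sh i (σ * (j * h)) a) J

def PP (h : ℝ) (J : ℕ) (i : ι) : Co (ι → ℝ) →+ Co (ι → ℝ) := TT h J 1 i + TT h J (-1) i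

def cubeOp (h : ℝ) (J : ℕ) : List ι → Co (ι → ℝ) →+ Co (ι → ℝ)
  | [] => AddMonoidHom.id _
  | i :: L => (cubeOp h J L).comp (PP h J i)

omit [Fintype ι] in
theorem cubeOp_append (h : ℝ) (J : ℕ) (L M : List ι) (γ : Co (ι → ℝ)) :
    cubeOp h J (L ++ M) γ = cubeOp h J M (cubeOp h J L γ) := by
  induction L generalizing γ with
  | nil => rfl
  | cons i L ih => simp only [List.cons_append, cubeOp, AddMonoidHom.comp_apply, ih]

omit [Fintype ι] in
theorem TT_prism (h : ℝ) (J : ℕ) (σ : ℝ) (i : ι) (γ : Co (ι → ℝ)) :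
    TT h J σ i (cob γ) + cob (TT h J σ i γ) = γ + pb (sh i (σ * (J * h))) γ := by
  have := tele_prism (fun (j : ℕ) a => sh i (σ * (j * h)) a) J γ
  rw [TT, this]
  congr 1
  funext l
  have : (fun a : ι → ℝ => sh i (σ * (((0 : ℕ) : ℝ) * h)) a) = id := by
    funext a; simp [sh]
  rw [this, pb_apply, List.map_id]

theorem TT_eq_zero {h : ℝ} (hh : 0 ≤ h) (J : ℕ) {σ : ℝ} (hσ : |σ| = 1) (i : ι) (γ : Co (ι → ℝ))
    {s : ℝ} {l : List (ι → ℝ)} (hl : small s l)
    (H : ∀ m : List (ι → ℝ), m.length = l.length + 1 → small (s + h) m →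
      (∀ b ∈ m, ∃ a ∈ l, ∃ t, 0 ≤ t ∧ t ≤ J * h ∧ b = sh i (σ * t) a) → γ m = 0) :
    TT h J σ i γ l = 0 := by
  apply tele_eq_zero
  intro j hj m hm hb
  have hb' : ∀ b ∈ m, ∃ a ∈ l, ∃ j' : ℕ, (j' = j ∨ j' = j + 1) ∧ b = sh i (σ * (j' * h)) a := by
    intro b hb1
    obtain ⟨a, ha, h | h⟩ := hb b hb1
    · exact ⟨a, ha, j, Or.inl rfl, h⟩
    · exact ⟨a, ha, j + 1, Or.inr rfl, h⟩
  apply H m hm
  · intro b hb1 b' hb2
    obtain ⟨a, ha, j1, hj1, rfl⟩ := hb' b hb1
    obtain ⟨a', ha', j2, hj2, rfl⟩ := hb' b' hb2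
    refine (dist_sh _ _ _ _ _).trans (add_le_add (hl a ha a' ha') ?_)
    rw [← mul_sub, abs_mul, hσ, one_mul, ← sub_mul, abs_mul, abs_of_nonneg hh]
    apply mul_le_of_le_one_left hh
    rcases hj1 with rfl | rfl <;> rcases hj2 with rfl | rfl <;> simp
  · intro b hb1
    obtain ⟨a, ha, j1, hj1, rfl⟩ := hb' b hb1
    refine ⟨a, ha, j1 * h, by positivity, ?_, rfl⟩
    apply mul_le_mul_of_nonneg_right _ hh
    exact_mod_cast (by omega : j1 ≤ J)

theorem cubeOp_eq_zero {h : ℝ} (hh : 0 ≤ h) (J : ℕ) (L : List ι) (hL : L.Nodup) {s : ℝ}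
    {l : List (ι → ℝ)} (hl : small s l) : ∀ (γ : Co (ι → ℝ)),
    (∀ m : List (ι → ℝ), m.length = l.length + L.length → small (s + L.length * h) m →
      (∀ b ∈ m, ∃ a ∈ l, (∀ k, k ∉ L → b k = a k) ∧ ∀ k ∈ L, |b k - a k| ≤ J * h) → γ m = 0) →
    cubeOp h J L γ l = 0 := by
  induction L with
  | nil =>
    intro γ H
    apply H l rfl (by simpa using hl)
    intro b hb
    exact ⟨b, hb, fun _ _ => rfl, fun k hk => absurd hk (by simp)⟩
  | cons i L ih =>
    intro γ H
    obtain ⟨hi, hL'⟩ := List.nodup_cons.1 hL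
    apply ih hL'
    intro m hm hsm hb
    have key : ∀ σ : ℝ, |σ| = 1 → TT h J σ i γ m = 0 := by
      intro σ hσ
      apply TT_eq_zero hh J hσ i γ hsm
      intro m' hm' hsm' hb'
      apply H m'
      · rw [hm', hm]; simp; ring
      · convert hsm' using 1; simp; ring
      · intro c hc
        obtain ⟨b, hbm, t, t0, t1, rfl⟩ := hb' c hc
        obtain ⟨a, ha, h1, h2⟩ := hb b hbm
        refine ⟨a, ha, ?_, ?_⟩
        · intro k hk
          simp only [List.mem_cons, not_or] at hk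
          rw [sh_ne hk.1, h1 k hk.2]
        · intro k hk
          by_cases hki : k = i
          · subst hki
            rw [sh_self, h1 k hi, add_sub_cancel_left, abs_mul, hσ, one_mul, abs_of_nonneg t0]
            exact t1
          · rw [sh_ne hki]
            exact h2 k ((List.mem_cons.1 hk).resolve_left hki)
    show TT h J 1 i γ m + TT h J (-1) i γ m = 0
    rw [key 1 (by simp), key (-1) (by simp), add_zero]

def Reg (z0 : ι → ℝ) (L : List ι) (ε R : ℝ) (a : ι → ℝ) : Prop :=
  (∀ k, k ∉ L → |a k - z0 k| ≤ ε) ∧ ∀ k ∈ L, |a k| ≤ R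

def Far (L : List ι) (r : ℝ) (a : ι → ℝ) : Prop := ∃ k ∈ L, r ≤ |a k|

theorem cube_bd {h : ℝ} (hh : 0 ≤ h) (J : ℕ) {r R : ℝ} (hr : r ≤ J * h) (hR : J * h ≤ R)
    (z0 : ι → ℝ) (L : List ι) (hL : L.Nodup) (hz : ∀ k ∈ L, z0 k = 0) : ∀ γ : Co (ι → ℝ),
    (∀ l, small (L.length * h) l → (∀ a ∈ l, Reg z0 L 0 R a ∧ Far L r a) → γ l = 0) →
    cubeOp h J L (cob γ) [z0] = 0 := by
  induction L with
  | nil =>
    intro γ H
    show dl [z0] γ = 0
    simp only [dl, add_zero]
    exact H [] (fun _ h => absurd h (by simp)) (fun _ h => absurd h (by simp))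
  | cons i L ih =>
    intro γ H
    obtain ⟨hi, hL'⟩ := List.nodup_cons.1 hL
    have hz' : ∀ k ∈ L, z0 k = 0 := fun k hk => hz k (List.mem_cons_of_mem _ hk)
    have hzi : z0 i = 0 := hz i List.mem_cons_self
    have e : PP h J i (cob γ) = cob (PP h J i γ) + pb (sh i (1 * (J * h))) γ +
        pb (sh i (-1 * (J * h))) γ := by
      have h1 := TT_prism h J 1 i γ
      have h2 := TT_prism h J (-1) i γ
      have h3 := co_add_self γ
      have h4 := co_add_self (cob (TT h J 1 i γ))
      have h5 := co_add_self (cob (TT h J (-1) i γ))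
      simp only [PP, AddMonoidHom.add_apply, map_add]
      linear_combination h1 + h2 + h3 - h4 - h5
    have hsm : small 0 [z0] := by
      intro a ha b hb
      rw [List.mem_singleton.1 ha, List.mem_singleton.1 hb, dist_self]
    have key : ∀ σ : ℝ, |σ| = 1 → cubeOp h J L (pb (sh i (σ * (J * h))) γ) [z0] = 0 := by
      intro σ hσ
      apply cubeOp_eq_zero hh J L hL' hsm
      intro m _ hm hb
      apply H
      · intro a ha b hb
        obtain ⟨a', ha', rfl⟩ := List.mem_map.1 ha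
        obtain ⟨b', hb', rfl⟩ := List.mem_map.1 hb
        refine (dist_sh _ _ _ _ _).trans ?_
        have := hm a' ha' b' hb'
        simp only [sub_self, abs_zero, List.length_cons]
        push_cast
        linarith
      · intro a ha
        obtain ⟨b, hbm, rfl⟩ := List.mem_map.1 ha
        obtain ⟨c, hc, h1, h2⟩ := hb b hbm
        rw [List.mem_singleton.1 hc] at h1 h2
        have hJ : |sh i (σ * (J * h)) b i| = J * h := by
          rw [sh_self, h1 i hi, hzi, zero_add, abs_mul, hσ, one_mul, abs_of_nonneg (by positivity)]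
        refine ⟨⟨?_, ?_⟩, i, List.mem_cons_self, by rw [hJ]; exact hr⟩
        · intro k hk
          simp only [List.mem_cons, not_or] at hk
          rw [sh_ne hk.1, h1 k hk.2]; simp
        · intro k hk
          by_cases hki : k = i
          · subst hki; rw [hJ]; exact hR
          · have hk' := (List.mem_cons.1 hk).resolve_left hki
            have := h2 k hk'
            rw [hz' k hk', sub_zero] at this
            rw [sh_ne hki]; exact this.trans hR
    show cubeOp h J L (PP h J i (cob γ)) [z0] = 0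
    rw [e, map_add, map_add, Pi.add_apply, Pi.add_apply, key 1 (by simp), key (-1) (by simp),
      ih hL' hz', add_zero, add_zero]
    intro l hl hb
    have key2 : ∀ σ : ℝ, |σ| = 1 → TT h J σ i γ l = 0 := by
      intro σ hσ
      apply TT_eq_zero hh J hσ i γ hl
      intro m _ hm hb'
      apply H m
      · convert hm using 1; simp; ring
      · intro c hc
        obtain ⟨a, ha, t, t0, t1, rfl⟩ := hb' c hc
        obtain ⟨⟨h1, h2⟩, k, hk, h3⟩ := hb a ha
        have hki : k ≠ i := fun h => hi (h ▸ hk)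
        refine ⟨⟨?_, ?_⟩, k, List.mem_cons_of_mem _ hk, by rw [sh_ne hki]; exact h3⟩
        · intro k hk
          simp only [List.mem_cons, not_or] at hk
          rw [sh_ne hk.1]; exact h1 k hk.2
        · intro k hk
          by_cases hki : k = i
          · subst hki
            have := h1 k hi
            rw [hzi, sub_zero, abs_nonpos_iff] at this
            rw [sh_self, this, zero_add, abs_mul, hσ, one_mul, abs_of_nonneg t0]
            exact t1.trans hR
          · rw [sh_ne hki]; exact h2 k ((List.mem_cons.1 hk).resolve_left hki)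
    show TT h J 1 i γ l + TT h J (-1) i γ l = 0
    rw [key2 1 (by simp), key2 (-1) (by simp), add_zero]

/-- half-space region -/
def Hreg (z0 : ι → ℝ) (i : ι) (L : List ι) (ε ρ R σ : ℝ) (a : ι → ℝ) : Prop :=
  (∀ k, k ∉ i :: L → |a k - z0 k| ≤ ε) ∧ (∀ k ∈ L, |a k| ≤ R) ∧ -ε ≤ σ * a i ∧ σ * a i ≤ ρ

omit [Fintype ι] in
theorem Hreg.shift {z0 : ι → ℝ} {i : ι} {L : List ι} {ε ρ R σ T t : ℝ} {a : ι → ℝ}
    (hσ : |σ| = 1) (ha : Hreg z0 i L ε ρ R σ a) (hερ : ε ≤ ρ) (hR : ρ + T ≤ R)
    (t0 : 0 ≤ t) (t1 : t ≤ T) : Reg z0 (i :: L) ε R (sh i (σ * t) a) ∧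
      |sh i (σ * t) a i| = |σ * a i + t| := by
  obtain ⟨h1, h2, h3, h4⟩ := ha
  have hσ2 : σ * σ = 1 := by
    have := sq_abs σ
    rw [hσ] at this; nlinarith
  have e : |sh i (σ * t) a i| = |σ * a i + t| := by
    rw [sh_self, ← one_mul |a i + σ * t|, ← hσ, ← abs_mul, mul_add, ← mul_assoc, hσ2, one_mul]
  refine ⟨⟨?_, ?_⟩, e⟩
  · intro k hk
    have hki : k ≠ i := fun h => hk (h ▸ List.mem_cons_self)
    rw [sh_ne hki]; exact h1 k hk
  · intro k hk
    by_cases hki : k = i
    · subst hki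
      rw [e, abs_le]; constructor <;> linarith
    · rw [sh_ne hki]; exact h2 k ((List.mem_cons.1 hk).resolve_left hki)

theorem uniq {h : ℝ} (hh : 0 ≤ h) (J : ℕ) {ε r ρ R : ℝ} (hε : 0 ≤ ε) (hr : ε < r)
    (hJ : r + ε ≤ J * h) (hρ : ε ≤ ρ) (hR : ρ + J * h ≤ R)
    (z0 : ι → ℝ) (L : List ι) (hL : L.Nodup) (hz : ∀ k ∈ L, z0 k = 0) :
    ∀ (ζ : Ch (ι → ℝ)) (γ : Co (ι → ℝ)),
    Supp ζ (fun l => l.length = L.length + 1 ∧ small ε l ∧ ∀ a ∈ l, Reg z0 L ε ρ a) →
    Supp (ζ.comp cob) (fun l => ∀ a ∈ l, Far L r a) →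
    (∀ l, small (ε + L.length * h) l → (∀ a ∈ l, Reg z0 L ε R a) → cob γ l = 0) →
    (∀ l, small (ε + L.length * h) l → (∀ a ∈ l, Reg z0 L ε R a ∧ Far L r a) → γ l = 0) →
    cubeOp h J L γ [z0] = 0 → ζ γ = 0 := by
  induction L with
  | nil =>
    intro ζ γ h1 _ h3 _ h5
    apply h1
    rintro l ⟨hl, -, hl2⟩
    obtain ⟨a, rfl⟩ := List.length_eq_one_iff.1 hl
    have ha := hl2 a List.mem_cons_self
    have hd : dist a z0 ≤ ε := by
      rw [dist_pi_le_iff hε]
      intro k; exact ha.1 k (by simp)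
    have hd' : dist z0 a ≤ ε := dist_comm a z0 ▸ hd
    have hz0 : Reg z0 [] ε R z0 := ⟨fun k _ => by simpa using hε, fun k hk => absurd hk (by simp)⟩
    have := h3 [a, z0] (by
      intro x hx y hy
      simp only [List.mem_cons, List.not_mem_nil, or_false] at hx hy
      rcases hx with rfl | rfl <;> rcases hy with rfl | rfl <;> simp [hε, hd, hd']) (by
      intro x hx
      simp only [List.mem_cons, List.not_mem_nil, or_false] at hx
      rcases hx with rfl | rfl
      · exact ⟨ha.1, fun k hk => absurd hk (by simp)⟩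
      · exact hz0)
    have h5' : γ [z0] = 0 := h5
    simpa [cob_apply, dl, h5'] using this
  | cons i L ih =>
    intro ζ γ h1 h2 h3 h4 h5
    obtain ⟨hi, hL'⟩ := List.nodup_cons.1 hL
    have hz' : ∀ k ∈ L, z0 k = 0 := fun k hk => hz k (List.mem_cons_of_mem _ hk)
    have hzi : z0 i = 0 := hz i List.mem_cons_self
    have hJh : 0 ≤ (J : ℝ) * h := by positivity
    have hLh : 0 ≤ (L.length : ℝ) * h := by positivity
    have hlen : ε + ((i :: L).length : ℝ) * h = ε + L.length * h + h := by simp; ring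
    rw [hlen] at h3 h4
    have lemH : ∀ σ : ℝ, |σ| = 1 → ∀ l, small (ε + L.length * h) l →
        (∀ a ∈ l, Hreg z0 i L ε ρ R σ a) → cob (TT h J σ i γ) l = γ l := by
      intro σ hσ l hl ha
      have e := congrFun (TT_prism h J σ i γ) l
      have e1 : TT h J σ i (cob γ) l = 0 := by
        apply TT_eq_zero hh J hσ i _ hl
        intro m _ hm hb
        apply h3 m hm
        intro c hc
        obtain ⟨a, ha', t, t0, t1, rfl⟩ := hb c hc
        exact ((ha a ha').shift hσ hρ hR t0 t1).1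
      have e2 : pb (sh i (σ * (J * h))) γ l = 0 := by
        apply h4
        · intro a ha b hb
          obtain ⟨a', ha', rfl⟩ := List.mem_map.1 ha
          obtain ⟨b', hb', rfl⟩ := List.mem_map.1 hb
          refine (dist_sh _ _ _ _ _).trans ?_
          have := hl a' ha' b' hb'
          simp only [sub_self, abs_zero]
          linarith
        · intro c hc
          obtain ⟨a, ha', rfl⟩ := List.mem_map.1 hc
          obtain ⟨k1, k2⟩ := (ha a ha').shift hσ hρ hR hJh le_rfl
          refine ⟨k1, i, List.mem_cons_self, ?_⟩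
          rw [k2]
          have := (ha a ha').2.2.1
          exact le_trans (by linarith) (le_abs_self _)
      simpa [e1, e2] using e
    have lemV : ∀ σ : ℝ, |σ| = 1 → ∀ l, small (ε + L.length * h) l →
        (∀ a ∈ l, Hreg z0 i L ε ρ R σ a ∧ Far (i :: L) r a) → TT h J σ i γ l = 0 := by
      intro σ hσ l hl ha
      apply TT_eq_zero hh J hσ i _ hl
      intro m _ hm hb
      apply h4 m hm
      intro c hc
      obtain ⟨a, ha', t, t0, t1, rfl⟩ := hb c hc
      obtain ⟨k1, k2⟩ := (ha a ha').1.shift hσ hρ hR t0 t1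
      refine ⟨k1, ?_⟩
      obtain ⟨k, hk, hk2⟩ := (ha a ha').2
      refine ⟨k, hk, ?_⟩
      by_cases hki : k = i
      · subst hki
        rw [k2]
        have h6 := (ha a ha').1.2.2.1
        have h7 : |σ * a k| = |a k| := by rw [abs_mul, hσ, one_mul]
        have h8 : r ≤ σ * a k := by
          rw [← h7] at hk2
          rcases le_abs.1 hk2 with h | h
          · exact h
          · linarith
        exact le_trans (by linarith) (le_abs_self _)
      · rw [sh_ne hki]; exact hk2
    have hreg : ∀ σ : ℝ, |σ| = 1 → ∀ a, Reg z0 (i :: L) ε ρ a → -ε ≤ σ * a i →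
        Hreg z0 i L ε ρ R σ a := by
      intro σ hσ a ha hb
      refine ⟨ha.1, fun k hk => (ha.2 k (List.mem_cons_of_mem _ hk)).trans (by linarith), hb, ?_⟩
      have := ha.2 i List.mem_cons_self
      rw [← one_mul |a i|, ← hσ, ← abs_mul] at this
      exact (le_abs_self _).trans this
    set p : List (ι → ℝ) → Prop := fun l => ∀ a ∈ l, -ε ≤ a i with hp
    set Sl : List (ι → ℝ) → Prop := fun l => ∀ a ∈ l, |a i| ≤ ε with hSl
    set A : ℕ → ℝ → List (ι → ℝ) → Prop := fun n σ l => l.length = n ∧ small ε l ∧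
      ∀ a ∈ l, Reg z0 (i :: L) ε ρ a ∧ -ε ≤ σ * a i with hA
    have sP : Supp (ζ.comp (rs p)) (A (L.length + 2) 1) := by
      refine (h1.res p).mono ?_
      rintro l ⟨⟨k1, k2, k3⟩, k4⟩
      exact ⟨by simpa using k1, k2, fun a ha => ⟨k3 a ha, by simpa using k4 a ha⟩⟩
    have sM : Supp (ζ.comp (rs fun l => ¬ p l)) (A (L.length + 2) (-1)) := by
      refine (h1.res _).mono ?_
      rintro l ⟨⟨k1, k2, k3⟩, k4⟩
      refine ⟨by simpa using k1, k2, fun a ha => ⟨k3 a ha, ?_⟩⟩
      simp only [hp, not_forall, not_le] at k4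
      obtain ⟨b, hb, k4⟩ := k4
      have := (dist_le_pi_dist a b i).trans (k2 a ha b hb)
      rw [Real.dist_eq, abs_le] at this
      linarith
    have bdA : ∀ (η : Ch (ι → ℝ)) σ, Supp η (A (L.length + 2) σ) →
        Supp (η.comp cob) (A (L.length + 1) σ) := by
      intro η σ hη
      apply hη.bd
      rintro l ⟨k1, k2, k3⟩ m hm hb
      exact ⟨by omega, k2.sub hb, fun a ha => k3 a (hb a ha)⟩
    have half : ∀ (η : Ch (ι → ℝ)) σ, |σ| = 1 → Supp η (A (L.length + 2) σ) →
        η γ = η.comp cob (TT h J σ i γ) := by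
      intro η σ hσ hη
      apply hη.congr
      rintro l ⟨-, k2, k3⟩
      exact (lemH σ hσ l (k2.mono (by linarith)) fun a ha => hreg σ hσ a (k3 a ha).1 (k3 a ha).2).symm
    set bP := (ζ.comp (rs p)).comp cob with hbP
    set bM := (ζ.comp (rs fun l => ¬ p l)).comp cob with hbM
    have hsum : bP + bM = ζ.comp cob := by
      rw [hbP, hbM, ← AddMonoidHom.add_comp, comp_rs_add]
    have chself : ∀ η : Ch (ι → ℝ), η + η = 0 := fun η => by
      ext γ; exact f2_add_self _
    have eP : bP = ζ.comp cob + bM := by rw [← hsum, add_assoc, chself, add_zero]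
    have eM : bM = ζ.comp cob + bP := by rw [← hsum, add_comm bP, add_assoc, chself, add_zero]
    have out : ∀ (η η' : Ch (ι → ℝ)) σ, |σ| = 1 → η = ζ.comp cob + η' →
        Supp η (A (L.length + 1) σ) → Supp η' (A (L.length + 1) (-σ)) →
        Supp (η.comp (rs fun l => ¬ Sl l))
          (fun l => A (L.length + 1) σ l ∧ ∀ a ∈ l, Far (i :: L) r a) := by
      intro η η' σ hσ e s1 s2
      have s3 := h2.add s2
      rw [← e] at s3
      refine ((s1.and s3).res _).mono ?_
      rintro l ⟨⟨k1, k2 | k2⟩, k3⟩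
      · exact ⟨k1, k2⟩
      · exfalso
        apply k3
        intro a ha
        have m1 := (k1.2.2 a ha).2
        have m2 := (k2.2.2 a ha).2
        rw [← one_mul |a i|, ← hσ, ← abs_mul, abs_le]
        constructor <;> linarith
    have outV : ∀ (η : Ch (ι → ℝ)) σ, |σ| = 1 →
        Supp η (fun l => A (L.length + 1) σ l ∧ ∀ a ∈ l, Far (i :: L) r a) →
        η (TT h J σ i γ) = 0 := by
      intro η σ hσ s
      apply s
      rintro l ⟨⟨-, k2, k3⟩, k4⟩
      exact lemV σ hσ l (k2.mono (by linarith)) fun a ha =>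
        ⟨hreg σ hσ a (k3 a ha).1 (k3 a ha).2, k4 a ha⟩
    have oP := out bP bM 1 (by simp) eP (bdA _ _ sP) (bdA _ _ sM)
    have oM := out bM bP (-1) (by simp) eM (bdA _ _ sM) (by simpa using bdA _ _ sP)
    set ξ := bP.comp (rs Sl) with hξ
    have q1 : bP (TT h J 1 i γ) = ξ (TT h J 1 i γ) := by
      have := outV _ 1 (by simp) oP
      conv_lhs => rw [← comp_rs_add bP Sl]
      rw [AddMonoidHom.add_apply, this, add_zero]
    have q2 : bM (TT h J (-1) i γ) = ξ (TT h J (-1) i γ) := by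
      have := outV _ (-1) (by simp) oM
      conv_lhs => rw [← comp_rs_add bM Sl]
      rw [AddMonoidHom.add_apply, this, add_zero, eM, AddMonoidHom.add_comp,
        AddMonoidHom.add_apply, outV _ (-1) (by simp), zero_add]
      have s1 : Supp (ζ.comp cob) (fun l => l.length = L.length + 1 ∧ small ε l ∧
          ∀ a ∈ l, Reg z0 (i :: L) ε ρ a) := by
        apply h1.bd
        rintro l ⟨k1, k2, k3⟩ m hm hb
        exact ⟨by simp at k1; omega, k2.sub hb, fun a ha => k3 a (hb a ha)⟩
      refine ((s1.and h2).res _).mono ?_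
      rintro l ⟨⟨⟨k1, k2, k3⟩, k4⟩, k5⟩
      refine ⟨⟨k1, k2, fun a ha => ⟨k3 a ha, ?_⟩⟩, k4⟩
      have := abs_le.1 (k5 a ha)
      linarith
    have main : ζ γ = ξ (PP h J i γ) := by
      conv_lhs => rw [← comp_rs_add ζ p]
      rw [AddMonoidHom.add_apply, half _ 1 (by simp) sP, half _ (-1) (by simp) sM, q1, q2,
        ← map_add]
      rfl
    have sξ : Supp ξ (fun l => A (L.length + 1) 1 l ∧ Sl l) := (bdA _ _ sP).res Sl
    have slab : ∀ σ : ℝ, |σ| = 1 → ∀ a, Reg z0 L ε R a → Hreg z0 i L ε ρ R σ a := by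
      intro σ hσ a ha
      have := ha.1 i hi
      rw [hzi, sub_zero, ← one_mul |a i|, ← hσ, ← abs_mul, abs_le] at this
      exact ⟨fun k hk => ha.1 k fun h => hk (List.mem_cons_of_mem _ h), ha.2, this.1, by linarith⟩
    rw [main]
    apply ih hL' hz' ξ _ _ _ _ _ h5
    · refine sξ.mono ?_
      rintro l ⟨⟨k1, k2, k3⟩, k4⟩
      refine ⟨k1, k2, fun a ha => ⟨?_, fun k hk => (k3 a ha).1.2 k (List.mem_cons_of_mem _ hk)⟩⟩
      intro k hk
      by_cases hki : k = i
      · subst hki; rw [hzi, sub_zero]; exact k4 a ha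
      · exact (k3 a ha).1.1 k (by simp [hki, hk])
    · have e : ξ.comp cob = (bP.comp (rs fun l => ¬ Sl l)).comp cob := by
        ext β
        apply f2_eq_of_add
        have := congrArg (fun η : Ch (ι → ℝ) => η (cob β)) (comp_rs_add bP Sl)
        simp only [AddMonoidHom.add_apply] at this
        simp only [AddMonoidHom.comp_apply, hξ] at this ⊢
        rw [this, hbP, AddMonoidHom.comp_apply, cob_cob, map_zero]
      have s1 : Supp (ξ.comp cob) Sl := by
        apply sξ.bd
        rintro l ⟨-, k⟩ m _ hb a ha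
        exact k a (hb a ha)
      have s2 : Supp (ξ.comp cob) (fun l => ∀ a ∈ l, Far (i :: L) r a) := by
        rw [e]
        apply oP.bd
        rintro l ⟨-, k⟩ m _ hb a ha
        exact k a (hb a ha)
      refine (s1.and s2).mono ?_
      rintro l ⟨k1, k2⟩ a ha
      obtain ⟨k, hk, hk2⟩ := k2 a ha
      rcases List.mem_cons.1 hk with rfl | hk
      · exfalso; linarith [k1 a ha]
      · exact ⟨k, hk, hk2⟩
    · intro l hl ha
      have e1 := lemH 1 (by simp) l hl fun a h => slab 1 (by simp) a (ha a h)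
      have e2 := lemH (-1) (by simp) l hl fun a h => slab (-1) (by simp) a (ha a h)
      simp only [PP, AddMonoidHom.add_apply, map_add, Pi.add_apply, e1, e2, f2_add_self]
    · intro l hl ha
      have far : ∀ a ∈ l, Far (i :: L) r a := fun a h => by
        obtain ⟨k, hk, hk2⟩ := (ha a h).2
        exact ⟨k, List.mem_cons_of_mem _ hk, hk2⟩
      have e1 := lemV 1 (by simp) l hl fun a h => ⟨slab 1 (by simp) a (ha a h).1, far a h⟩
      have e2 := lemV (-1) (by simp) l hl fun a h => ⟨slab (-1) (by simp) a (ha a h).1, far a h⟩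
      simp only [PP, AddMonoidHom.add_apply, Pi.add_apply, e1, e2, add_zero]

end

end Crest.Agent.H0069
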